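import Crest.Agent.X212.Dr59.NbA
import Crest.Agent.X212.Sid48.Chg

/-!
# Row 212 (helper38): the numbers of the pieces add up (`sum_nb`, the body of `Rf65.SumStmt`)
-/

set_option autoImplicit false
set_option linter.unusedSectionVars false
noncomputable section
open Set Function
open scoped ContDiff Manifold

namespace Crest.Agent.X212.Tm38
open M Sid48 Dr59 Num57 G75

section sys
variable {X A : Type} [TopologicalSpace X] [PreconnectedSpace X] [Fintype A] [DecidableEq A]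
  {S : Sys X A} {c : Finset A} {a : A}

/-- a new wall cuts exactly one piece into two -/
theorem pcs_insert (hc : S.Cell ↑(insert a c)) (ha : a ∉ c) : ∃ ρ₀ ∈ pcs S c, ∃ p : Bool → Reg A,
    (S.w a).band ⊆ S.U ρ₀ ∧ (∀ b, p b a = some b ∧ S.U (p b) = S.U ρ₀ ∩ (S.w a).sd b) ∧
    ∀ ρ, ρ ∈ pcs S (insert a c) ↔ ρ = p true ∨ ρ = p false ∨ ρ ∈ (pcs S c).erase ρ₀ := by
  have s : (↑c : Set A) ⊆ ↑(insert a c) := Finset.coe_subset.2 (Finset.subset_insert _ _)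
  have m : a ∈ (↑(insert a c) : Set A) := Finset.mem_insert_self _ _
  have hc' := hc.mono s
  obtain ⟨ρ₀, ⟨h0, i0⟩, u0⟩ := Sys.existsUnique_inn hc' ha fun a' k => hc m (s k) (by rintro rfl; exact ha k)
  choose p hp using fun b => (Sys.existsUnique_adj hc m b).exists
  have up : ∀ {ρ b}, S.Piece ↑(insert a c) ρ → ρ a = some b → ρ = p b := fun h k =>
    (Sys.existsUnique_adj hc m _).unique ⟨h, k⟩ (hp _)
  have old : ∀ {ρ}, S.Piece ↑(insert a c) ρ → ρ a = none → S.Piece ↑c ρ ∧ ρ ≠ ρ₀ := fun h k =>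
    ⟨⟨h.toIsReg, fun a' q => (Finset.mem_insert.1 (h.bd_subset q)).resolve_left (by rintro rfl; exact q k),
      fun a' q => h.not_inn a' (s q)⟩, by rintro rfl; exact h.not_inn a m i0⟩
  refine ⟨ρ₀, mem_pcs.2 h0, p, i0.2.1, fun b => ⟨(hp b).2, Subset.antisymm (subset_inter ?_
    fun x k => k a b (hp b).2) fun x k => ?_⟩, fun ρ => ⟨fun h => ?_, ?_⟩⟩
  · obtain ⟨x, hx⟩ := (S.w a).ne b
    exact (h0.sub (hp b).1.toIsReg (hc.mono (union_subset s (hp b).1.bd_subset))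
      (fun a' q => (hp b).1.not_inn a' (s q)) (i0.2.1 hx.1) ((hp b).1.adj a b (hp b).2 hx)).subset
  · obtain ⟨ρ, h1, h2⟩ := Sys.exists_piece hc (x := x) fun q => by
      obtain ⟨a', q1, q2⟩ := mem_iUnion₂.1 q
      rcases Finset.mem_insert.1 q1 with rfl | q1
      exacts [q2 b k.2, disjoint_left.1 (h0.disjoint_cores hc') k.1 (mem_biUnion q1 q2)]
    rcases e : ρ a with _ | b'
    · exact ((old h1 e).2 ((old h1 e).1.unique hc' h0 h2 k.1)).elim
    · rwa [(S.w a).sd_inj k.2 (h2 a b' e), ← up h1 e]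
  · rcases e : ρ a with _ | _ | _
    exacts [.inr (.inr (Finset.mem_erase.2 ⟨(old (mem_pcs.1 h) e).2, mem_pcs.2 (old (mem_pcs.1 h) e).1⟩)),
      .inr (.inl (up (mem_pcs.1 h) e)), .inl (up (mem_pcs.1 h) e)]
  · rintro (rfl | rfl | h)
    exacts [mem_pcs.2 (hp _).1, mem_pcs.2 (hp _).1, let k := mem_pcs.1 (Finset.mem_erase.1 h).2
      mem_pcs.2 ⟨k.toIsReg, k.bd_subset.trans s, fun a' q i => (Finset.mem_insert.1 q).elim
        (fun e => (Finset.mem_erase.1 h).1 (u0 _ ⟨k, e ▸ i⟩)) fun q => k.not_inn a' q i⟩]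

theorem pcs_empty [Nonempty X] : pcs S ∅ = {top A} := by
  ext ρ
  rw [mem_pcs, Finset.mem_singleton, Finset.coe_empty]
  exact ⟨fun h => funext fun a => by_contra fun k => h.bd_subset k, fun h => h ▸ S.piece_top⟩

/-- additive quantities -/
theorem sum_pcs [Nonempty X] {V : Type} [AddCommMonoid V] {P : Set X → Prop} {ν : Set X → V} (h0 : P univ)
    (hc : S.Cell ↑c) (h : ∀ a ∈ c, ∀ W, P W → (S.w a).band ⊆ W → (∀ b, P (W ∩ (S.w a).sd b)) ∧
      ν W = ν (W ∩ (S.w a).sd true) + ν (W ∩ (S.w a).sd false)) :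
    (∀ ρ ∈ pcs S c, P (S.U ρ)) ∧ ∑ ρ ∈ pcs S c, ν (S.U ρ) = ν univ := by
  classical
  induction c using Finset.induction_on with
  | empty => simpa [pcs_empty] using h0
  | insert a c ha ih =>
    obtain ⟨i1, i2⟩ := ih (hc.mono (Finset.coe_subset.2 (Finset.subset_insert _ _)))
      fun a' k => h a' (Finset.mem_insert_of_mem k)
    obtain ⟨ρ₀, h1, p, h2, h3, h4⟩ := pcs_insert hc ha
    obtain ⟨k1, k2⟩ := h a (Finset.mem_insert_self _ _) _ (i1 _ h1) h2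
    have n : ∀ b, p b ∉ (pcs S c).erase ρ₀ := fun b k =>
      ha ((mem_pcs.1 (Finset.mem_erase.1 k).2).bd_subset (Sys.mem_bd_of (h3 b).1))
    refine ⟨fun ρ k => ?_, ?_⟩
    · rcases (h4 ρ).1 k with rfl | rfl | k
      exacts [(h3 _).2 ▸ k1 _, (h3 _).2 ▸ k1 _, i1 _ (Finset.mem_erase.1 k).2]
    · rw [show pcs S (insert a c) = insert (p true) (insert (p false) ((pcs S c).erase ρ₀)) by
        ext; simp only [h4, Finset.mem_insert], Finset.sum_insert (by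
          rw [Finset.mem_insert, not_or]
          exact ⟨fun e => by simpa [e, (h3 false).1] using (h3 true).1, n _⟩), Finset.sum_insert (n _),
        (h3 _).2, (h3 _).2, ← add_assoc, ← k2, Finset.add_sum_erase _ (fun ρ => ν (S.U ρ)) h1, i2]

end sys

theorem hz_rnd {Y : Mf 3} {κ : Type} [Fintype κ] {F : An.Fr Y.I Y.M κ} {θ : Y.M → V4} (h : Round F θ) :
    ∀ k < 2, HZ Y.I (k + 1) (univ : Set Y.M) := fun k hk => by
  refine bd_zero.1 (Bd.of_prod_left (J := 𝓘(ℝ, ℝ)) isOpen_univ univ_nonempty (bd_zero.2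
    ((hz_oe h.oe.loc h.oe.inj (isOpen_univ.prod isOpen_univ)).1 ?_)))
  convert hz_punct (d := 4) (k := k) (by omega)
  refine Subset.antisymm ?_ fun v hv => ?_
  · rintro _ ⟨p, -, rfl⟩
    exact smul_ne_zero (Real.exp_pos _).ne' (norm_ne_zero_iff.1 (by rw [h.nrm]; exact one_ne_zero))
  · have h0 := norm_pos_iff.2 hv
    obtain ⟨y, hy⟩ := h.surj (‖v‖⁻¹ • v) (by rw [norm_smul, norm_inv, norm_norm, inv_mul_cancel₀ h0.ne'])
    exact ⟨(y, Real.log ‖v‖), ⟨trivial, trivial⟩, by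
      simp only [hy, Real.exp_log h0, smul_inv_smul₀ h0.ne']⟩

variable {κ lam : Type} [Fintype κ] [Fintype lam] [DecidableEq lam] {Lm : LM κ lam}

theorem nb_nu {S : Scene Lm} {i : S.L} {U : Set S.X.M} {β sg l2 : ℝ} (h : S.Nb i U β sg l2) :
    let v := nu S.X.I S.M.o (FL S i) (FL S i) U
    β = 1 - v.1 + v.2.1 ∧ l2 - sg = v.2.2.2 / (2 * Real.pi) ^ 2 - (v.2.1 - v.2.2.1) := by
  obtain ⟨_, _, _, _, _, k, -⟩ := id h
  obtain ⟨rfl, rfl, rfl⟩ := nb_eq h k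
  rw [Lat.nu k (cl_FL k.op) (cl_FL k.op)]
  exact ⟨rfl, rfl⟩

/-- **RF-SUM** -/
theorem sum_nb (S : Scene Lm) (i : S.L) (c₀ : Finset S.A) (β sg l2 : Reg S.A → ℝ) (b s l : ℝ)
    (hc : S.M.sys.Cell ↑c₀) (hp : ∀ a ∈ c₀, S.M.pin a) (h0 : S.Nb i univ b s l)
    (h : ∀ ρ, S.M.sys.Piece ↑c₀ ρ → S.Nb i (S.M.sys.U ρ) (β ρ) (sg ρ) (l2 ρ)) :
    ∑ᶠ ρ ∈ {ρ | S.M.sys.Piece ↑c₀ ρ}, β ρ = b + c₀.card ∧
      ∑ᶠ ρ ∈ {ρ | S.M.sys.Piece ↑c₀ ρ}, (l2 ρ - sg ρ) = l - s := by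
  have := S.M.con
  have := S.M.cpt
  have e := (sum_pcs (P := HL S.X.I S.M.o) (ν := nu S.X.I S.M.o (FL S i) (FL S i)) (hl_univ S.M.ori) hc
    fun a ha W w s => let t := ct_sides (Cyl58.sides_band (S.M.bn a)) (hz_rnd (S.M.rnd a (hp a ha))) w.op s
      ⟨fun b => (t b).hl w, (t true).nu w (cl_FL w.op) (cl_FL w.op)⟩).2
  rw [show {ρ | S.M.sys.Piece ↑c₀ ρ} = ↑(pcs S.M.sys c₀) from (Finite.coe_toFinset _).symm, finsum_mem_coe_finset,
    finsum_mem_coe_finset, (nb_nu h0).2, (nb_nu h0).1, ← e,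
    Finset.sum_congr rfl fun ρ k => (nb_nu (h ρ (mem_pcs.1 k))).1,
    Finset.sum_congr rfl fun ρ k => (nb_nu (h ρ (mem_pcs.1 k))).2]
  simp only [Finset.sum_add_distrib, Finset.sum_sub_distrib, Prod.fst_sum, Prod.snd_sum, Finset.sum_div,
    Finset.sum_const, card_pcs hc, nsmul_eq_mul, Nat.cast_add, Nat.cast_one, and_true]
  ring

end Crest.Agent.X212.Tm38
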