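import Crest.Agent.X212.Rf65.Pl
import Crest.Agent.X212.Pnt66.Tl
import Crest.Agent.X212.Tm38.Sm

/-!
# Row 212 (helper38): the leaves SUM and ABW
-/

set_option autoImplicit false
set_option linter.unusedSectionVars false
noncomputable section
open scoped Manifold ContDiff Topology InnerProductSpace
open MeasureTheory Set Function Filter

namespace Crest.Agent.X212.Tm38
open An M Nd18 Pj41 Rf65 Rdc90 Cht98
open Tmp64 (AdmOn Eq0 admOn_univ)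
open Eqv71 (cj ad0 inv_refl)
open Cyf70 (IC)

section gen
variable {E : Type} [NormedAddCommGroup E] [NormedSpace ℝ E] [FiniteDimensional ℝ E]
  [MeasurableSpace E] [BorelSpace E]
  {HM : Type} [TopologicalSpace HM] {I : ModelWithCorners ℝ E HM} [I.Boundaryless]
  {M : Type} [TopologicalSpace M] [ChartedSpace HM M] [IsManifold I ∞ M]
  [MeasurableSpace M] [T2Space M] [BorelSpace M] [SecondCountableTopology M]
  {ι lam α : Type} [Fintype ι] [Fintype lam] {B : Base M ι lam} {G : Geo I M ι lam}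

/-- pasting along disjoint clopen sets -/
theorem paste (hG : G.F.P = B.P) (s : Finset α) {O : α → Set M} {c : α → Cfg M ι lam 0}
    (hO : ∀ i ∈ s, IsClopen (O i)) (hd : (s : Set α).Pairwise (Disjoint on O))
    (hc : ∀ i ∈ s, (c i).Adm B G) {x₀ : Cfg M ι lam 0} (h0 : x₀.Adm B G) :
    ∃ x : Cfg M ι lam 0, x.con.Adm B G ∧ ∀ i ∈ s, ∃ u, Eq0 G.F (c i).con x.con (O i) u := by
  classical
  have := Sob92.scs (I := I) (M := M)
  induction s using Finset.induction_on with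
  | empty => exact ⟨x₀, ⟨h0.ok, h0.conn, contMDiff_const, fun _ => map_zero _, .inl rfl⟩, by simp⟩
  | insert i s hi ih =>
    have m := Finset.mem_insert_self i s
    obtain ⟨x, h1, h2⟩ := ih (fun j k => hO j (Finset.mem_insert_of_mem k))
      (hd.mono (Finset.coe_subset.2 (Finset.subset_insert _ _))) fun j k => hc j (Finset.mem_insert_of_mem k)
    obtain ⟨n, a, a', X, k1, k2, k3, k4, k5, k6, -⟩ := Loc66.glue2 (u := 0) (hO i m).isOpen (hO i m).compl.isOpen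
      (fun x => em (x ∈ O i)) (OK.on (hc i m).ok _) (OK.on h1.ok _) hG (IsConn.on (hc i m).conn _)
      (IsConn.on h1.conn _) ⟨fun _ h => (h.2 h.1).elim, fun _ h => (h.2 h.1).elim, fun _ h => (h.2 h.1).elim,
        fun _ h => (h.2 h.1).elim, fun _ h => (h.2 h.1).elim⟩ fun _ h => (h.2 h.1).elim
    refine ⟨⟨n, X, 0, 0⟩, ⟨k1, k2, contMDiff_const, fun _ => map_zero _, .inl rfl⟩, fun j k => ?_⟩
    rcases Finset.mem_insert.1 k with rfl | k'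
    · exact ⟨a, k3, k5, fun _ _ => (map_zero _).symm, rfl⟩
    · obtain ⟨u, hu⟩ := h2 j k'
      exact ⟨_, hu.trans (Eq0.mono (c' := ⟨n, X, 0, 0⟩) ⟨k4, k6, fun _ _ => (map_zero _).symm, rfl⟩
        (hd k m (by rintro rfl; exact hi k')).subset_compl_right)⟩

theorem norm_p2 {m m' : Md M ι lam} {O : Set M} {u : M → CL m.V m'.V} {x : M} {W : m.Cn} {W' : m'.Cn}
    {F : Fr I M ι} (h : Iso0 I m m' O u) (hO : IsOpen O) (hm : OKOn I B m O)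
    (hm' : OKOn I B m' O) (hW : ∀ a, FSm I (W a) x) (hW' : ∀ a, FSm I (W' a) x)
    (hp : Par0 F W W' O u) (hx : x ∈ O) :
    ‖m'.p2 B x (m'.Fg F W' x)‖ ^ 2 = ‖m.p2 B x (m.Fg F W x)‖ ^ 2 := by
  rw [PiLp.norm_sq_eq_of_L2, PiLp.norm_sq_eq_of_L2]
  refine Finset.sum_congr rfl fun s _ => ?_
  have e : m'.p2 B x (m'.Fg F W' x) s = cj (u x) (m.p2 B x (m.Fg F W x) s) := by
    simp only [Md.p2, Eqv71.idx_apply, Loc66.Fg_loc h hO hm hm' hW hW' hp hx, Loc66.pg_cj h hm hm' hx,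
      map_sum, map_smul]
  rw [e, ← real_inner_self_eq_norm_sq, ← real_inner_self_eq_norm_sq, Loc66.inner_cj_g h hx]
  rw [Md.p2, Eqv71.idx_apply]
  exact Submodule.sum_mem _ fun t _ => Submodule.smul_mem _ _ (Wz78.pg_mem x _)

theorem int_le {μ : Measure M} (s : Finset α) {O : α → Set M} (hO : ∀ i ∈ s, MeasurableSet (O i))
    (hd : (s : Set α).Pairwise (Disjoint on O)) {f g : M → ℝ} {e : ℝ} (he : 0 ≤ e) (hg : ∀ x, 0 ≤ g x)
    (h : ∀ i ∈ s, IntegrableOn g (O i) μ ∧ ∫ x in O i, f x ∂μ ≤ e * ∫ x in O i, g x ∂μ) :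
    ∫ x in ⋃ i ∈ s, O i, f x ∂μ ≤ e * ∫ x in ⋃ i ∈ s, O i, g x ∂μ := by
  by_cases k : IntegrableOn f (⋃ i ∈ s, O i) μ
  · rw [integral_biUnion_finset s hO hd fun i hi => k.mono_set (subset_biUnion_of_mem hi),
      integral_biUnion_finset s hO hd fun i hi => (h i hi).1, Finset.mul_sum]
    exact Finset.sum_le_sum fun i hi => (h i hi).2
  · rw [integral_undef k]
    exact mul_nonneg he (integral_nonneg hg)

end gen

section cyl
variable {κ lam : Type} [Fintype κ] [Fintype lam] {Y Y' : Mf 3} [CompactSpace Y.M] [CompactSpace Y'.M]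
  {g : Y.M ≃ₘ^∞⟮Y.I, Y'.I⟯ Y'.M}

theorem cy_gRel [DecidableEq lam] {C : Cy Y κ lam} {C' : Cy Y' κ lam} (h : C.Iso C' g)
    (hL : C'.L.On Y'.I univ) : GRel C.yd.B C.yd.G C'.yd.B C'.yd.G (Prod.map g id) univ := by
  have f : FRel C.yd.G.F C'.yd.G.F (Prod.map g id) univ := by
    refine ⟨isOpen_univ, fun x _ => Glue52.ld_prodMap g.isLocalDiffeomorph
      (Diffeomorph.refl _ ℝ ∞).isLocalDiffeomorph x, fun a x _ => ?_⟩
    refine (DFunLike.congr_fun (((g.mdifferentiable (by simp) x.1).hasMFDerivAt.comp x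
      (hasMFDerivAt_fst x)).prodMk (hasMFDerivAt_snd (I := Y.I) x)).mfderiv _).trans ?_
    cases a
    exacts [Prod.ext (map_zero (Dr59.mf Y.I Y'.I g x.1)) rfl, Prod.ext (h.e _ x.1) rfl]
  refine ⟨f, fun a b x hx => f.P hx a b, fun _ _ _ _ x _ => (h.o _ _ _ _ x.1).symm,
    fun x _ => congrArg Line51.rl (congrFun (congrArg Line51.Ln.p h.L) x.1).symm, rfl, fun a x _ => ?_⟩
  cases a with
  | none => rfl
  | some k =>
    exact ((congrArg (fun v => Line51.rl (C'.L.cm _ _ v)) (h.e k x.1).symm).trans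
      ((congrArg Line51.rl (Line51.cm_pull (hL.sm _ trivial) (g.mdifferentiable (by simp) x.1) _).symm).trans
        (congrArg (fun L : Line51.Ln _ _ _ => Line51.rl (L.cm _ x.1 _)) h.L))).symm

variable {Z : Mf 4} {B : Base Z.M (Option κ) lam} {G : Geo Z.I Z.M (Option κ) lam}
  {D : YD Y.I Y.M κ lam} {D' : YD Y'.I Y'.M κ lam} {K : Nk D B G} {K' : Nk D' B G} {r : ℕ}
  {c : Cfg Z.M (Option κ) lam r} {β : YC Y'.M κ lam} {ζ : Circle} {l : Filter ℝ}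

theorem elim_lim {β : YC Y.M κ lam} {d : ℝ} (hd : 0 < d) (hl : Bki64.IsEnd l) (h : K.ELim d c β ζ l) :
    K.Lim c β ζ l := by
  obtain ⟨u, S, h1, h2, h3, h4⟩ := h
  refine ⟨u, fun k η hη => ?_⟩
  obtain ⟨C, hC⟩ := h4 k
  have t : Tendsto (fun s : ℝ => C * Real.exp (-d * |s|)) l (𝓝 (C * 0)) :=
    (Real.tendsto_exp_atBot.comp (hl.far.const_mul_atTop_of_neg (neg_neg_of_pos hd))).const_mul C
  obtain ⟨S', k1, k2, k3⟩ := hl.th _ ((hl.ev h1 1).and (t.eventually (ge_mem_nhds (by simpa using hη)))) 0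
  have k4 := fun s hs => k3 s hs s (by simp)
  have e : ∀ s : ℝ, s ∈ Ioo (s - 1) (s + 1) := fun s => ⟨by linarith, by linarith⟩
  have s : S' ⊆ S := fun x hx => (k4 x hx).1 (Ioo_subset_Icc_self (e x))
  have s' : (univ : Set Y.M) ×ˢ S' ⊆ univ ×ˢ S := prod_mono_right s
  have q := fun x hx => hC x (Ioo_subset_Icc_self.trans (k4 x hx).1)
  exact ⟨S', k1, s.trans h2, k2, ⟨h3.m.su.mono s', fun x hx => h3.m.uu x (s' hx), fun x hx => h3.m.uu' x (s' hx),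
    fun x hx => h3.m.J x (s' hx), fun x hx => h3.m.ρ x (s' hx), fun x hx => h3.m.j x (s' hx)⟩,
    fun a w j x hx => ((q _ hx.2).A a w j x ⟨trivial, e _⟩).trans (k4 _ hx.2).2,
    fun w j x hx => ((q _ hx.2).P w j x ⟨trivial, e _⟩).trans (k4 _ hx.2).2⟩

variable (hr : GRel D.B D.G D'.B D'.G (Prod.map g id) univ)
include hr

theorem bs_g (h : Bs D (pb g β)) : D'.Adm β ∧ ∀ z, (cy β).m.Fg D'.Z (cy β).W z = 0 := by
  have s : Surjective (Prod.map g (id : ℝ → ℝ)) := g.surjective.prodMap surjective_id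
  refine ⟨⟨admOn_univ.1 (s.range_eq ▸ image_univ (f := Prod.map g id) ▸
    (hr.admOn_iff (c := cy β)).1 (admOn_univ.2 h.adm.adm)), g.surjective.forall.2 h.adm.tmp⟩,
    s.forall.2 fun z => (hr.fr.Fg (mem_univ z) (cy β).W).symm.trans (h.flat z)⟩

variable (hJ : K'.J = K.J) (hψ : ∀ z : Y.M × ℝ, z.2 ∈ K.J → K'.ψ (g z.1, z.2) = K.ψ z)
include hJ hψ

theorem lim_g (h : K.Lim c (pb g β) ζ l) : K'.Lim c β ζ l := by
  obtain ⟨u, h⟩ := h
  obtain ⟨u, rfl⟩ : ∃ v : Y'.M × ℝ → CL c.m.V β.m.V, u = fun z => v (g z.1, z.2) :=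
    ⟨fun z => u (g.symm z.1, z.2), funext fun z => by simp⟩
  refine ⟨u, fun k η hη => ?_⟩
  obtain ⟨S, h1, h2, H⟩ := h k η hη
  have a : ∀ z ∈ (univ : Set Y.M) ×ˢ S, K'.ψ (g z.1, z.2) = K.ψ z := fun z hz => hψ z (h2 hz.2)
  have o := fun z (hz : z ∈ _) => ((isOpen_univ.prod H.op).eventually_mem (x := z) hz).mono a
  have s : ∀ {p : Y'.M × ℝ → Prop}, (∀ z ∈ (univ : Set Y.M) ×ˢ S, p (g z.1, z.2)) →
      ∀ z ∈ (univ : Set Y'.M) ×ˢ S, p z := fun h z hz => by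
    simpa using h (g.symm z.1, z.2) ⟨trivial, hz.2⟩
  refine ⟨S, h1, hJ ▸ h2, H.op, ⟨s fun z hz => (fsm_ld (hr.fr.ld z trivial) (H.m.su.contMDiffAt
    ((isOpen_univ.prod H.op).mem_nhds hz))).contMDiffWithinAt,
    s fun z hz => (H.m.uu z hz).trans (congrArg c.m.p (a z hz).symm), s H.m.uu', s H.m.J,
    s fun z hz i => (H.m.ρ z hz i).trans ?_, s fun z hz t => ?_⟩,
    fun i w hw => s fun z hz => Eq.trans_le ?_ (H.A i w hw z hz),
    fun w hw => s fun z hz => Eq.trans_le ?_ (H.P w hw z hz)⟩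
  · simp only [hr.P _ _ z trivial]
    exact congrArg (fun x => u (g z.1, z.2) ∘L ∑ b, D'.B.P i b (g z.1, z.2) • c.m.ρ b x) (a z hz).symm
  · have := H.m.j z hz t
    rw [hr.l z trivial] at this
    exact this.trans (congrArg (fun x => u (g z.1, z.2) ∘L c.m.j x t) (a z hz).symm)
  · refine congrArg _ (hr.fr.Dw (mem_univ z) w ((o z hz).mono fun y hy => ?_)).symm
    have := hr.fr.D (mem_univ y) i (u := fun z => u (g z.1, z.2)) (u' := u) (.of_forall fun _ => rfl)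
    exact congrArg₂ (fun (T : CL c.m.V β.m.V) x => (T + β.W i (g y.1) ∘L u (g y.1, y.2) -
      u (g y.1, y.2) ∘L c.W i x) ∘L trn (u (g y.1, y.2))) this hy.symm
  · exact congrArg _ (hr.fr.Dw (mem_univ z) w ((o z hz).mono fun y hy =>
      congrArg (fun x => cs β.m.J ζ (u (g y.1, y.2) (c.Φ x)) - β.Φ (g y.1)) hy.symm)).symm

end cyl

section job
variable {Wi : Type} {X : Mf 4} {A κ lam : Type} [Fintype A] [Fintype κ] [Fintype lam]
  [DecidableEq lam] {M : Mark X A κ} {W : World M} {N : ML M lam} {Λ : Lns W N}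
  {A' h : Type} [Fintype A'] [DecidableEq A'] [Fintype h] {r n : ℕ}
  {J : Job Wi Λ A' h r n} {c : M.Cl} {δ ε : ℝ} {s : A' → ℝ} {y : J.Obc c} {ρ : Reg A}
  {x : Cfg (W.Z c).M (Option κ) (lam ⊕ lam) 0}

/-- what the pasted configuration inherits on a piece -/
theorem pc_all (hJ : J.OK) (hδ : 0 < δ) (e : y.s = s) (hρ : M.sys.Piece c.1 ρ) (go : Go δ y {ρ})
    (hx : x.Adm (J.B c) (J.G c s)) {u} (E : Eq0 (J.G c s).F y.x.con x (W.pc c ρ) u) :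
    (y.TA ρ → Lin (J.G c s).F x (W.pc c ρ) ∨ ∀ z ∈ W.pc c ρ, x.m.Fg (J.G c s).F x.W z = 0) ∧
    (EA ε y ρ → IntegrableOn (fun z => ‖x.m.Fg (J.G c s).F x.W z‖ ^ 2) (W.pc c ρ) (J.G c s).F.μ ∧
      ∫ z in W.pc c ρ, ‖x.m.p2 (J.B c) z (x.m.Fg (J.G c s).F x.W z)‖ ^ 2 ∂(J.G c s).F.μ ≤
        ε ^ 2 * ∫ z in W.pc c ρ, ‖x.m.Fg (J.G c s).F x.W z‖ ^ 2 ∂(J.G c s).F.μ) ∧
    (Un y ρ → ∃ ξ, ParS (J.G c s).F x (W.pc c ρ) ξ ∧ ∀ z ∈ W.pc c ρ, ‖ξ z‖ = 4) ∧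
    (IntegrableOn (x.m.kd (J.B c) (J.G c s).F x.W) (W.pc c ρ) (J.G c s).F.μ ∧
      ∫ z in W.pc c ρ, x.m.kd (J.B c) (J.G c s).F x.W z ∂(J.G c s).F.μ = y.kap (W.pc c ρ)) ∧
    ∀ a b (ha : Act J.m c a (some b) (J.Θ s)) γ, ρ a = some b → Bs (J.xs a).D γ →
      (J.xs a).D.Eqv γ (y.β a b) → ∃ ζ, (J.K c a _ _ ha).Lim x γ ζ (dr b) := by
  subst e
  have o := (Cyl58.isClopen_pc W.toCaps hρ).isOpen
  have hB := Λ.B_ok J.m c
  have hG := Λ.G_ok J.m go.O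
  have a0 : y.x.con.Adm (J.B c) (J.G c y.s) := ⟨go.adm.ok, go.adm.conn, go.adm.sm, go.adm.pos, .inl rfl⟩
  have a1 := (admOn_univ.2 a0).mono (subset_univ (W.pc c ρ))
  have a2 := (admOn_univ.2 hx).mono (subset_univ (W.pc c ρ))
  have lm := E.lm o hB hG a0 hx
  have e1 := fun z hz => Loc66.norm_Fg_loc E.iso o a1.ok a2.ok (a1.conn.sm · z hz) (a2.conn.sm · z hz) E.par hz
  have e2 := fun z hz => norm_p2 E.iso o a1.ok a2.ok (a1.conn.sm · z hz) (a2.conn.sm · z hz) E.par hz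
  have e3 := fun z hz => lm.kd (x := z) hz
  refine ⟨.imp (Wrd81.lm_lin (c := y.x) lm (inv_refl o)) (Wrd81.lm_flat (c := y.x) lm (inv_refl o)),
    fun h => ⟨h.int.congr_fun (fun z hz => (e1 z hz).symm) o.measurableSet, ?_⟩,
    fun ⟨ξ, h1, h2⟩ => ⟨_, Wrd81.lm_parS lm (inv_refl o) h1, fun z hz => ?_⟩,
    ⟨(un_one W.toCaps c ρ ▸ go.int).congr_fun (fun z hz => (e3 z hz).symm) o.measurableSet,
      setIntegral_congr_fun o.measurableSet e3⟩, fun a b ha γ h1 h2 h3 => ?_⟩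
  · rw [setIntegral_congr_fun o.measurableSet e1, setIntegral_congr_fun o.measurableSet e2]
    exact h.le
  · rw [← h2 z hz, norm_eq_sqrt_real_inner, norm_eq_sqrt_real_inner]
    exact congrArg _ (Loc66.inner_cj_g E.iso hz _ (h1.mem z hz))
  · have m : ((⟨a, ha.2.2.2, ha.1⟩, b) : Ed c) ∈ EdP c {ρ} := ⟨ρ, rfl, h1⟩
    obtain ⟨d, d0, k⟩ := go.lim _ m ha
    obtain ⟨v, ξ, q⟩ := Eqv71.IsoOn.symm h2.ok.B h2.ok.G isOpen_univ (ad0 h2.adm.adm)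
      (ad0 (go.bs _ m).adm.adm) h3
    refine ⟨_, elim_lim (hδ.trans d0) ?_ (Eqv71.elim_pre hB o (un_one W.toCaps c ρ ▸ hJ.end_sub ha
      (P := {ρ}) (fun _ e => e ▸ hρ) ⟨ρ, rfl, h1⟩) h2.adm (ad0 hx) (ad0 a0) ((E.symm a1 a2).cEq hB a2 a1)
      (Pnt66.elim_post _ h2.ok (go.bs _ m).adm h2.adm q (Eqv71.admOn_pb _ (ad0 a0) Subset.rfl) k))⟩
    cases b
    exacts [Bki64.isEnd_top, Bki64.isEnd_bot]

end job

section scene
open G75
variable {κ lam : Type} [Fintype κ] [Fintype lam] [DecidableEq lam] {Lm : LM κ lam}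
  {S : Scene Lm} {D : S.Dat} {i : S.L} {Wi A' h : Type} [Fintype A'] [DecidableEq A'] [Fintype h] {r n : ℕ}
  {J : Job Wi (D.Λ i) A' h r n} {c : S.M.Cl} {p : Prm S.A} {a : S.A}

theorem mtc (hJ : J.OK) (ha : ∀ b, Act J.m c a (some b) p)
    {x : Cfg (D.W.Z c).M (Option κ) (lam ⊕ lam) 0} {γ} (hγ : Bs (J.xs a).D γ)
    (h : ∀ b, ∃ ζ, (J.K c a _ _ (ha b)).Lim x γ ζ (dr b)) : S.Mtc D i J.m c p a x := by
  obtain ⟨β, rfl⟩ : ∃ β, γ = pb (J.g a) β :=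
    ⟨pb (J.g a).symm γ, congrArg (pb · γ) (funext (J.g a).symm_apply_apply).symm⟩
  choose ζ h using h
  have hr := cy_gRel (hJ.iso a (ha true).1) ((S.N i).okY a)
  have t : p.2 a = 1 := (ha true).2.1.2 (ha true).2.2.2
  refine ⟨fun b => (act_ok (ha b)).nk _ (D.Λ i) (S.M.gvol a) (cy_iso_refl _) b, β, ζ, (bs_g hr hγ).1,
    (bs_g hr hγ).2, fun b => ⟨?_, ?_, fun y s h1 h2 => ?_, lim_g hr ?_ (fun z hz => ?_) (h b)⟩⟩
  · rw [NkOK.nk_p, act_tv (ha b)]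
    exact (act_np (ha b)).trans (by simp)
  · rw [NkOK.nk_q, act_tv (ha b)]
    exact act_nq (ha b)
  · rw [NkOK.nk_ψ, act_tv (ha b), ← t]
    refine congrArg (fun s => D.W.nj c a (y, s)) (li_len ((act_Hs (ha b)).2 ?_))
    cases b <;> simp [M.pm] at h1 h2 ⊢ <;> constructor <;> linarith
  · rw [isNk_J (ha b) (hJ.nk ..), Nk.J, NkOK.nk_p, NkOK.nk_q, act_tv (ha b)]
    rfl
  · rw [isNk_ψ (ha b) (hJ.nk ..) hz, NkOK.nk_ψ, act_tv (ha b)]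
    rfl

/-- **LEAF SUM** -/
theorem sum : SumStmt Lm := sum_nb

/-- **LEAF ABW** -/
theorem abw : AbwStmt Lm := fun S i σ c₀ π₀ P ⟨ε, hε, H⟩ => ⟨ε, hε, H.mono
    fun T H D Wi r n J c δ s y γ hJ hδ hc hP hi hm hπ hy => by
  have := S.M.con
  have sb : (↑c₀ : Set S.A) ⊆ c.1 := fun a k => ((hc a).1 k).1
  have adj : ∀ a ∈ c.1, a ∈ S.M.sys.inn π₀ → ∀ b, ∃ ρ, S.In c π₀ ρ ∧ ρ a = some b := fun a k k' b => by
    obtain ⟨ρ, h1, h2⟩ := (Sys.existsUnique_adj c.2 k b).exists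
    obtain ⟨z, hz⟩ := (S.M.sys.w a).ne b
    exact ⟨ρ, ⟨h1, (hπ.sub h1.toIsReg (c.2.mono (union_subset sb h1.bd_subset))
      (fun a' q => h1.not_inn a' (sb q)) (k'.2.1 hz.1) (h1.adj a b h2 hz)).subset⟩, h2⟩
  obtain ⟨ρ₀, h0⟩ : ∃ ρ, S.In c π₀ ρ := by
    by_cases k : ∃ a ∈ c.1, a ∈ S.M.sys.inn π₀
    · obtain ⟨a, k, k'⟩ := k
      exact (adj a k k' true).imp fun _ => And.left
    · exact ⟨π₀, ⟨hπ.toIsReg, hπ.bd_subset.trans sb, fun a q q' => k ⟨a, q, q'⟩⟩, Subset.rfl⟩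
  obtain ⟨t, ht⟩ : ∃ t : Finset (Reg S.A), {ρ | S.In c π₀ ρ} = ↑t := ⟨_, (toFinite _).coe_toFinset.symm⟩
  have m : ∀ {ρ}, ρ ∈ t ↔ S.In c π₀ ρ := fun {ρ} => (Set.ext_iff.1 ht ρ).symm
  have ad : ∀ ρ, S.In c π₀ ρ → (y ρ).x.con.Adm (J.B c) (J.G c s) := fun ρ k =>
    let g := (hy ρ k).2.1.adm; (hy ρ k).1 ▸ ⟨g.ok, g.conn, g.sm, g.pos, .inl rfl⟩
  have cl : ∀ ρ ∈ t, IsClopen (D.W.pc c ρ) := fun ρ k => Cyl58.isClopen_pc D.W.toCaps (m.1 k).1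
  have ms := fun ρ k => (cl ρ k).isOpen.measurableSet
  have dj : (t : Set (Reg S.A)).Pairwise (Disjoint on D.W.pc c) := fun ρ k ρ' k' e =>
    Cyl58.disjoint_pc D.W.toCaps (m.1 k).1 (m.1 k').1 e
  have g0 := (hy ρ₀ h0).2.1
  have br : J.Θ s ∈ S.M.Br c.1 ∧ J.Θ s ∈ S.M.O c.1 := (hy ρ₀ h0).1 ▸ ⟨g0.br, g0.O⟩
  obtain ⟨x, hx, E⟩ := paste ((D.Λ i).G_ok J.m br.2).P t cl dj (fun ρ k => ad ρ (m.1 k)) (ad ρ₀ h0)
  have q := fun ρ (k : S.In c π₀ ρ) => pc_all (ε := ε) hJ hδ (hy ρ k).1 k.1 (hy ρ k).2.1 hx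
    (E ρ (m.2 k)).choose_spec
  have un : S.un D c π₀ = ⋃ ρ ∈ t, D.W.pc c ρ := by rw [Scene.un, ht]; rfl
  have q2 := fun ρ (k : ρ ∈ t) => (q ρ (m.1 k)).2.1 (hy ρ (m.1 k)).2.2.2.1
  have := H D J.m c (J.Θ s).1 (J.Θ s).2 hc hP hi x.con hx ⟨fun ρ k => (q ρ k).1 (hy ρ k).2.2.1,
    fun a k k' => ?_, un ▸ integrableOn_finset_iUnion.2 fun ρ k => (q2 ρ k).1, fun a k k' => hm ⟨k, k'⟩,
    fun ρ k a u v w => (q ρ k).2.2.1 ((hy ρ k).2.2.2.2.2 a u v w)⟩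
    (un ▸ int_le t ms dj (sq_nonneg ε) (fun _ => sq_nonneg _) q2)
  · rw [ht, finsum_mem_coe_finset, ← Finset.sum_congr rfl fun ρ k => (q ρ (m.1 k)).2.2.2.1.2,
      ← integral_biUnion_finset t ms dj fun ρ k => (q ρ (m.1 k)).2.2.2.1.1, ← un]
    exact this
  · have np : ¬S.M.pin a := fun e => hπ.not_inn a ((hc a).2 ⟨k, .inl e⟩) k'
    obtain ⟨ρ, k1, k2⟩ := adj a k k' true
    refine mtc hJ (fun b => ⟨np, br.1, br.2, k⟩) ((hy ρ k1).2.2.2.2.1 a ⟨k, np⟩ _ k2 k').1 fun b => ?_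
    obtain ⟨ρ, k1, k2⟩ := adj a k k' b
    have := (hy ρ k1).2.2.2.2.1 a ⟨k, np⟩ _ k2 k'
    exact (q ρ k1).2.2.2.2 a b _ _ k2 this.1 this.2⟩

end scene

end Crest.Agent.X212.Tm38
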