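import Crest.Agent.X212.Tm38.Raw
import Crest.Agent.X212.Br55.Mt
import Crest.Agent.X212.G75.Tm

/-!
# Row 212, layer G (helper38): the leaves of the bridge for terminal chains
-/

set_option autoImplicit false
set_option linter.unusedSectionVars false
noncomputable section
open Set Function Filter
open scoped ContDiff Manifold

namespace Crest.Agent.X212.Tm38
open M G75 Wd38 Nm96 Cyl58 Br55
open Line51 (Ln Uni)
open Orx52 (Pos)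

variable {Γ : Nm} {κ lam : Type} [Fintype κ] [Fintype lam] [DecidableEq lam]
  {C : Cx Γ} {G : Tab C.kd κ} {P : Pm Γ} (L : LP C G P lam)

/-- TM-AB: `AbStmt` when a frozen wall outside the piece is broken as well -/
def AbP : Prop := ∀ {D : Dt Γ} (h : D.OK P) μ (i : D.L) (σ c : Finset D.A) π n η k₀ (a : D.A),
  (L.scn h μ).OK → σ ∈ (L.scn h μ).K i → c ⊆ σ →
  (L.scn h μ).M.sys.Piece (↑c : Set D.A) π → Pres L h μ i c π n η → ¬D.F.Fst (c.image fun a => a.1.b) η →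
  IsL D.F.fz a.1 → a ∉ (L.scn h μ).M.sys.inn π →
  (L.scn h μ).Ab i σ (insert a c) π fun k => k₀ ≤ k ∨ ∃ n', D.F.AbC n (c.image fun a => a.1.b) η n' k

/-- TM-HG: the same for `HgStmt` -/
def HgP : Prop := ∀ {D : Dt Γ} (h : D.OK P) μ (i : D.L) (σ c : Finset D.A) π n η k₀ (a : D.A),
  (L.scn h μ).OK → σ ∈ (L.scn h μ).K i → c ⊆ σ →
  (L.scn h μ).M.sys.Piece (↑c : Set D.A) π → Pres L h μ i c π n η → ¬D.F.Fst (c.image fun a => a.1.b) η →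
  IsL D.F.fz a.1 → a ∉ (L.scn h μ).M.sys.inn π →
  D.F.Hg n (c.image fun a => a.1.b) η → (L.scn h μ).Ab i σ (insert a c) π (k₀ ≤ ·)

/-- TM-NF: no flat connection next to a frozen `Y₀` of odd order -/
def NfStmt : Prop := ∀ {D : Dt Γ} (h : D.OK P) μ (i : D.L) (a : D.A) x (c : Finset D.A) π s
  (O : Set (C.X h.h0.w).P.M), (L.scn h μ).OK → a.1 = Bs.yS x → D.F.Y0 i.1 x →
  (L.scn h μ).M.sys.Piece (↑c : Set D.A) π → π a = some s → IsOpen O → IsPreconnected O →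
  (∀ (H : Type) [Group H], Hz56.H1 H O) → ((L.scn h μ).M.sys.w a).half s ⊆ O → O ⊆ (L.scn h μ).M.sys.U π →
  (∀ l ∈ (L.scn h μ).ls, O ⊆ ((L.scn h μ).M.sys.w l).sd true) → (L.scn h μ).Nf i a c π

/-- TM-NR: no reducible flat connection on a `Y₀` of odd order -/
def NrStmt : Prop := ∀ {w ls} (h : (f0 w ls).OK P) {n} (hn : (f0 w ls).LOK P n) μ (a : UW w ls) x,
  a.1 = Bs.yS x → (w.s x).r.2.2 = 0 → Odd (n.nr x) → ((L.N h hn μ).cy a).yd.NoRed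

variable (C) in
/-- TM-ZHS: lines on an integral homology sphere are trivial -/
def ZhsStmt : Prop := ∀ τ : Γ.ι × Rod53.Z2, Pr τ.2 → |τ.2.2| = 1 → ∀ (l : Type) [Fintype l] [DecidableEq l]
  (p : (mF C.kd τ).M → Matrix l l ℂ), Ln.On (mF C.kd τ).I ⟨p, 0⟩ univ →
    ∃ u : _ → Matrix l Unit ℂ, Uni (mF C.kd τ).I 1 p u univ

/-- TM-LB: characteristic classes on the part of a toric piece between two frozen slices -/
def LbStmt : Prop := ∀ {D : Dt Γ} (h : D.OK P) μ (i : D.L) (e : Finset D.A) η x y k U, (∀ a ∈ e, a.1.tw = []) →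
  TPc D.F (e.image fun a => a.1.b) η → D.F.Cut x → D.F.Cut y → x < y →
  (∀ n', TOK D.F.w n' → Par D.F.w i.1 n' → k ≤ -ssum D.F.w (e.image fun a => a.1.b) η x y lq n' / 4) →
  (L.scn h μ).Lb i e U (pc (C.rz h.h0.w) (e.image fun a => a.1.b) η ∩ Sid48.sd (C.rz h.h0.w) (.yS x) true ∩
    Sid48.sd (C.rz h.h0.w) (.yS y) false) k

/-- TM-CPY: a window (with the right cap if `eR`) of one word is a translate of a window of another -/
def CpyStmt : Prop := ∀ {w w' ls ls'} (h : (f0 w ls).OK P) (h' : (f0 w' ls').OK P) (μ μ' : ℤ × ℤ) d x y (eR : Prop),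
  w.l ≤ x → x < y → w'.l ≤ x + d → (eR → y = w.r ∧ w'.r = w.r + d ∧ μ'.2 = μ.2) → (¬eR → y < w.r ∧ y + d < w'.r) →
  (∀ j, x ≤ j → j ≤ y → w'.s (j + d) = w.s j) →
  ∃ (ψ : PartialDiffeomorph (C.X h.w).mf.I (C.X h'.w).mf.I (C.X h.w).P.M (C.X h'.w).P.M ∞)
    (pos : Pos (C.X h.w).P.I (C.X h'.w).P.I ψ ψ.source (C.rz h.w).O (C.rz h'.w).O)
    (mch : ∀ (a : UW w ls) (a' : UW w' ls'), a.1.tw = [] → a'.1 = a.1.sh d → x ≤ a.1.b.lo → a.1.b.hi ≤ y →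
      Mch h.w h'.w ψ a a'),
    ψ '' {z | x + 1 / 4 < (C.X h.w).τ z ∧ (eR ∨ (C.X h.w).τ z < y + 3 / 4)} =
      {z | (x + d : ℤ) + 1 / 4 < (C.X h'.w).τ z ∧ (eR ∨ (C.X h'.w).τ z < (y + d : ℤ) + 3 / 4)} ∧
    ∀ n n' (hn : (f0 w ls).LOK P n) (hn' : (f0 w' ls').LOK P n'), Cpy w w' n n' d x y → ∃ u,
      ∀ a a' k1 k2 k3 k4, LId (L.N h hn μ) (L.N h' hn' μ') (mid1 G pos (mch a a' k1 k2 k3 k4))
        {z | x + 1 / 4 < (C.X h.w).τ z ∧ (eR ∨ (C.X h.w).τ z < y + 3 / 4)} u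

section num
variable {Lm : LM κ lam} {y : YD κ lam} {S : Scene Lm} (t : G75.TD y S) (R : ℕ) (i : S.L) (σ e : Finset S.A)

/-- the bodies of `nl`, `nr`, `ns` -/
structure Nums : Prop where
  nl : ∃ w : Reg S.A → ℝ, (∀ π, t.Pc false e π → t.BL R i σ e π (w π)) ∧
    ∀ J : Finset (Reg S.A), (∀ π ∈ J, t.Pc false e π) → (∃ π ∈ J, π t.a ≠ none) →
      -1 < ∑ π ∈ J, w π + 4 * (((t.sd false e).card : ℝ) - J.card)
  nr : ∃ w : Reg S.A → ℝ, (∀ π, t.Pc true e π → t.BR i σ e π (w π)) ∧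
    ∀ J : Finset (Reg S.A), (∀ π ∈ J, t.Pc true e π) → (∃ π ∈ J, π t.a ≠ none) →
      (∃ π, t.Pc true e π ∧ π ∉ J) → -1 < ∑ π ∈ J, w π + 4 * (((t.sd true e).card : ℝ) - J.card) - 2 * S.nd e
  ns : ∃ w : Reg S.A → ℝ, (∀ π, t.Pc true e π → t.BS i σ e π (w π)) ∧
    ∀ J : Finset (Reg S.A), (∀ π ∈ J, t.Pc true e π) →
      R < ∑ π ∈ J, (w π - 2 * t.nc π) + 4 * (((t.sd true e).card : ℝ) - J.card) + 2 * t.G.card - 2 * S.nd e
  na : t.Na i σ e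

end num

/-- the data of the scene are those of the word -/
structure Mat (Y : Ref Γ) (N : ℕ) (T : TD) {D : Dt Γ} (h : D.OK P) (μ : ℤ × ℤ) {y : YD κ lam}
    (t : G75.TD y (L.scn h μ)) : Prop where
  hC : y.C = Y.C
  a : t.a.1 = T.a Y
  h' : t.h.1 = Bs.yS (Y.h + T.d)
  s : t.s.1 = Bs.sS (Y.s + T.d)
  b : t.b.1 = Bs.yS (Y.b + T.e)
  i : t.i₀.1 = T.n
  hG : ∀ x, x ∈ t.G ↔ IsL (T.G N) x.1
  nb : (L.scn h μ).Nb t.i₀ (((L.scn h μ).M.sys.w t.s).sd false) t.β₀ t.s₀ t.l₀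
  left : ∀ i, ∃ u, Uni (L.scn h μ).X.I ((L.scn h μ).N t.i₀).p ((L.scn h μ).N i).p u (hf (L.scn h μ).M t.h false)

/-- TM-NUM: charges give the numbers of the scene -/
def NumTm (μ : ℕ → ℤ × ℤ) : Prop := ∀ (Y : Ref Γ) (N R d : ℕ) (T : TD) {D : Dt Γ} (h : D.OK P) c (i : D.L)
  (σ e : Finset D.A), Y.OK P → T.OK P Y N D.F c → D.F.Cl P d c → D.Sup c →
  (i.1, σ.map (.subtype _)) ∈ c.support → e ⊆ σ → (∀ x ∈ e, x.1.b.pin) →
  T.Raw P Y N R D.F i.1 (σ.image fun x => x.1.b) (e.image fun x => x.1.b) →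
  ∀ᶠ k in atTop, ∀ y (t : G75.TD y (L.scn h (μ k))), Mat L Y N T h (μ k) t → Nums t R i σ e

/-- **BR-TM** -/
def TmStmt (μ : ℕ → ℤ × ℤ) : Prop := ∀ Y : Ref Γ, Y.OK P → ∃ (y : YD κ lam) (K : ℕ), ∀ R F d c (T : TD),
  T.OK P Y (R + K) F c → F.Cl P d c → ∃ (D : Dt Γ) (h : D.OK P), D.F = F ∧ D.Sup c ∧
    ∀ᶠ k in atTop, G75.Tm y R (L.scn h (μ k)) (L.ch h (μ k) c)

end Crest.Agent.X212.Tm38
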