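import Crest.Agent.X212.Tm38.Ns

/-!
# Row 212, layer G (helper38): the side `NS` at level zero; `FactC → FactW`
-/

set_option autoImplicit false
noncomputable section

namespace Crest.Agent.X212.Tm38

open Crest.Agent.X212.Rod53 Crest.Agent.X212.Wd38 Crest.Agent.X212.Nm96 Finset Fm Br55

variable {Γ : Nm} {P : Pm Γ} {F : Fm Γ} {s t : ℤ} {B σ σ' : Finset Bs} {η : Bs → Bool} {n : Wt} {a : Bs}
  {G : Finset ℤ}

theorem lq_le {u v : Z2} (h : dt u v = 0 ∨ nn u v < 0) (x y : ℤ) : lq u v x y ≤ 0 := by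
  rcases h with h | h
  · simp [lq, lb, h]
  have k : (0 : ℝ) < dt u v * u.2 * v.2 := by exact_mod_cast neg_lt_zero.1 h
  have hu : (u.2 : ℝ) ≠ 0 := fun e => by simp [e] at k
  have hv : (v.2 : ℝ) ≠ 0 := fun e => by simp [e] at k
  have : lq u v x y = -(dt u v * u.2 * v.2 * ((x * v.2 - y * u.2) / (u.2 * v.2)) ^ 2) := by
    simp only [lq, lb, Nm96.rho, if_neg (Int.cast_ne_zero.1 hu), if_neg (Int.cast_ne_zero.1 hv)]
    field_simp; ring
  rw [this]
  exact neg_nonpos.2 (by positivity)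

/-- the unit charge on the piece that contains `t` -/
theorem exists_unit (lam : Lam B) (sp : ∀ a ∈ B, Sp t a) (hr : t ≤ F.w.r + 1) :
    ∃ (c : Bs → Bool → ℝ) (g : ℝ), g + ∑ a ∈ B, (c a true + c a false) = 1 ∧
      ∀ η, F.chg B η c 0 g = if InV B η t then 1 else 0 := by
  by_cases e : {a ∈ B | t < a.lo}.Nonempty
  · obtain ⟨a, a1, a2⟩ := exists_min_image _ Bs.lo e
    have a1 := mem_filter.1 a1
    refine ⟨fun b s => if b = a ∧ s = a.side t then 1 else 0, 0, ?_, fun η => ?_⟩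
    · rw [zero_add, sum_eq_single_of_mem a a1.1 fun b _ k => by simp [k]]
      cases a.side t <;> simp
    · have := adj_min (η := η) lam sp a1.1 a1.2 fun b i j => a2 b (mem_filter.2 ⟨i, j⟩)
      have k : InV B η t ↔ Adj B η a ∧ η a = a.side t := by
        rw [this]
        exact ⟨fun i => ⟨fun b j => i b (mem_erase.1 j).2, (i a a1.1).symm⟩, fun i b j => by
          by_cases q : b = a
          exacts [q ▸ i.2.symm, i.1 b (mem_erase.2 ⟨q, j⟩)]⟩
      simp only [chg, ite_self, add_zero, sum_filter, k]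
      rw [sum_eq_single_of_mem a a1.1 fun b _ k => by simp [k]]
      by_cases i : Adj B η a <;> simp [i]
  · refine ⟨0, 1, by simp, fun η => ?_⟩
    have : F.Lst B η ↔ InV B η t :=
      inV_hi (fun b k => (sp b k).2.resolve_right fun j => e ⟨b, mem_filter.2 ⟨k, j⟩⟩) hr
    simp [chg, this]

/-- a piece of slices is an interval -/
theorem exists_iv (lo : ∀ a ∈ B, s < a.lo) (sl : ∀ a ∈ B, a.lo < t → a = .sS a.lo) (ne : ∀ a ∈ B, a.lo ≠ t)
    {c₀ : ℤ} (h1 : s < c₀) (h2 : c₀ ≤ t) (h : InV B η c₀) : ∃ x y, s ≤ x ∧ x < y ∧ y ≤ t ∧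
      (x = s ∨ .sS x ∈ B) ∧ (y = t ∨ .sS y ∈ B) ∧ (∀ c, c ≤ t → s < c → (InV B η c ↔ x < c ∧ c ≤ y)) ∧
      ∀ a ∈ B, a.lo < t → (Adj B η a ↔ a.lo = x ∨ a.lo = y) ∧ (η a = true ↔ a.lo ≤ x) := by
  obtain ⟨x, x1, x2⟩ := exists_max_image (insert s ({a ∈ B | a.lo < c₀}.image Bs.lo)) id (insert_nonempty _ _)
  obtain ⟨y, y1, y2⟩ := exists_min_image (insert t ({a ∈ B | c₀ ≤ a.lo ∧ a.lo < t}.image Bs.lo)) id
    (insert_nonempty _ _)
  simp only [mem_insert, mem_image, mem_filter, id, forall_eq_or_imp, forall_exists_index, and_imp] at x1 x2 y1 y2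
  have X : x < c₀ ∧ (x = s ∨ .sS x ∈ B) := by
    rcases x1 with rfl | ⟨a, ⟨a1, a2⟩, rfl⟩
    exacts [⟨h1, .inl rfl⟩, ⟨a2, .inr (sl a a1 (by omega) ▸ a1)⟩]
  have Y : c₀ ≤ y ∧ (y = t ∨ .sS y ∈ B) := by
    rcases y1 with rfl | ⟨a, ⟨a1, a2, a3⟩, rfl⟩
    exacts [⟨h2, .inl rfl⟩, ⟨a2, .inr (sl a a1 a3 ▸ a1)⟩]
  have na : ∀ a ∈ B, a.lo < t → ¬a.arc := fun a k j => by rw [sl a k j]; exact id
  have sd : ∀ a ∈ B, a.lo < t → ∀ c, a.side c = η a ↔ (a.lo < c ↔ a.lo < c₀) := fun a k j c => by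
    rw [← h a k, Bool.eq_iff_iff, (side_sl (na a k j)).1, (side_sl (na a k j)).1]
  have gap : ∀ a ∈ B, a.lo < t → a.lo ≤ x ∨ y ≤ a.lo := fun a k j => by
    by_cases i : a.lo < c₀
    exacts [.inl (x2.2 _ a k i rfl), .inr (y2.2 _ a k (by omega) j rfl)]
  have iv : ∀ E ⊆ B, ∀ c, c ≤ t → (InV E η c ↔ ∀ a ∈ E, a.lo < t → (a.lo < c ↔ a.lo < c₀)) := fun E hE c k =>
    forall₂_congr fun a i => by
      by_cases j : a.lo < t
      · simp only [sd a (hE i) j, j, true_imp_iff]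
      · simp only [j, false_imp_iff, iff_true]
        rw [← h a (hE i)]; exact side_of_le (by omega) (by omega)
  refine ⟨x, y, x2.1, by omega, y2.1, X.2, Y.2, fun c k k' => ?_, fun a k j => ⟨?_, ?_⟩⟩
  · rw [iv B Subset.rfl c k]
    refine ⟨fun i => ⟨?_, ?_⟩, fun i a p q => by have := gap a p q; omega⟩
    · rcases X.2 with e | e
      exacts [by omega, (i _ e (by show x < t; omega)).2 X.1]
    · rcases Y.2 with e | e
      · omega
      · by_contra q
        have : y < c ↔ y < c₀ := i _ e (by show y < t; omega)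
        omega
  · rw [Adj, iv _ (erase_subset _ _) _ (by omega)]
    have g := gap a k j
    have := lo a k
    refine ⟨fun i => ?_, fun i b p q => ?_⟩
    · by_contra q
      rcases g with g | g
      · have e := X.2.resolve_left (by omega)
        have : x < a.lo + 1 ↔ x < c₀ :=
          i _ (mem_erase.2 ⟨by rintro rfl; exact q (.inl rfl), e⟩) (by show x < t; omega)
        omega
      · have e := Y.2.resolve_left (by omega)
        have : y < a.lo + 1 ↔ y < c₀ :=
          i _ (mem_erase.2 ⟨by rintro rfl; exact q (.inr rfl), e⟩) (by show y < t; omega)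
        omega
    · have p := mem_erase.1 p
      have := gap b p.2 q
      have : b.lo ≠ a.lo := fun e => p.1 (by rw [sl b p.2 q, sl a k j, e])
      omega
  · have := gap a k j
    rw [← h a k, (side_sl (na a k j)).1]; omega

theorem adj_pt (sl : ∀ a ∈ B, a.lo < t → a = .sS a.lo) (ha : a ∈ B) (h : a.lo < t) (k : Adj B η a) :
    InV B η (a.lo + 1) ∨ InV B η a.lo := by
  have na : ∀ a ∈ B, a.lo < t → ¬a.arc := fun a k j => by rw [sl a k j]; exact id
  by_cases e : a.side (a.lo + 1) = η a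
  · exact .inl fun b hb => by
      by_cases i : b = a
      exacts [i ▸ e, k.side hb i]
  refine .inr fun b hb => ?_
  by_cases i : b = a
  · subst i
    have := side_ne (a := b) (c := b.lo) ⟨(side_sl (c := 0) (na b hb h)).2.ge, fun j => (na b hb h j).elim⟩ le_rfl
    revert this e; cases b.side b.lo <;> cases b.side (b.lo + 1) <;> cases η b <;> simp
  rw [← k.side hb i]
  by_cases j : b.lo < t
  · have : b.lo ≠ a.lo := fun e => i (by rw [sl b hb j, sl a ha h, e])
    rw [Bool.eq_iff_iff, (side_sl (na b hb j)).1, (side_sl (na b hb j)).1]; omega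
  · exact side_of_le (by omega) (by omega)

theorem cnt (hB : B ⊆ σ) : asum (σ \ B) B η s t (fun _ => 1) + ent B η s t =
    #{a ∈ σ | s ≤ a.lo ∧ a.lo < t ∧ InV B η (a.lo + 1)} := by
  rw [ent_eq, asum, sum_const, nsmul_eq_mul, mul_one, ← Nat.cast_add, ← card_union_of_disjoint
    (disjoint_filter_filter sdiff_disjoint)]
  refine congrArg _ (congrArg _ (Finset.ext fun a => ?_))
  simp only [mem_union, mem_filter, mem_sdiff]
  by_cases k : a ∈ B
  · have : InV B η (a.lo + 1) ↔ Adj B η a ∧ a.side (a.lo + 1) = η a :=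
      ⟨fun i => ⟨fun b j => i b (mem_erase.1 j).2, i a k⟩, fun i b j => by
        by_cases q : b = a
        exacts [q ▸ i.2, i.1.side j q]⟩
    have := hB k
    tauto
  · simp only [Adj, erase_eq_of_notMem k]; tauto

theorem ssum_na {φ : Z2 → Z2 → ℤ → ℤ → ℝ} (sl : ∀ a ∈ B, a.lo < t → a = .sS a.lo) : ssum F.w B η s t φ n =
    ∑ c ∈ Ioc F.w.l F.w.r with s < c ∧ c ≤ t ∧ InV B η c, vx F.w φ n c := by
  rw [ssum, sum_eq_zero (s := filter _ B) fun a i => ?_, add_zero]
  · rfl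
  have i := mem_filter.1 i
  have := i.2.1
  rw [sl a i.1 i.2.2.2.1] at this
  exact this.elim

namespace Cx
variable {Y : Ref Γ} {T : TC} (H : Cx P Y F T.d T.e n σ)
include H

open Classical in
theorem ns0 {R : ℕ} (hG : T.G = G.image .yS) (g1 : ∀ x ∈ G, ∀ a ∈ σ, Sp x a) (ls : F.ls = ∅)
    (sl : ∀ a ∈ wn (Y.h + T.d) (Y.b + T.e) σ, ¬a.arc)
    (df : ∀ c, Y.h + T.d < c → c ≤ Y.b + T.e → dt (F.w.lf c) (F.w.rt c) = 0 ∨ nn (F.w.lf c) (F.w.rt c) < 0)
    {Φ : ℤ → ℝ} (hΦ : ∀ x, Φ x = S F.w n om (Y.h + T.d) x + #(wn (Y.h + T.d) x σ))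
    (st : ∀ x y, x < y → (x = Y.h + T.d ∨ .sS x ∈ σ) → Y.h + T.d ≤ x → (y = Y.b + T.e ∨ .sS y ∈ σ) →
      y ≤ Y.b + T.e → Φ y - Φ x ≤ 4 + 2 * #{g ∈ G | x < g ∧ g ≤ y})
    (hR : R + 4 - Y.gA + Y.K P * (1 + 2 * #Y.A) < Φ (Y.b + T.e)) :
    T.NS P Y R F n (sR (Y.a + T.d) σ) := fun B hB hp => by
  have l := H.l; have := H.ah; have hb := H.hb; have := H.br; have := H.r
  have s0 := subR hB
  have lam := H.lam s0
  have sp : ∀ a ∈ B, Sp (Y.b + T.e) a := fun a i => H.sp a (s0 i)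
  have lo : ∀ a ∈ B, Y.h + T.d < a.lo := fun a i => (H.mR.1 (hB i)).2
  have ne : ∀ a ∈ B, a.lo ≠ Y.b + T.e := fun a i => by have := sp a i; unfold Sp at this; omega
  have sl : ∀ a ∈ B, a.lo < Y.b + T.e → a = .sS a.lo := fun a i j => by
    have := sl a (mem_wn.2 ⟨s0 i, (lo a i).le, j⟩)
    have := hp a i
    cases a <;> first | rfl | contradiction
  obtain ⟨c0, g0, u1, u2⟩ := exists_unit (F := F) lam sp (by omega)
  have K0 := Y.tk_nn om
  have K1 := abs_nonneg Y.v.2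
  have K2 := abs_nonneg P.M
  have K4 := abs_nonneg Y.u.2
  have K3 : Y.K P = Y.tk om + |Y.v.2| + |P.M| + 7 := rfl
  have a0 : Y.gA ≤ 0 := min_le_left _ _
  have a2 : Y.gA ≤ 4 - Y.hd om Y.h - |Y.u.2| := (min_le_right _ _).trans (min_le_right _ _)
  set c1 : Bs → Bool → ℝ := fun a s => if a.lo < Y.b + T.e then (if s then -Φ a.lo else Φ a.lo) else 0 with hc
  refine ⟨lw (Y.b + T.e) (Y.K P) fun a s => c1 a s + Φ (Y.b + T.e) * c0 a s, Y.gA, Φ (Y.b + T.e) * g0 - Y.K P, 0,
    ?_, fun η g hη hg => ?_⟩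
  · have : ∑ a ∈ B, (c1 a true + Φ (Y.b + T.e) * c0 a true + (c1 a false + Φ (Y.b + T.e) * c0 a false)) =
        Φ (Y.b + T.e) * (1 - g0) := by
      rw [← u1, add_sub_cancel_left, mul_sum]
      exact sum_congr rfl fun a _ => by simp only [hc]; split_ifs <;> first | ring1 | contradiction
    rw [sum_lw, this, show F.nd B = 0 by simp [nd, ls]]
    push_cast
    nlinarith [H.card hB]
  have nc := nc_eq (η := η) hG fun x i a j => g1 x i a (s0 j)
  have t0 := tn_nn (B := B) (η := η) (t := Y.b + T.e)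
  have t1 := tn_le (F := F) (B := B) (η := η) (t := Y.b + T.e)
  have t2 : 0 ≤ Y.K P * tc F B η (Y.b + T.e) := mul_nonneg (by linarith) (by linarith)
  have e0 : F.chg B η (fun a s => c1 a s + Φ (Y.b + T.e) * c0 a s) Y.gA (Φ (Y.b + T.e) * g0) =
      ∑ a ∈ B with Adj B η a, c1 a (η a) + Φ (Y.b + T.e) * (if InV B η (Y.b + T.e) then 1 else 0) +
        if F.Fst B η then Y.gA else 0 := by
    rw [← u2]; simp only [chg, sum_add_distrib, ← mul_sum]; split_ifs <;> ring
  have e1 : F.Ev n (sR (Y.a + T.d) σ) B η 0 om 1 1 (Y.h + T.d) (Y.b + T.e) =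
      ∑ c ∈ Ioc F.w.l F.w.r with Y.h + T.d < c ∧ c ≤ Y.b + T.e ∧ InV B η c, vx F.w om n c +
        #{a ∈ σ | Y.h + T.d ≤ a.lo ∧ a.lo < Y.b + T.e ∧ InV B η (a.lo + 1)} := by
    rw [Ev_wn (H.wnR le_rfl), Ev_eq, ← cnt s0, ssum_na sl]
    simp [asum, ls, add_assoc]
  obtain ⟨D, d1, d2, d3⟩ : ∃ D, ∑ a ∈ B with Adj B η a, c1 a (η a) +
      Φ (Y.b + T.e) * (if InV B η (Y.b + T.e) then 1 else 0) = D ∧
      F.Ev n (sR (Y.a + T.d) σ) B η 0 om 1 1 (Y.h + T.d) (Y.b + T.e) = D ∧ D ≤ 4 + 2 * T.nc B η := by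
    by_cases W : ∃ c, Y.h + T.d < c ∧ c ≤ Y.b + T.e ∧ InV B η c
    · obtain ⟨c, i, j, k⟩ := W
      obtain ⟨x, y, x1, xy, y1, x2, y2, iv, ad⟩ := exists_iv lo sl ne i j k
      refine ⟨Φ y - Φ x, ?_, ?_, (st x y xy (x2.imp_right (s0 ·)) x1 (y2.imp_right (s0 ·)) y1).trans ?_⟩
      · have : ∑ a ∈ B with Adj B η a, c1 a (η a) =
            ∑ a ∈ B, ((if a = .sS y then Φ y else 0) - if a = .sS x then Φ x else 0) := by
          rw [sum_filter]
          refine sum_congr rfl fun a i => ?_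
          by_cases j : a.lo < Y.b + T.e
          · have e : ∀ z, a = .sS z ↔ a.lo = z := fun z => ⟨fun e => e ▸ rfl, fun e => e ▸ sl a i j⟩
            simp only [hc, j, if_true, (ad a i j).1, (ad a i j).2, e]
            split_ifs <;> first | omega | simp [*]
          · have := ne a i
            rw [if_neg (show a ≠ .sS y by rintro rfl; exact this (by simp only [Bs.lo] at j ⊢; omega)),
              if_neg (show a ≠ .sS x by rintro rfl; exact j (by simp only [Bs.lo]; omega))]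
            simp [hc, j]
        rw [this, sum_sub_distrib, sum_ite_eq', sum_ite_eq']
        have X : (if Bs.sS x ∈ B then Φ x else 0) = Φ x := by
          rcases x2 with rfl | e
          · rw [if_neg fun i => (lo _ i).false, hΦ, S_self, show wn _ _ σ = ∅ from
              filter_false_of_mem fun a _ => by omega]; simp
          · exact if_pos e
        rw [X]
        simp only [iv _ le_rfl hb]
        rcases y2 with rfl | e
        · rw [if_neg fun i => ne _ i rfl, if_pos ⟨xy, le_rfl⟩]; ring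
        · have := ne _ e
          rw [if_pos e, if_neg (by simp only [Bs.lo] at this; omega)]; ring
      · have iv' : ∀ c, Y.h + T.d < c ∧ c ≤ Y.b + T.e ∧ InV B η c ↔ x < c ∧ c ≤ y := fun c =>
          ⟨fun i => (iv c i.2.1 i.1).1 i.2.2, fun i => ⟨by omega, by omega, (iv c (by omega) (by omega)).2 i⟩⟩
        have : ∀ a : Bs, Y.h + T.d ≤ a.lo ∧ a.lo < Y.b + T.e ∧ InV B η (a.lo + 1) ↔ x ≤ a.lo ∧ a.lo < y :=
          fun a => by simpa only [Int.lt_add_one_iff, Int.add_one_le_iff] using iv' (a.lo + 1)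
        rw [e1, hΦ, hΦ, S_cut x1 xy.le, wn_un x1 xy.le, card_union_of_disjoint (wn_dj _)]
        simp only [iv', this, S, wn]; push_cast; ring
      · rw [nc, pay]
        gcongr with z
        exact fun i => (iv z (by omega) (by omega)).2 i
    · push Not at W
      refine ⟨0, ?_, ?_, by positivity⟩
      · rw [if_neg (W _ hb le_rfl), sum_eq_zero fun a i => if_neg fun j => ?_]
        · simp
        have i := mem_filter.1 i
        have := lo a i.1
        exact (adj_pt sl i.1 j i.2).elim (W _ (by omega) (by omega)) (W _ (by omega) (by omega))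
      · rw [e1, filter_false_of_mem fun c _ i => W c i.1 i.2.1 i.2.2,
          filter_false_of_mem fun a _ i => W _ (by omega) (by omega) i.2.2]
        simp
  rw [chg_lw, e0, d1, zero_mul, add_zero] at hg
  have key : g - TC.mb P F B η ≤ T.rs Y F n B η om + Fm.nm (sR (Y.a + T.d) σ) B η -
      2 * F.nh B η + ent B η (Y.h + T.d) (F.w.r + 1) + if F.Fst B η then 4 - Y.hd om Y.h else 0 := by
    have E := Ev_cut (F := F) (n := n) (σ := sR (Y.a + T.d) σ) (B := B) (η := η) (ch := 0) (φ := om) (μ := 1)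
      (e := 1) H.hb.le (show _ ≤ F.w.r + 1 by omega)
    rw [Ev_top hB H.topR, d2] at E
    simp only [Pi.zero_apply, sum_const_zero, Int.cast_zero] at E
    rw [TC.rs]
    rcases H.alt hB hη with i | ⟨V, i, j⟩
    · have := H.tail hB (η := η) (σ' := sR (Y.a + T.d) σ) (ch := 0) fun a i s => by simp
      have := mb_le (P := P) (F := F) (B := B) (η := η)
      have : 4 * tn B η (Y.b + T.e) + (Y.K P - 4) ≤ Y.K P * tc F B η (Y.b + T.e) := by nlinarith
      split_ifs at hg ⊢ <;> linarith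
    · rw [Ev_van V] at E
      simp only [j, if_false, TC.mb]
      split_ifs at hg ⊢ <;> linarith
  refine ⟨by split_ifs at hg <;> linarith, 0, fun n' _ _ => ?_, fun f => ?_, fun f => ?_⟩
  · have : ssum F.w B η (Y.h + T.d) (Y.b + T.e) lq n' ≤ 0 := by
      rw [ssum_na sl]
      exact sum_nonpos fun c i => have i := (mem_filter.1 i).2; lq_le (df c i.1 i.2.1) _ _
    linarith
  · have : g - TC.mb P F B η ≤ F.wt n (sR (Y.a + T.d) σ) B η 0 := by
      rw [if_neg f] at key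
      rw [H.wt_eq hB f]; linarith [lam.ent_le (η := η) (s := Y.h + T.d) (t := F.w.r + 1)]
    exact ⟨this, .inr (.inr this)⟩
  · have : g - TC.mb P F B η ≤ T.wr Y F n (sR (Y.a + T.d) σ) B η 0 := by
      rw [if_pos f, H.entR hB f] at key
      unfold TC.wr; linarith
    exact ⟨this, .inr this⟩

end Cx

theorem lt_of_step {τ : ℕ → ℤ} {N : ℕ} (h : ∀ i < N, τ i < τ (i + 1)) {i j : ℕ} (k : i < j) (hj : j ≤ N) :
    τ i < τ j := by
  induction j with
  | zero => omega
  | succ j ih =>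
    rcases (show i = j ∨ i < j by omega) with rfl | e
    exacts [h i hj, (ih e (by omega)).trans (h j hj)]

/-- **windows give charges** -/
theorem factW {T : WTh Γ} (h : FactC P T) : FactW P T := fun Y hY => by
  obtain ⟨R, hR⟩ := h Y hY
  obtain ⟨N₀, hN⟩ := exists_nat_gt (2 * (|R + 4 - Y.gA + Y.K P * (1 + 2 * #Y.A)| + |Y.u.2|))
  refine ⟨N₀, fun N hN' F d c t o cl => hR F d c ⟨t.d, t.e, t.n, (range N).image fun i => .yS (t.t (i + 1))⟩ ?_ cl⟩
  have n0 : (N₀ : ℝ) ≤ N := Nat.cast_le.2 hN'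
  have n1 := le_abs_self (R + 4 - Y.gA + Y.K P * (1 + 2 * #Y.A))
  have n2 := abs_nonneg (R + 4 - Y.gA + Y.K P * (1 + 2 * #Y.A))
  have n3 := le_abs_self Y.u.2
  have n4 := abs_nonneg Y.u.2
  have lt := fun {i j} => lt_of_step (i := i) (j := j) fun i k => (o.t i k).1
  have inj : Set.InjOn (fun i => t.t (i + 1)) (range N : Finset ℕ) := fun i a j b e => by
    have a := mem_range.1 a; have b := mem_range.1 b
    rcases lt_trichotomy i j with k | k | k
    exacts [((lt (Nat.succ_lt_succ k) b).ne e).elim, k, ((lt (Nat.succ_lt_succ k) a).ne e.symm).elim]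
  refine { o with G := fun γ k => ?_, cell := fun p hp => ?_ }
  · obtain ⟨i, q, rfl⟩ := mem_image.1 k
    exact ⟨(o.t i (mem_range.1 q)).2.1, o.t0 ▸ lt i.succ_pos (mem_range.1 q)⟩
  obtain ⟨ts, k1, k2, k3, tor, cell⟩ := o.cell p hp
  have m : ∀ a ∈ p.2.image Wl.b, a ∈ c.walls.image Wl.b ∪ F.fz := fun a k =>
    mem_union_left _ (image_subset_image (subset_biUnion_of_mem Prod.snd hp) k)
  have := hY.lt; have := o.sb
  have H : Cx P Y F t.d t.e (acts F.w ts p.1) (p.2.image Wl.b) :=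
    ⟨(o.ok.fz _ o.fz.1).1.1, hY.lt.1, by omega, hY.lt.2.2.2, o.r, fun a k => (tor.ok a k).1, tor.far,
      fun a k => ((o.side a (m a k)).resolve_left fun e => by
        simpa [e, Bs.Far, Bs.lo, Bs.hi, Bs.arc] using tor.fz a k _ o.fz.1).resolve_left fun e => by
        simpa [e, Bs.Far, Bs.lo, Bs.hi, Bs.arc] using tor.fz a k _ o.fz.2.1,
      fun a k => sp_of (tor.ok a k).1 (tor.fz a k _ o.fz.2.2), fun l k => by
        obtain ⟨x, e, -⟩ := o.ok.ls l k
        exact ⟨(o.ls l k).1, by simp [e, Bs.lo, Bs.hi], (o.ls l k).2⟩, fun a k => o.tw a (m a k),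
      o.tl.out ((out_fl (o.orb p hp) o.ls).trans (out_acts _ k3 _)) (.inr le_rfl)⟩
  have sp : ∀ i < N, ∀ a ∈ p.2.image Wl.b ∪ F.ls, Sp (t.t (i + 1)) a := fun i k a j => by
    rcases mem_union.1 j with j | j
    · exact sp_of (tor.ok a j).1 (tor.fz a j _ (o.t i k).2.1)
    · have := o.ok.lf a j _ (o.t i k).2.1
      exact ⟨(H.ls a j).2.1, by simpa [Bs.Far, Bs.lo, Bs.hi, Bs.arc, or_comm] using this⟩
  have le : ∀ i ≤ N, t.t i ≤ Y.b + t.e := fun i k =>
    (k.eq_or_lt.elim (fun e => e ▸ le_rfl) fun e => (lt e le_rfl).le).trans o.tN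
  have g1 : ∀ x ∈ (range N).image fun i => t.t (i + 1), x ≤ Y.b + t.e ∧ ∀ a ∈ p.2.image Wl.b, Sp x a := fun x k => by
    obtain ⟨i, q, rfl⟩ := mem_image.1 k
    exact ⟨le _ (mem_range.1 q), fun a j => sp i (mem_range.1 q) a (mem_union_left _ j)⟩
  obtain ⟨z, v, v', a1, a2⟩ := cell.nl
  obtain ⟨z', v'', b1, b2, b3⟩ := cell.nr
  obtain ⟨z'', c1, c2, c3⟩ := cell.tl
  refine ⟨ts, k1, k2, k3, Cx.nl (by exact H) a1 a2, Cx.nr (by exact H) b1 (cut_lt o.ok b1).2.le b2 b3, ?_⟩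
  rcases cell.ns with ⟨x, x0, x1, x2⟩ | s
  · have l0 : ∀ i ≤ N, F.w.l ≤ t.t i := fun i k => by
      have := H.l; have := H.ah; have := o.t0
      rcases i with _ | i
      exacts [by omega, by have : t.t 0 < t.t (i + 1) := lt i.succ_pos k; omega]
    have := (winP_chain (fun i k => (o.t i k).1) sp (fun i k => winP_of (x1 i k) (l0 i k.le) (le _ k)) o.tN
      (winP_of x2 (l0 N le_rfl) le_rfl)).2.1.mono x0
    rw [o.t0] at this
    refine Cx.ns1 (by exact H) image_image.symm g1 this c1 (cut_lt o.ok c1).2.le c2 c3 ?_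
    rw [card_image_of_injOn inj, card_range]; linarith
  · refine Cx.ns0 (by exact H) image_image.symm (fun x k => (g1 x k).2) s.ls (fun a k => (s.sl a k).1) s.df
      (Φ := t.Φ Y F _ _) (fun _ => rfl) (fun x y a b c d e => ?_) (by linarith [s.up])
    rw [filter_image, card_image_of_injOn (inj.mono (coe_subset.2 (filter_subset _ _)))]
    exact s.st x y a b c d e

end Crest.Agent.X212.Tm38
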