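import Crest.Agent.X212.Wd38.Tl

/-!
# Row 212, layer G (helper38): terminal chains of words (pure data)

`Ref` is fixed before the rank: a word that contains the head `[a, s]` and the tail `[b, r]`.
`TD.OK P Y N F c`: the chain `c` on the frame `F` is terminal with `N` coupling slices `t 1, …, t N`.
-/

set_option autoImplicit false
noncomputable section

namespace Crest.Agent.X212.Tm38

open Crest.Agent.X212.Rod53 Crest.Agent.X212.Wd38 Crest.Agent.X212.Nm96 Finset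

variable {Γ : Nm}

variable (Γ) in
/-- the reference word, line, tail walls, slots of `a`, `h`, `s`, `b`, the constant `C`, two reserves -/
structure Ref where
  w : Shp Γ
  n : Wt
  A : Finset Bs
  a : ℤ
  h : ℤ
  s : ℤ
  b : ℤ
  C : ℤ
  u : ℝ × ℝ
  v : ℝ × ℝ

namespace Ref
variable (P : Pm Γ) (Y : Ref Γ)

structure OK : Prop where
  w : Y.w.OK
  n : Y.n.OK Y.w P.Λ
  mL : Y.n.mL = 0
  mR : Y.n.mR = 0
  ah : Y.w.Rg Y.a (Y.h + 1)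
  lt : Y.a < Y.h ∧ Y.h < Y.s ∧ Y.s < Y.b ∧ Y.b < Y.w.r
  a : (Y.w.s Y.a).r.2.2 = 0 ∧ Odd (Y.n.nr Y.a)
  h : |(Y.w.s Y.h).r.2.2| = 1
  s : (Y.w.s Y.s).r.2.1 = 0
  s1 : ∃ τ, Y.w.s (Y.s + 1) = .rod τ
  b : (Y.w.s Y.b).r.2.2 ≠ 0
  A : ∀ x ∈ Y.A, x.OK Y.w ∧ Y.b < x.lo

/-- the sum over the vertices of the head right of the slot `x` -/
def hd (φ : Z2 → Z2 → ℤ → ℤ → ℝ) (x : ℤ) : ℝ := ∑ c ∈ Ioc x Y.s, vx Y.w φ Y.n c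

end Ref

/-- the slots `x + d, …, y + d` of `(w', n')` are the slots `x, …, y` of `(w, n)` -/
def Cpy (w w' : Shp Γ) (n n' : Wt) (d x y : ℤ) : Prop := ∀ j, x ≤ j → j ≤ y →
  w'.s (j + d) = w.s j ∧ n'.nl (j + d) = n.nl j ∧ (j < w.r → n'.nr (j + d) = n.nr j)

/-- the frame without frozen slices: its windows use neither `Loc` nor `HgW` -/
abbrev nf (F : Fm Γ) : Fm Γ := ⟨F.w, ∅, F.ls⟩

/-- one flip -/
def Fl (ls : Finset Bs) (n n' : Wt) : Prop := ∃ l ∈ ls, n' = fl l n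

/-- the shifts of the head and of the tail, the auxiliary line, the coupling slices -/
structure TD where
  d : ℤ
  e : ℤ
  n : Wt
  t : ℕ → ℤ

namespace TD
variable (P : Pm Γ) (Y : Ref Γ) (N : ℕ) (F : Fm Γ) (T : TD)

/-- the potential of level zero -/
def Φ (n : Wt) (σ : Finset Bs) (x : ℤ) : ℝ := S F.w n om (Y.h + T.d) x + #(wn (Y.h + T.d) x σ)

/-- growth by windows -/
def Ns1 (n : Wt) (σ : Finset Bs) : Prop := ∃ u : ℕ → ℝ × ℝ, u 0 ≤ Y.u ∧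
  (∀ i < N, (nf F).Win (Y.b + T.e) 0 n σ (T.t i) (T.t (i + 1)) (u i) (u (i + 1) + (1, 1))) ∧
  (nf F).Win (Y.b + T.e) 0 n σ (T.t N) (Y.b + T.e) (u N) Y.v

/-- growth at level zero -/
structure Ns0 (n : Wt) (σ : Finset Bs) : Prop where
  ls : F.ls = ∅
  sl : ∀ a ∈ wn (Y.h + T.d) (Y.b + T.e) σ, ¬a.arc ∧ Y.h + T.d < a.lo
  df : ∀ c, Y.h + T.d < c → c ≤ Y.b + T.e → dt (F.w.lf c) (F.w.rt c) = 0 ∨ nn (F.w.lf c) (F.w.rt c) < 0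
  up : (N : ℝ) / 2 ≤ T.Φ Y F n σ (Y.b + T.e) + Y.u.2
  st : ∀ x y, x < y → (x = Y.h + T.d ∨ .sS x ∈ σ) → Y.h + T.d ≤ x → (y = Y.b + T.e ∨ .sS y ∈ σ) →
    y ≤ Y.b + T.e → T.Φ Y F n σ y - T.Φ Y F n σ x ≤
      4 + 2 * #{i ∈ range N | x < T.t (i + 1) ∧ T.t (i + 1) ≤ y}

/-- the windows of one cell -/
structure Cell (n : Wt) (σ : Finset Bs) : Prop where
  nl : ∃ z v v', F.Win z 0 n σ (F.w.l - 1) (Y.a + T.d) v v' ∧ 7 / 4 - Y.C - Y.hd al Y.a < v'.1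
  nr : ∃ z v, F.Cut z ∧ F.Win z 0 n σ (Y.h + T.d) (F.w.r + 1) v (vR P) ∧ v.1 < 2 - Y.C - Y.hd al Y.h
  ns : T.Ns1 Y N F n σ ∨ T.Ns0 Y N F n σ
  tl : ∃ z, F.Cut z ∧ Y.b + T.e ≤ z ∧ F.Win z 0 n σ (Y.b + T.e) (F.w.r + 1) Y.v (vR P)

/-- **terminal chains** -/
structure OK (c : Cn) : Prop where
  ok : F.OK P
  lok : F.LOK P T.n
  fz : .yS (Y.a + T.d) ∈ F.fz ∧ .yS (Y.h + T.d) ∈ F.fz ∧ .yS (Y.b + T.e) ∈ F.fz
  sb : Y.s + T.d < Y.b + T.e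
  r : F.w.r = Y.w.r + T.e
  hd : Cpy Y.w F.w Y.n T.n T.d Y.a Y.s
  tl : Cpy Y.w F.w Y.n T.n T.e Y.b Y.w.r
  tor : ∀ a ∈ c.walls, a.tw = [] ∨ a.In (Y.h + T.d) (Y.b + T.e)
  side : ∀ x ∈ c.walls.image Wl.b ∪ F.fz,
    x = .yS (Y.a + T.d) ∨ x = .yS (Y.h + T.d) ∨ x.hi < Y.a + T.d ∨ Y.h + T.d < x.lo
  tw : ∀ x ∈ c.walls.image Wl.b ∪ F.fz, Y.b + T.e < x.lo → x.sh (-T.e) ∈ Y.A
  ls : ∀ l ∈ F.ls, Y.h + T.d < l.lo ∧ l.hi < Y.b + T.e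
  orb : ∀ p ∈ c.support, Relation.ReflTransGen (Fl F.ls) T.n p.1
  exc : ∀ p ∈ c.support, ∀ q ∈ c.support,
    (q.1, {a ∈ p.2 | a.b.hi < Y.a + T.d} ∪ {a ∈ q.2 | Y.a + T.d < a.b.lo}) ∈ c.support
  s : ↑(Bs.sS (Y.s + T.d)) ∈ c.walls ∨ F.GC P T.n {↑(Bs.sS (Y.s + T.d))}
  t0 : T.t 0 = Y.h + T.d
  tN : T.t N ≤ Y.b + T.e
  t : ∀ i < N, T.t i < T.t (i + 1) ∧ F.Cut (T.t (i + 1))
  cell : ∀ p ∈ c.support, ∃ ts, F.Pops ts p.2 ∧ (∀ a ∈ p.2, (pops ts a).tw = []) ∧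
    (∀ t ∈ ts, Y.h + T.d < t.x ∧ t.y < Y.b + T.e) ∧ F.Tor P (acts F.w ts p.1) (p.2.image Wl.b) ∧
    T.Cell P Y N F (acts F.w ts p.1) (p.2.image Wl.b)

end TD

/-- **finite rank, word form** -/
def FactW (P : Pm Γ) (T : WTh Γ) : Prop := ∀ Y : Ref Γ, Y.OK P → ∃ N₀, ∀ N, N₀ ≤ N → ∀ F d c (t : TD),
  t.OK P Y N F c → F.Cl P d c → T.Z F d c = 0

end Crest.Agent.X212.Tm38
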