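import Crest.Agent.X212.Tm38.Pq2

/-!
# Row 212, RF-Q (helper38): `Qab60.ParStmt`
-/

set_option autoImplicit false
set_option linter.unusedSectionVars false
noncomputable section
open scoped Manifold ContDiff Topology Real
open MeasureTheory Set Function Filter

namespace Crest.Agent.X212.Tm38.Pq
open An An.Job M Nd18 Rf65 Qab60 G75 Ins26
open Mp86.St (hp_some hp_mem)

section job
variable {Wi : Type} {X : Mf 4} {A κ lam : Type} [Fintype A] [Fintype κ] [Fintype lam]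
  [DecidableEq lam] {M : Mark X A κ} {W : World M} {N : ML M lam} {Λ : Lns W N}
  {A' h : Type} [Fintype A'] [DecidableEq A'] [Fintype h] {r n : ℕ}
  {J : Job Wi Λ A' h r n} {c : M.Cl} {σ₀ : Cel A'} {σ : Bool → Cel A'} {q : Wi →₀ ℝ} {R : A}
  {P : HD J c R} {Adm : (Wi →₀ ℝ) → Prop} {e : Bool → A'} {k : ℝ} {sh : Set A'} {n₀ : ℤ}

theorem cl_fc {σ : Cel A'} {a : A'} (f : σ a = none) {s : A' → ℝ} :
    s ∈ cl (update σ a (some false)) ↔ s ∈ cl σ ∧ s a = 0 := by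
  refine ⟨fun k => ⟨⟨fun a' b e => k.1 a' b ?_, k.2⟩, k.1 a false (update_self ..)⟩,
    fun k => ⟨fun a' b e => ?_, k.1.2⟩⟩ <;> rcases eq_or_ne a' a with rfl | z
  · simp [f] at e
  · rwa [update_of_ne z]
  · rw [update_self] at e
    cases e
    exact k.2
  · exact k.1.1 a' b (by rwa [update_of_ne z] at e)

variable (J c R σ₀ σ e) in
/-- two cells `σ b` with the common facet `σ₀` -/
structure Two (V : Set A') : Prop where
  mem : ∀ b, σ b ∈ J.𝒦
  pok : ∀ b, J.POK (σ b) c (po J R V)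
  fr : ∀ b, σ b (e b) = none
  nV : ∀ b, e b ∉ V
  fc : ∀ b, σ₀ = update (σ b) (e b) (some false)
  det : ∀ b s s', Ovc J c (σ b) s → Ovc J c (σ b) s' → (∀ a ∈ V, s a = s' a) → s (e b) = s' (e b) →
    s = s'
  one : ∀ b b', σ b (e b') = none → e b' = e b
  lt : ∀ b s, Ovc J c (σ b) s → s (e b) < 1

theorem par_job (C : Cx J c R) (hP : P.OK Adm e k) (hq : Adm q) (hK : KexL J c)
    (E : Two J c σ₀ σ R e (J.lv sh σ₀ c {hp R true})) (no : ∀ y : J.Obc c, ¬Sol σ₀ q y)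
    (fin : ∀ b, Finite (Quot fun y y' : J.TS (σ b) q c => Iso y.1 y'.1))
    (ta : ∀ b, Ta J c (σ b) q R k n₀ (P.Tr e (σ b) q)) :
    ∑ b, (J.zc q (σ b) c : ZMod 2) = oc J c sh σ₀ q R (J.k - k) := by
  let O := {y // OS J c sh σ₀ q R (J.k - k) y}
  let p := pO J c sh σ₀ R
  have cl0 : ∀ b {s}, s ∈ cl σ₀ ↔ s ∈ cl (σ b) ∧ s (e b) = 0 := fun b _ => E.fc b ▸ cl_fc (E.fr b)
  have up : ∀ b (o : O), SolOn p (σ b) q o.1 := fun b o =>
    { o.2.sol with cell := ((cl0 b).1 o.2.sol.cell).1 }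
  have so : ∀ b (y : J.TS (σ b) q c), SolOn p (σ b) q y.1 := fun b y =>
    C.out y.2.1 y.2.2 (ta b _ y.2.1 y.2.2).1.2.1
  have ov : ∀ {b} {y : J.Obc c}, SolOn p (σ b) q y → Ovc J c (σ b) y.s := fun a =>
    ⟨E.mem _, a.cell, a.inf⟩
  have ic : ∀ {b} {y : J.Obc c}, SolOn p (σ b) q y → y.s (e b) ∈ Ico 0 1 := fun a =>
    ⟨(a.cell.2 _).1, E.lt _ _ (ov a)⟩
  have nV : ∀ b (s : A' → ℝ) t, ∀ i ∈ p.V, s i = update s (e b) t i := fun b s t i hi =>
    (update_of_ne (ne_of_mem_of_not_mem hi (E.nV b)) _ _).symm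
  have mv := fun b (y : J.Obc c) (a : SolOn p (σ b) q y) t ht =>
    have l := hP.line _ _ b (ov a) (E.fr b) t ht
    move C.ok (E.mem b) (E.pok b) a l.2.1 l.2.2 (nV b _ t)
  have sy := fun b {y y' : J.Obc c} (a : SolOn p (σ b) q y) (a' : SolOn p (σ b) q y') =>
    eqp_symm C.ok (E.mem b) (E.pok b) a a'
  have tn := fun b {y y' y'' : J.Obc c} (a : SolOn p (σ b) q y) (a' : SolOn p (σ b) q y')
    (a'' : SolOn p (σ b) q y'') f => eqp_trans C.ok (E.mem b) (E.pok b) a a' f a''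
  have kp := fun b {y y' : J.Obc c} (a : SolOn p (σ b) q y) (a' : SolOn p (σ b) q y') =>
    eqp_kap C.ok (E.mem b) (E.pok b) a a'
  have ex : ∀ b (y : J.TS (σ b) q c), ∃ o : O, EqP p o.1 y.1 := fun b y => by
    obtain ⟨z, z1, z2, z3, z4⟩ := mv b _ (so b y) 0 ⟨le_rfl, one_pos⟩
    obtain ⟨-, t1, t2, -⟩ := ta b _ y.2.1 y.2.2
    exact ⟨⟨z, { z2 with cell := (cl0 b).2 ⟨z2.cell, z1 ▸ update_self ..⟩ }, z4 ▸ t1,
      un_one W.toCaps c _ ▸ (kp b z2 (so b y) z3).trans (eq_sub_of_add_eq' (t2 ▸ C.kap y.2.1 y.2.2))⟩, z3⟩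
  choose o ho using ex
  let f := fun b (y : J.TS (σ b) q c) => (Quot.mk (fun y y' : O => EqP p y.1 y'.1) (o b y), y.1.s (e b))
  have key : ∀ b y (z : O), (f b y).1 = Quot.mk _ z ↔ EqP p y.1 z.1 := fun b y z =>
    ((eqp_equiv C.ok (E.mem b) (E.pok b) (up b)).quot_mk_eq_iff _ _).trans
      ⟨tn b (so b y) (up b _) (up b z) (sy b (up b _) (so b y) (ho b y)),
        fun k => tn b (up b _) (so b y) (up b z) (ho b y) k⟩
  have tr : ∀ b (y : J.TS (σ b) q c), ∃ ξ, AI J c R q y.1.s y.1.x k ξ ∧ P.Cl y.1.s y.1.x ξ P.g ∧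
      deriv (fun t => P.H P.g q (update y.1.s (e b) t)) (y.1.s (e b)) ≠ 0 ∧
      ∀ l, Inn J R l → Line J c q y.1.s y.1.x l := fun b y =>
    let ⟨_, _, t, b', ξ, t1, _, t2, t3, t4, t5⟩ := ta b _ y.2.1 y.2.2
    ⟨ξ, ai_of (E.mem b) y.2.1 t2 t, t3, E.one b b' t1 ▸ t4, t5⟩
  have iso : ∀ b y y', Iso y.1 y'.1 ↔ f b y = f b y' := fun b y y' => by
    refine ⟨fun k => Prod.ext ((key b y _).2 (tn b (so b y) (so b y') (up b _) (eqp_iso (E.pok b).pc
      (E.pok b).nb k) (sy b (up b _) (so b y') (ho b y')))) (congrFun k.1 _), fun k => ?_⟩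
    have k1 := tn b (so b y) (up b _) (so b y') ((key b y _).1 (congrArg Prod.fst k)) (ho b y')
    obtain ⟨ξ, a1, a2, -⟩ := tr b y
    obtain ⟨ξ', b1, b2, -, b3⟩ := tr b y'
    exact C.iso hP hq (E.mem b) y.2.1 y'.2.1 y.2.2 y'.2.2
      (E.det b _ _ (ov (so b y)) (ov (so b y')) k1.1 (congrArg Prod.snd k)) a1 b1 a2 b2 b3 k1
  have eq := fun b => (card_quot (iso b)).some
  have := fun b => Finite.of_equiv _ (eq b)
  simp only [Job.zc, fun b => Nat.card_congr (eq b)]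
  refine cnt (fun b => range (f b)) (Quot.ind fun z => ?_)
  have en : p.En R true := ⟨_, rfl, hp_some.2 ⟨rfl, rfl⟩⟩
  have bs := fun {b} {y : J.Obc c} (a : SolOn p (σ b) q y) => C.bs _ (a.crit R C.cw true en)
  let g := fun b t => Real.cos (2 * π * P.H P.g q (update z.1.s (e b) t))
  have fl : ∀ b, ∀ t ∈ Ico (0 : ℝ) 1, g b t = Real.cos (2 * π * P.hl (z.1.β R true)) →
      ∃ y : J.TS (σ b) q c, EqP p y.1 z.1 ∧ y.1.s = update z.1.s (e b) t := fun b t ht k => by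
    obtain ⟨w, w1, w2, w3, w4⟩ := mv b _ (up b z) t ht
    obtain ⟨y, y1, y2, y3, y4⟩ := C.fill hP hq (E.mem b) hK (E.pok b) w2
      ((kp b w2 (up b z) w3).trans (un_one W.toCaps c _ ▸ z.2.lev)) (by rw [w1, w4]; exact k.symm)
    exact ⟨⟨y, y1, y2⟩, tn b (so b ⟨y, y1, y2⟩) w2 (up b z) y4 w3, y3.trans w1⟩
  have z0 : ∀ b, update z.1.s (e b) 0 = z.1.s := fun b =>
    update_eq_self_iff.2 ((cl0 b).1 z.2.sol.cell).2.symm
  have hv := cos_lt hP (bs (up false z)) z.2.dz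
  obtain ⟨ε, hε, lim⟩ := hP.crn
  convert par2 (g := g) hε hv (by simp only [g, z0]) (fun k => ?_) (fun b => Real.continuous_cos.comp_continuousOn
    (continuousOn_const.mul (edge hP hq (ov (up b z)) (E.fr b))))
    (fun b => lim q _ _ b hq (ov (up b z)) (E.fr b)) (fun b t ht k => ?_) using 4 with b
  · refine Set.ext fun t => ⟨fun ⟨y, k⟩ => ?_, fun k => ?_⟩
    · obtain rfl : y.1.s (e b) = t := congrArg Prod.snd k
      have k1 := (key b y z).1 (congrArg Prod.fst k)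
      obtain ⟨ξ, a1, a2, -⟩ := tr b y
      refine ⟨ic (so b y), Eq.trans ?_ ((C.cos_eq hP hq (E.mem b) y.2.1 y.2.2 a1 a2).symm.trans ?_)⟩
      · rw [E.det b _ _ (ov (so b y)) (hP.line _ _ b (ov (up b z)) (E.fr b) _ (ic (so b y)))
          (fun i hi => (k1.1 i hi).trans (nV b _ _ i hi)) (by simp), update_self]
      · rw [(hP.clr.eqv (bs (so b y)) (bs (up b z))).1
          (eqp_lim C.ok (E.mem b) (E.pok b) (so b y) (up b z) k1 C.cw en)]
    · obtain ⟨y, y1, y2⟩ := fl b t k.1 k.2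
      exact ⟨y, Prod.ext ((key b y z).2 y1) ((congrFun y2 _).trans (update_self ..))⟩
  · obtain ⟨y, -, y2⟩ := fl false 0 ⟨le_rfl, one_pos⟩ k
    exact no y.1 { y.2.1 with cell := y2 ▸ (z0 _).symm ▸ z.2.sol.cell }
  · obtain ⟨y, -, y2⟩ := fl b t (Ioo_subset_Ico_self ht) k
    obtain ⟨ξ, -, -, d, -⟩ := tr b y
    simp only [y2, update_idem, update_self] at d
    exact cos_simple d ((congrArg abs k).trans_lt hv)

end job

variable {κ lam : Type} [Fintype κ] [Fintype lam] [DecidableEq lam] {Lm : LM κ lam}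

theorem cel_none {S : Scene Lm} {τ : Finset S.A} {o : Option Bool} {x : S.A} :
    cel τ o (.inl x) = none ↔ x ∈ τ := by simp [cel]

variable (Lm) in
/-- **LEAF PARQ** -/
theorem parStmt (wl : ∀ {Y : Mf 3} [CompactSpace Y.M] [ConnectedSpace Y.M]
    (D : YD Y.I Y.M κ (lam ⊕ lam)), WlStmt D) : ParStmt Lm := by
  classical
  intro S D i Wi r n J c R e Q j n₀ T hQ jr c1 pj hK P Adm hP τ q hq hR he no H
  have g := jr.gx
  have cw : R ∈ cylW c := ⟨c1.ge rfl, hQ.np⟩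
  have := J.conn_xs R
  have hd : ∀ {x}, x ∈ hard S {R} → J.hd (.inl x) = some x := fun hx => by rw [g.hd]; exact if_pos hx
  have eR : ∀ b, e b ≠ R := fun b k => hQ.np (k ▸ (hQ.pin b).1)
  have fc : ∀ b, cel (τ ∪ {R}) (some false) =
      update (cel (τ ∪ {R, e b}) (some false)) (.inl (e b)) (some false) := fun b => by
    funext a
    rcases a with a | a
    · by_cases k : a = e b <;> simp [cel, k, he, eR]
    · simp [cel]
  have nT : ∀ b σ, .inl (e b) ∉ J.lv (shX S {R}) σ c {hp R true} := fun b σ k => by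
    rcases k.2.2 with k | ⟨_, rfl, x, k, k'⟩
    · exact k _ (.inl (hQ.pin b).1) rfl
    obtain rfl := Option.some.inj ((hd (.inl (hQ.pin b).1)).symm.trans k')
    obtain ⟨z, hz, -⟩ := (S.M.sys.w (e b)).ne true
    exact disjoint_left.1 (S.M.sys.w R).dj ((U_hp true).le (k.2.1 hz)) ((hQ.pin b).2.2 (.inr hz))
  refine par_job (σ := fun b => cel (τ ∪ {R, e b}) (some false)) ⟨g.ok, c1, hQ.np, g.loc.nb,
    let ⟨b, py⟩ := pj.py R cw; (wl _ _ b (g.ok.xs R).1.yd (pj.nil R cw).1 py).1⟩ hP hq hK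
    ⟨fun b => (H b).1, fun b => ?_, fun b => by simp [cel], fun b => nT b _, fc,
      fun b s s' a a' k k' => funext fun x => ?_, fun b b' k => ?_, fun b s a => ?_⟩
    no (fun b => (H b).2.1) fun b => (H b).2.2
  · convert g.loc.pok _ (H b).1 c {hp R true} _ univ (fun _ k => k ▸ hp_mem c1 true) subset_rfl using 1
    refine congrArg (po J R) (Set.ext fun a => ?_)
    rcases eq_or_ne a (.inl (e b)) with rfl | k
    · exact iff_of_false (nT b _) (nT b _)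
    · simp only [fc b, lv, mem_ofPred_eq, update_of_ne k]
  · rcases z : cel (τ ∪ {R, e b}) (some false) x with _ | d
    swap
    · exact (a.2.1.1 x d z).trans (a'.2.1.1 x d z).symm
    obtain ⟨τ₁, o, τ', t0, t1, t2, -, t3, -⟩ := g.cell _ a.1
    have m : ∀ {x}, x ∈ τ ∪ {R, e b} → x ∈ τ₁ := fun k => cel_none.1 (t0 ▸ cel_none.2 k)
    have mR := m (x := R) (by simp)
    rcases x with x | x
    swap
    · simp [cel] at z
    rcases Finset.mem_union.1 (cel_none.1 z) with z' | z'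
    · have xR : x ≠ R := fun k => hR (k ▸ z')
      have mx := m (Finset.mem_union_left _ z')
      refine k _ ⟨cel_none.2 (Finset.mem_union_left _ z'), fun x' k1 k2 => xR ?_, .inr ⟨_, rfl, x,
        ⟨if_neg xR, ?_, fun x' k1 => ?_⟩, hd (t3 mx)⟩⟩
      · rw [hd (t3 mx)] at k1
        rwa [c1, ← Option.some.inj k1] at k2
      · exact (((hQ.out τ' t2 (t1 mR) x (t1 mx)).resolve_left xR).resolve_left
          fun ⟨b', k1⟩ => he b' (k1 ▸ z')).trans (U_hp true).ge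
      · obtain ⟨_, k1⟩ := Sys.mem_bd.1 k1
        obtain ⟨rfl, -⟩ := hp_some.1 k1
        exact (g.sc.cell i τ' t2).1 (.inl (t1 mx)) (.inl (t1 mR)) xR
    · rcases Finset.mem_insert.1 z' with rfl | z'
      · have := fun {σ s} (a : Ovc J c σ s) => g.ok.eq_one a.1 ⟨J.cl_dom a.2.1, a.2.2⟩ (hd (t3 mR)) cw.1
        exact (this a).trans (this a').symm
      · exact Finset.mem_singleton.1 z' ▸ k'
  · simpa [he, eR] using cel_none.1 k
  · obtain ⟨s₀, h1, h2⟩ := g.ok.lin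
    exact (a.2.1.2 _).2.lt_of_ne fun k => eR b (c1.le (a.2.2.le
      ((h2 _ _ (hd (.inl (hQ.pin b).1)) s (h1.le.trans k.ge)).1.trans k)))

end Crest.Agent.X212.Tm38.Pq
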