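import Crest.Agent.X212.Sw87.MoP

/-!
# Row 212, GEO engine (helper38): the cells of a pentagon
-/

set_option autoImplicit false
set_option linter.unusedSectionVars false
noncomputable section
open Set Function

namespace Crest.Agent.X212.Tm38.As
open An Cyf70 Sw Flo2 Geo28 Met55 Pen22 Sw87.Mo
open Bor5.T (O3 Q3)
open Mv17 (clsStmt)

variable {mk : Mk κ0 L0 ν0} {X X' X₁ X₂ : M4} {τ τ₀ : MT κ0 X} {τ' : MT κ0 X'} {τ₁ : MT κ0 X₁}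
  {τ₂ : MT κ0 X₂} {𝒯 𝒯₀ 𝒯₁ 𝒯₂ : Set TY} {I I₀ I₁ I₂ J : Type} {γ : TG τ τ₁ τ₂} {Λ : γ.LR}

theorem rg1 : range (![1] : Fin 1 → Fin 2) = {0}ᶜ := by ext a; fin_cases a <;> simp

theorem rg2 : range (![0] : Fin 1 → Fin 2) = {1}ᶜ := by ext a; fin_cases a <;> simp

section
variable {k k' k₁ k₂ : ℕ} {β : MB τ k} {β' : MB τ' k'} {β₁ : MB τ₁ k₁} {β₂ : MB τ₂ k₂} {c : MC μ0 β}
  {c' : MC μ0 β'} {c₁ : MC μ0 β₁} {c₂ c₃ : MC μ0 β₂} {a : Fin k} {ι₁ : Fin k₁ → Fin k}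
  {ι₂ : Fin k₂ → Fin k}

/-- a facet -/
def ft {s ι φ} (h : FcM c c' a s ι φ) (rg : range ι = {a}ᶜ) {ens C ens' C'} (t : Tr (c'.gc ens' C')) :
    Ft (c.gc ens C) a ⟨_, t⟩ s := ⟨ι, φ, h.choose, rg, h.choose_spec _ _ _ _⟩

/-- a neck wall -/
def fn (h : WlM γ Λ c c₁ c₂ a ι₁ ι₂) (e : γ.cap = false) {ens C p ens₁ C₁ ens₂ C₂}
    (F : Ft (c.gc ens C) a p 0) (t₁ : Tr (c₁.gc ens₁ C₁)) (t₂ : Tr (c₂.gc ens₂ C₂)) :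
    FN (c.gc ens C) a p ⟨_, t₁⟩ ⟨_, t₂⟩ :=
  ⟨_, h.1, F, ι₁, ι₂, Λ.l, Λ.r, e ▸ h.2 _ _ _ _ _ _, t₂.nd.ok.fc _⟩

/-- a cap wall -/
def fc (h : WlM γ Λ c c₁ c₂ a ι₁ ι₂) (e : γ.cap = true) {ens C p ens₁ C₁ ens₂ C₂ ens₃ C₃}
    (F : Ft (c.gc ens C) a p 0) (t₁ : Tr (c₁.gc ens₁ C₁)) (t₃ : Tr (c₃.gc ens₃ C₃))
    (ro : Ro mk (c₂.gc ens₂ C₂)) (w : ∀ b, β₂.wl b = none) (n : ℤ) (fx : Bool)
    (f : ∀ m, m = n ∨ fx = true → (c₂.gc ens₂ C₂).Fc (c₃.gc ens₃ C₃) (dom β₂.wl) id (.refl _) m) :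
    FC mk (c.gc ens C) a p ⟨_, t₁⟩ ⟨_, t₃⟩ :=
  ⟨_, h.1, F, _, ro.ok, ro.en, w, ι₁, ι₂, Λ.l, Λ.r, e ▸ h.2 _ _ _ _ _ _, id, .refl _, n, fx, surjective_id,
    f _ (.inl rfl), fun k _ => f _ (.inr k)⟩

theorem prp {A B : EE mk} {F : RF mk 𝒯 β I} {e : I₀ → I} {n} (h : F.Prp e n) {u : J → I₀}
    (hu : Injective u) {σ : J → C2 A B} (hg : ∀ j, (σ j).g = F.g (e (u j))) (hn : ∀ j, (σ j).n = n (u j)) :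
    (KC mk).Prp σ := by
  obtain ⟨D, h⟩ := h
  have k : ∀ (σ : C2 A B) g (e : σ.g = g) (f : g.Tf), (KC mk).prB σ (congrArg Gc.toBs e) f = g.pr σ.n f := by
    rintro _ _ rfl _
    rfl
  refine ⟨β.bs (ens0 𝒯 τ) F.C, fun j => congrArg Gc.toBs (hg j), D,
    fun R => ((h R).preimage hu.injOn).subset fun j hj f hf => ?_⟩
  exact hn j ▸ k _ _ (hg j) f ▸ hj f hf

theorem prp1 {A B : EE mk} {F : RF mk 𝒯 β I} (h : F.Prp id 0) {σ : I → C2 A B}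
    (hg : ∀ j, (σ j).g = F.g j := by exact fun _ => rfl) (hn : ∀ j, (σ j).n = 0 := by exact fun _ => rfl) :
    (KC mk).Prp σ := prp h injective_id hg hn

end

/-- the ordinary coordinate of a square -/
def fo {τ' : MT κ0 X} {β : MB τ 2} {βw : MB τ 1} {βΓ : MB τ' 1} {c : MC μ0 β} {w w' : MC μ0 βw}
    {Γ : MC μ0 βΓ} {φ} (q : SqM c w w' Γ φ) {ens C ens₁ C₁ ens₂ C₂} (t : Tr (w.gc ens₁ C₁))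
    (t' : Tr (w'.gc ens₂ C₂)) : FO (c.gc ens C) 0 ⟨_, t⟩ ⟨_, t'⟩ :=
  ⟨q.wl, ft q.e0 rg1 t, ft q.e1 rg1 t'⟩

/-- the root of an interval -/
abbrev r1 {β : MB τ 1} (F : RF mk 𝒯 β I) (i : I) : R1 mk :=
  ⟨F.g i, F.ro i, 0, fun _ => Subsingleton.elim _ _⟩

/-- the root of a square -/
abbrev r2 {β : MB τ 2} (F : RF mk 𝒯 β I) (i : I) : R2 mk :=
  ⟨F.g i, F.ro i, 0, 1, zero_ne_one' (Fin 2), (by decide : ∀ c : Fin 2, c = 0 ∨ c = 1)⟩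

section
variable {A B E : EE mk} {β₀ : MB τ₀ 0} {β : MB τ 1} {β₁ : MB τ₁ 0} {β₂ : MB τ₂ 0}
  (p : PF 𝒯₀ A B none β₀ I₀) (H : RF mk 𝒯 β I) {i₀ : I₀} {i : I} {i₁ : I₁} {i₂ : I₂}

/-- a neck wall between points -/
def wal (f : PF 𝒯₁ A E none β₁ I₁) (h : PF 𝒯₂ E B none β₂ I₂) (h0 : FcM (H.c i) (p.c i₀) 0 0 e0 (.refl _))
    (hw : WlM γ Λ (H.c i) (f.c i₁) (h.c i₂) 0 e0 e0) (e : γ.cap = false) :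
    Wal (p.pt i₀) (f.pt i₁) (h.pt i₂) :=
  ⟨r1 H i, fn hw e (ft h0 rg0 (p.pt i₀).τ) (f.pt i₁).τ (h.pt i₂).τ, p.p0 _, f.p0 _, h.p0 _⟩

/-- a cap wall between points -/
def cpw (f : PF 𝒯₁ A B E β₁ I₁) (h : PF 𝒯₂ E none none β₂ I₂) (h0 : FcM (H.c i) (p.c i₀) 0 0 e0 (.refl _))
    (hw : WlM γ Λ (H.c i) (f.c i₁) (h.c i₂) 0 e0 e0) (e : γ.cap = true) (i₃ : I₂) (n : ℤ) (fx : Bool)
    (k : ∀ m, m = n ∨ fx = true → (h.g i₂).Fc (h.g i₃) (dom β₂.wl) id (.refl _) m) :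
    Cpw (p.pt i₀) (f.pt i₁) (h.pt i₃) :=
  ⟨r1 H i, fc hw e (ft h0 rg0 (p.pt i₀).τ) (f.pt i₁).τ (h.pt i₃).τ (h.ro i₂) (fun a => a.elim0) n fx k,
    p.p0 _, f.p0 _, h.p0 _⟩

end

variable {𝓔 : Ends mk} {a b c : Option Q3} {B : Q3}

theorem rep {T : Pm (vo a) (vo b) none} {τ : MT κ0 T.X} {β : MB τ 0}
    (F : PF 𝒯 (𝓔.en a) (𝓔.en b) none β I) (ts : TS mk 𝒯) (o : On T τ (𝓔.go a) (𝓔.go b) ()) (lb : F.Lb T)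
    {i d η} (hd : F.d i = d) (fo : (F.c i).fo 0 = (1 / 2 : ℝ) • η) : 𝓔.Rep a b (F.pt i) T d η :=
  ⟨F.p0 i, ⟨τ, β, F.c i, _, _, o, hd ▸ F.cl i, fo, ts.bd.imp fun _ k j => k _ (F.ty i j), rfl⟩,
    hd ▸ (lb i).1, hd ▸ (lb i).2⟩

section
variable {T₁ : Pm (vo a) (some B.toO3) none} {T₂ : Pm (some B.toO3) (vo c) none}

theorem lab {τ₁ : MT κ0 T₁.X} {τ₂ : MT κ0 T₂.X} {β₁ : MB τ₁ 0} {β₂ : MB τ₂ 0}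
    {F₁ : PF 𝒯₁ (𝓔.en a) (𝓔.en (some B)) none β₁ I₁} {F₂ : PF 𝒯₂ (𝓔.en (some B)) (𝓔.en c) none β₂ I₂}
    (h₁ : F₁.Lb (b := some B) T₁) (h₂ : F₂.Lb (a := some B) T₂) (g : Gl3 (A := B.toO3) T₁.ko T₂.ki X)
    {i j d₁ d₂} (e₁ : F₁.d i = d₁) (e₂ : F₂.d j = d₂) : F₁.t i = F₂.s j ↔ ∃ d, g.Rl d d₁ ∧ g.Rr d d₂ := by
  subst e₁ e₂
  obtain ⟨s, k⟩ := ex_cl (s := true) T₁.ko (F₁.d i)
  obtain ⟨s', k'⟩ := ex_cl (s := false) T₂.ki (F₂.d j)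
  refine ⟨fun e => ?_, fun ⟨_, l, r⟩ => ((h₁ i).2 s k).uq ((h₂ j).1 s ((cl_lr g l r).1 k))⟩
  cases (𝓔.q B).lab.injective (((h₁ i).2 s k).symm.trans (e.trans ((h₂ j).1 s' k')))
  exact clsStmt.mv g _ _ s k k'

/-- the points of a piece -/
abbrev arr {T : Pm (vo a) (vo b) none} {S η} (F : PP 𝓔 𝒯 T S η) : (KC mk).Arr (𝓔.en a) (𝓔.en b) :=
  ⟨S, F.F.pt, fun i => (F.F.p0 i).pt, prp1 F.prp⟩

variable {T : Pm (vo a) (vo c) none} {g : Cm T₁ T₂ T} {ρ : Rf T} {η : T.L → T.Fm} {S₁ : Set T₁.L}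
  {S₂ : Set T₂.L} {η₁ : T₁.L → T₁.Fm} {η₂ : T₂.L → T₂.Fm} {F₁ : PP 𝓔 𝒯 (b := some B) T₁ S₁ η₁}
  {F₂ : PP 𝓔 𝒯 (a := some B) T₂ S₂ η₂} {r : JJ g S₁ S₂ → JJ g S₁ S₂} (E : DD g ρ η F₁ F₂ r)

/-- the walls of a double -/
def wD (x : JJ g S₁ S₂) : Wal (E.p.pt x) (F₁.F.pt x.d₁) (F₂.F.pt x.d₂) :=
  wal E.p E.H F₁.F F₂.F (E.h0 x) (E.hw x) rfl

/-- a double -/
def dbl (hr : ∀ x, (r x).j = ρ.r x.j) : Sk.Dbl (arr (b := some B) F₁) (arr (a := some B) F₂) where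
  J := JJ g S₁ S₂
  e := .ofBijective (fun x => ⟨(x.d₁, x.d₂), (lab F₁.lb F₂.lb g.toGl3 (F₁.hd _) (F₂.hd _)).2 ⟨_, x.l, x.r⟩⟩)
    ⟨fun x y e => JJ.ext (clsStmt.mvu g.toGl3 _ _ _ _ x.l x.r
      ((congrArg (·.1.1) e : x.d₁ = y.d₁) ▸ y.l) ((congrArg (·.1.2) e : x.d₂ = y.d₂) ▸ y.r)), fun ⟨(d₁, d₂), k⟩ =>
      let ⟨j, l, r⟩ := (lab F₁.lb F₂.lb g.toGl3 (F₁.hd _) (F₂.hd _)).1 k
      ⟨⟨j, d₁, d₂, l, r⟩, rfl⟩⟩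
  p := E.p.pt
  h x := (wD E x).cell
  γ x := (E.γ.itv x).cell
  r := r
  rr x := JJ.ext (by rw [hr, hr, ρ.rr])
  half x := ρ.half x.j
  hr x := hr x ▸ ρ.hr _
  bh x := (wD E x).bd (Ends.en_q a)
  bγ x := (E.γ.itv x).bd (Ends.en_q a)
  sγ _ := rfl
  tγ _ := rfl
  pp := prp1 E.prp.1
  ph := prp1 E.prp.2.1
  pγ := prp1 E.prp.2.2

end

/-! ### the pentagon -/

variable {G : CG} {C : Q3} {P : PG G a B C} {D : CapD 𝓔 G} {Z : BD P D} {Q : QD Z}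

/-- the wall at `B` -/
def wA (Q : QD Z) (θ : PM P) : Wal (Q.cP.pt θ) (Z.F1.F.pt θ.d1) (Z.D1.p.pt θ.j1) :=
  wal Q.cP Q.cA Z.F1.F Z.D1.p (Q.a0 θ) (Q.aw θ) rfl

/-- the wall at `C` -/
def wB (Q : QD Z) (θ : PM P) : Wal (Q.cP.pt θ) (Z.D0.p.pt θ.j0) (Z.F3.F.pt θ.d3) :=
  wal Q.cP Q.cB Z.D0.p Z.F3.F (Q.b0 θ) (Q.bw θ) rfl

/-- the double wall -/
def sQ (Q : QD Z) (θ : PM P) : SqQ (wA Q θ) (wB Q θ) (wD Z.D0 θ.j0) (wD Z.D1 θ.j1) where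
  toR2 := r2 Q.cQ θ
  E := fn (Q.qB θ) rfl (ft (Q.q0 θ) rg1 (wB Q θ).cell.τ) (Z.F1.F.pt θ.d1).τ (wD Z.D1 θ.j1).cell.τ
  F := fn (Q.qC θ) rfl (ft (Q.q1 θ) rg2 (wA Q θ).cell.τ) (wD Z.D0 θ.j0).cell.τ (Z.F3.F.pt θ.d3).τ
  h0 _ _ _ := rfl
  lB _ _ _ _ _ := rfl
  rB _ _ _ _ _ := rfl
  lA _ _ _ _ _ := rfl
  rA _ _ _ _ _ := rfl
  ll := Q.ll
  lr := Q.lr
  rr := Q.rr

variable {Γ : GD Q}

/-- the square at `C` -/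
def s1 (S : SD Γ) (θ : PM P) :
    SqL (wB Q θ) (wB Q (θ.rs false)) ((Γ.Γ false).itv θ) (Z.D0.γ.itv θ.j0) where
  toR2 := r2 S.S1 θ
  E := fo (S.q1 θ) (wB Q θ).cell.τ (wB Q (θ.rs false)).cell.τ
  F := fn (S.w1 θ) rfl (ft (S.q1 θ).f0 rg2 ((Γ.Γ false).itv θ).cell.τ) (Z.D0.γ.itv θ.j0).cell.τ
    (Z.F3.F.pt θ.d3).τ
  h0 _ _ _ := rfl
  h1 _ _ _ := rfl
  l0 _ _ _ _ _ := rfl
  l1 v _ x h _ := S.r1.l v x h.1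
  r0 _ _ _ _ _ := rfl
  r1 v _ x h _ := S.r1.r v x h.1

/-- the square at `B` -/
def s2 (S : SD Γ) (θ : PM P) :
    SqR (wA Q θ) (wA Q (θ.rs true)) ((Γ.Γ true).itv θ) (Z.D1.γ.itv θ.j1) where
  toR2 := r2 S.S2 θ
  E := fo (S.q2 θ) (wA Q θ).cell.τ (wA Q (θ.rs true)).cell.τ
  F := fn (S.w2 θ) rfl (ft (S.q2 θ).f0 rg2 ((Γ.Γ true).itv θ).cell.τ) (Z.F1.F.pt θ.d1).τ
    (Z.D1.γ.itv θ.j1).cell.τ
  h0 _ _ _ := rfl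
  h1 _ _ _ := rfl
  l0 _ _ _ _ _ := rfl
  l1 v _ x h _ := S.r2.l v x h.1
  r0 _ _ _ _ _ := rfl
  r1 v _ x h _ := S.r2.r v x h.1

/-- the wall at the cap `N` -/
def wR (R : RD Γ) (θ : PM P) : Cpw (Q.cP.pt θ) ((Z.L.F θ.s).pt θ.l) ((D.N θ.s).pt (θ.x, 0)) :=
  cpw Q.cP R.ρ (Z.L.F θ.s) (D.N θ.s) (R.r0 θ) (R.rw θ) rfl _ (-R.n θ) false
    fun _ e => e.resolve_right nofun ▸ D.Nt _ _ _

/-- the squares at the cap `N` -/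
def sR (R : RD Γ) (b : Bool) (θ : PM P) :
    SqC (wR R θ) (wR R (θ.rs b)) ((Γ.Γ b).itv θ) ((D.I b θ.s).itv (θ.x, 0)) where
  toR2 := r2 (R.R b) θ
  E := fo (R.q b θ) (wR R θ).cell.τ (wR R (θ.rs b)).cell.τ
  F := fc (R.w b θ) rfl (ft (R.q b θ).f0 rg2 ((Γ.Γ b).itv θ).cell.τ) ((Z.L.F θ.s).pt θ.l).τ
    ((D.I b θ.s).itv (θ.x, 0)).cell.τ ((D.I b θ.s).ro _) ((D.I b θ.s).im (θ.x, 0)).wl (-R.n θ) false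
    fun _ e => e.resolve_right nofun ▸ D.It _ _ _ _
  h0 _ _ _ := rfl
  h1 _ _ _ := rfl
  l0 _ _ _ _ _ := rfl
  l1 v _ x h _ := (R.rf b).l v x h.1
  r0 _ _ _ _ _ := rfl
  r1 v _ x h _ := (R.rf b).r v x h.1.2

/-- the class on `L` -/
abbrev lL (l : P.IL) : LS P G.c0 := ⟨l, P.clL _ l.2, fun _ => l.2⟩

/-- the wall at the cap `B` -/
def wK (K : KD Z) (l : P.IL) : Cpw (K.ι.pt l) ((Z.L.F G.c0).pt (lL l)) (D.B.pt ()) :=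
  cpw K.ι K.κ (Z.L.F G.c0) D.B (K.k0 l) (K.kw l) rfl _ 0 true fun _ _ => D.Bt _

theorem tor : EE.P (fun e => e.kd = .tor) (𝓔.obR G G.c0) := ⟨_, rfl, (𝓔.r G).tor⟩

theorem dead {s} : (KC mk).dead (𝓔.obR G s) ↔ s ≠ G.c0 :=
  ⟨fun ⟨_, e, k⟩ h => (by subst h; cases e; cases k.symm.trans (𝓔.r G).tor),
    fun h => ⟨_, rfl, (𝓔.r G).dead s h⟩⟩

/-- the classes of the reflection paths on `N` -/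
abbrev JN (S : Set G.N.L) (b : Bool) : Type := {x : XS G G.c0 // x.1 ∈ S ∧ (G.ρ b).half x.1} × ℤ

/-- the reflection paths on `N` -/
def gN (D : CapD 𝓔 G) (S : Set G.N.L) (b : Bool) (p : JN S b) : C2 (𝓔.obR G G.c0) none :=
  ((D.I b G.c0).itv (p.1.1, 0)).cell.lift p.2

theorem pN (D : CapD 𝓔 G) (S b) : (KC mk).Prp (gN D S b) :=
  prp (D.prp b) (u := Prod.map Subtype.val id) (Subtype.val_injective.prodMap injective_id) (fun _ => rfl)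
    fun _ => rfl

/-- the caps -/
def cap (D : CapD 𝓔 G) (S : Set G.N.L) : (KC mk).Cap :=
  ⟨𝓔.obR G G.c0, ⟨_, rfl, .inl (𝓔.r G).tor⟩, D.B.pt (), _, _, gN D S false, gN D S true, pN D S _, pN D S _⟩

/-- the pieces `L` -/
def cL (Z : BD P D) (p : P.IL × ℤ) : C3 (𝓔.en a) (𝓔.en a) (𝓔.obR G G.c0) :=
  ((Z.L.F G.c0).pt (lL p.1)).lift p.2

theorem s_eq (θ : PM P) : θ.s = G.c0 ↔ P.Al θ.k :=
  ⟨fun e => ⟨_, θ.rN, e ▸ θ.x.2⟩, fun ⟨_, r, k⟩ => (jk_cl (s := some false) G.N.ki θ.x.1).unique θ.x.2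
    (((rr_eq _ r).symm.trans (rr_eq _ θ.rN)) ▸ k)⟩

theorem dd (R : RD Γ) (b θ c) : (KC mk).dead ((KC mk).cp (sR R b θ).cell c).1 ↔ θ.s ≠ G.c0 := by
  rw [SqC.cp]
  exact dead

theorem cp_eq (b) {s} {l : LS P s} {x : XS G s} {S m m'} {p : P.IL × ℤ} {q : JN S b} (e : s = G.c0)
    (el : l.1 = p.1) (ex : x.1 = q.1.1) (k : m = p.2) (k' : m' = q.2) :
    (⟨_, ((Z.L.F s).pt l).lift m, ((D.I b s).itv (x, 0)).cell.lift m'⟩ :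
      Σ y : EE mk, C3 (𝓔.en a) (𝓔.en a) y × C2 y none) = ⟨_, cL Z p, gN D S b q⟩ := by
  subst e k k'
  cases (Subtype.ext el : l = lL p.1)
  cases (Subtype.ext ex : x = q.1.1)
  rfl

theorem beta (R : RD Γ) (b) {H : PM P → Prop} (hH : ∀ θ, H θ ↔ (P.ρ b).half θ.k) :
    ∃ β : {θ : Σ k : {k // H k}, (KC mk).C (sR R b k.1).cell // ¬(KC mk).dead ((KC mk).cp _ θ.2).1} ≃
      (P.IL × ℤ) × JN P.IN b, ∀ θ, (KC mk).cp _ θ.1.2 = ⟨_, cL Z (β θ).1, gN D _ b (β θ).2⟩ := by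
  have zb : ∀ θ : PM P, θ.s = G.c0 → Bijective (sR R b θ).cell.z := fun θ e => SqC.z_bij _ (e ▸ tor)
  have cl : ∀ θ : PM P, θ.s = G.c0 → G.N.ki.Cl θ.x.1 G.c0 := fun θ e => e ▸ θ.x.2
  have st := fun (θ : PM P) e => (P.sat _ _ _ θ.lN θ.rN (cl θ e)).1 θ.hk
  have lv := fun θ c (h : ¬(KC mk).dead ((KC mk).cp (sR R b θ).cell c).1) => not_not.1 ((dd R b θ c).not.1 h)
  refine ⟨.ofBijective (fun θ => ((⟨θ.1.1.1.l.1, (st _ (lv _ _ θ.2)).1⟩, C3.z _ θ.1.2),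
    ⟨⟨θ.1.1.1.x.1, cl _ (lv _ _ θ.2)⟩, (st _ (lv _ _ θ.2)).2, (P.hN b _ _ θ.1.1.1.rN).1 ((hH _).1 θ.1.1.2)⟩,
    C3.z _ θ.1.2 + -R.n θ.1.1.1)) ⟨?_, ?_⟩, fun θ => (SqC.cp _ _).trans (cp_eq b (lv _ _ θ.2) rfl rfl rfl rfl)⟩
  · rintro ⟨⟨⟨θ, h⟩, c⟩, k⟩ ⟨⟨⟨θ', h'⟩, c'⟩, k'⟩ e
    have e₁ : C3.z _ c = C3.z _ c' := congrArg (·.1.2) e
    have e₂ : C3.z _ c + -R.n θ = C3.z _ c' + -R.n θ' := congrArg (·.2.2) e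
    cases R.inj θ θ' (congrArg (·.1.1.1) e) (congrArg (·.2.1.1.1) e) (by omega)
    cases (zb θ (lv _ _ k)).1 e₁
    rfl
  · rintro ⟨⟨⟨l, hl⟩, m⟩, ⟨⟨x, hx⟩, h1, h2⟩, m'⟩
    obtain ⟨θ, rfl, rfl, e⟩ := R.sur l hl x h1 hx (m - m')
    have s := (s_eq θ).2 ⟨_, θ.rN, hx⟩
    obtain ⟨c, rfl⟩ := (zb θ s).2 m
    refine ⟨⟨⟨⟨θ, (hH _).2 ((P.hN b _ _ θ.rN).2 h2)⟩, c⟩, (dd R b θ c).not.2 (not_not.2 s)⟩, ?_⟩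
    simp [e]

variable {T : P.I1 → P.I2 → P.I3 → Prop} (hT : ∀ d₁ d₂ d₃, T d₁ d₂ d₃ ↔ P.T d₁ d₂ d₃)
include hT

theorem tri (θ : PM P) : T θ.d1 θ.d2 θ.d3 := by
  obtain ⟨j, d1, -, d2, -, d3, -, e, f, a, b, t⟩ := (P.hM _).1 θ.hk
  have h := r_C P.toPG0 e a b f
  have h' := r_C P.toPG0 θ.lC θ.l12 θ.r12 θ.rC
  rw [hT, ← h'.1, ← h'.2.1, ← h'.2.2, h.1, h.2.1, h.2.2]
  exact t

theorem bC (Z : BD P D) : Bijective fun θ : PM P => (⟨(θ.j0, θ.d3),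
    (lab Z.D0.lb Z.F3.lb P.gC.toGl3 (Z.D0.hd _).1 (Z.F3.hd _)).2 ⟨_, θ.lC, θ.rC⟩, tri hT θ⟩ :
    {p : J0 P × P.I3 // Z.D0.p.t p.1 = Z.F3.F.s p.2 ∧ T p.1.d₁ p.1.d₂ p.2}) := by
  refine ⟨fun θ θ' e => PM.ext (clsStmt.mvu P.gC.toGl3 _ _ _ _ θ.lC θ.rC
    ((congrArg (·.1.1.j) e : θ.j = θ'.j) ▸ θ'.lC) ((congrArg (·.1.2) e : θ.d3 = θ'.d3) ▸ θ'.rC)), ?_⟩
  rintro ⟨⟨x, d⟩, h, t⟩
  obtain ⟨k, l, r⟩ := (lab Z.D0.lb Z.F3.lb P.gC.toGl3 (Z.D0.hd _).1 (Z.F3.hd _)).1 h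
  obtain ⟨θ, rfl⟩ := PM.ex ((P.hM k).2 ⟨_, _, x.d₁.2, _, x.d₂.2, _, d.2, l, r, x.l, x.r, (hT ..).1 t⟩)
  exact ⟨θ, Subtype.ext (Prod.ext (JJ.ext ((rl_eq _ θ.lC).symm.trans (rl_eq _ l)))
    (Subtype.ext ((rr_eq _ θ.rC).symm.trans (rr_eq _ r))))⟩

theorem bB (Z : BD P D) : Bijective fun θ : PM P => (⟨(θ.d1, θ.j1),
    (lab Z.F1.lb Z.D1.lb P.gB.toGl3 (Z.F1.hd _) (Z.D1.hd _).1).2 ⟨_, θ.lB, θ.rB⟩, tri hT θ⟩ :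
    {p : P.I1 × J1 P // Z.F1.F.t p.1 = Z.D1.p.s p.2 ∧ T p.1 p.2.d₁ p.2.d₂}) := by
  refine ⟨fun θ θ' e => PM.ext (clsStmt.mvu P.gB.toGl3 _ _ _ _ θ.lB θ.rB
    ((congrArg (·.1.1) e : θ.d1 = θ'.d1) ▸ θ'.lB) ((congrArg (·.1.2.j) e : θ.j' = θ'.j') ▸ θ'.rB)), ?_⟩
  rintro ⟨⟨d, x⟩, h, t⟩
  obtain ⟨k, l, r⟩ := (lab Z.F1.lb Z.D1.lb P.gB.toGl3 (Z.F1.hd _) (Z.D1.hd _).1).1 h
  have e := r_B P.toPG0 r l x.l x.r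
  obtain ⟨θ, rfl⟩ := PM.ex ((P.hM k).2 ⟨_, _, d.2, _, x.d₁.2, _, x.d₂.2, rl_spec _ k, e.2.2 ▸ rr_spec _ k,
    e.1 ▸ rl_spec _ _, e.2.1 ▸ rr_spec _ _, (hT ..).1 t⟩)
  exact ⟨θ, Subtype.ext (Prod.ext (Subtype.ext ((rl_eq _ θ.lB).symm.trans (rl_eq _ l)))
    (JJ.ext ((rr_eq _ θ.rB).symm.trans (rr_eq _ r))))⟩

/-- the pentagon -/
def pen (S : SD Γ) (R : RD Γ) (K : KD Z) : Sk.Pen (h := arr (a := some C) Z.F3) (dbl Z.D0 (rj0_j P))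
    (dbl Z.D1 (rj1_j P)) (cap D P.IN) T where
  M := PM P
  e0 := .ofBijective _ (bC hT Z)
  e1 := .ofBijective _ (bB hT Z)
  Q θ := (sQ Q θ).cell
  A θ := (wA Q θ).cell
  B θ := (wB Q θ).cell
  S1 θ := (s1 S θ).cell
  S2 θ := (s2 S θ).cell
  Γ1 θ := ((Γ.Γ false).itv θ).cell
  Γ2 θ := ((Γ.Γ true).itv θ).cell
  R1 θ := (sR R false θ).cell
  R2 θ := (sR R true θ).cell
  ρ θ := (wR R θ).cell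
  prp := ⟨prp1 Q.prp.1, prp1 Q.prp.2.1, prp1 Q.prp.2.2, prp1 S.prp.1, prp1 S.prp.2, prp1 (Γ.prp false),
    prp1 (Γ.prp true), prp1 (R.prp.2 false), prp1 (R.prp.2 true), prp1 R.prp.1⟩
  r1 θ := θ.rs false
  r2 θ := θ.rs true
  er1 _ := rfl
  er2 _ := rfl
  T1 j _ t := (hT ..).2 (P.t12 _ _ _ _ _ _ j.l j.r (rj0_j P j ▸ (rj0 P j).l) (rj0_j P j ▸ (rj0 P j).r)
    ((hT ..).1 t))
  T2 _ j t := (hT ..).2 (P.t23 _ _ _ _ _ _ j.l j.r (rj1_j P j ▸ (rj1 P j).l) (rj1_j P j ▸ (rj1 P j).r)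
    ((hT ..).1 t))
  bQ θ := (sQ Q θ).bd (Ends.en_q a)
  bS1 θ := (s1 S θ).bd (Ends.en_q a)
  bS2 θ := (s2 S θ).bd (Ends.en_q a)
  bR1 θ := (sR R false θ).fc (Ends.en_q a)
  bR2 θ := (sR R true θ).fc (Ends.en_q a)
  IL := P.IL × ℤ
  Lc := cL Z
  β1 := (beta R false fun θ => (P.hC _ _ θ.lC).symm).choose
  c1 := (beta R false fun θ => (P.hC _ _ θ.lC).symm).choose_spec
  β2 := (beta R true fun θ => (P.hB _ _ θ.rB).symm).choose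
  c2 := (beta R true fun θ => (P.hB _ _ θ.rB).symm).choose_spec
  I0 := P.IL
  f0 := P.fL.fintype
  ι := K.ι.pt
  κ l := (wK K l).cell
  pι l := (K.ι.p0 l).pt
  bκ l := (wK K l).fc (Ends.en_q a)
  β0 := (Equiv.sigmaCongrRight fun l => .ofBijective _ ((wK K l).z_bij tor)).trans (.sigmaEquivProd _ _)
  c0 θ := (wK K θ.1).cp θ.2
  live h := dead.1 h rfl

omit hT in
/-- **P-ASM** -/
theorem asm : AsmStmt mk := fun g 𝓔 D => ⟨fun G => cap (D G), fun {G a B C P Z _} _ S R K m _ hT =>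
  have ts := g.ts 𝓔 G _ (tp_fin a B C)
  ⟨{ f := Z.F1.F.pt
     g := Z.F2.F.pt
     h := Z.F3.F.pt
     rf d := rep (b := some B) _ ts Z.F1.o Z.F1.lb (Z.F1.hd d) (Z.F1.fo d 0)
     rg d := rep (a := some B) (b := some C) _ ts Z.F2.o Z.F2.lb (Z.F2.hd d) (Z.F2.fo d 0)
     rh d := rep (a := some C) _ ts Z.F3.o Z.F3.lb (Z.F3.hd d) (Z.F3.fo d 0)
     pf := ⟨(arr Z.F1).pt, (arr Z.F1).prp⟩
     pg := ⟨(arr Z.F2).pt, (arr Z.F2).prp⟩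
     ph := ⟨(arr Z.F3).pt, (arr Z.F3).prp⟩
     D0 := dbl Z.D0 (rj0_j P)
     D1 := dbl Z.D1 (rj1_j P)
     Pn := pen hT S R K
     m := .ofBijective (fun θ : PM P => ⟨θ.k, θ.hk⟩) ⟨fun _ _ e => PM.ext (congrArg Subtype.val e),
       fun k => (PM.ex k.2).imp fun _ => Subtype.ext⟩
     i := .ofBijective (fun l : P.IL => ⟨K.ι.d l, l, l.2, K.rl l⟩) ⟨fun l l' e => Subtype.ext
       ((rl_eq _ (K.rl l)).symm.trans ((congrArg (rl _ ·.1) e).trans (rl_eq _ (K.rl l')))),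
       fun ⟨_, l, h, r⟩ => ⟨⟨l, h⟩, Subtype.ext (clsStmt.mvb G P.g0.toGl3 _ _ _ (K.rl ⟨l, h⟩) r)⟩⟩
     rι l := rep _ ts K.t.o K.lb rfl (K.fo l)
     r1 _ := rfl
     r2 _ := rfl
     h1 θ := (P.hC _ _ (PM.lC θ)).symm
     h2 θ := (P.hB _ _ (PM.rB θ)).symm
     dd1 θ c := (dd R false θ c).trans (s_eq θ).not
     dd2 θ c := (dd R true θ c).trans (s_eq θ).not
     k1 := m false
     k2 := m true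
     ne := fun ⟨l, h⟩ => ⟨(⟨l, h⟩, 0)⟩ }⟩⟩

end Crest.Agent.X212.Tm38.As
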