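import Crest.Agent.X212.Tm38.Gl
import Crest.Agent.X212.Br55.Tc

/-!
# Row 212, layer G (helper38): from the inequalities of one piece to `BdM`, `BdL`; the sides `NL`, `NR`
-/

set_option autoImplicit false
noncomputable section

namespace Crest.Agent.X212.Tm38

open Crest.Agent.X212.Rod53 Crest.Agent.X212.Wd38 Crest.Agent.X212.Nm96 Finset Fm Br55

variable {Γ : Nm} {P : Pm Γ} {F : Fm Γ} {s t u z : ℤ} {B σ σ' : Finset Bs} {η : Bs → Bool} {n n' : Wt}
  {v v' : ℝ × ℝ} {a b : Bs} {ch : Bs → Bool → ℤ} {φ : Z2 → Z2 → ℤ → ℤ → ℝ} {μ e x y : ℝ}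

theorem van (hb : b ∈ B) (h : ∀ c, s < c → c ≤ t → b.side c ≠ η b) (hb' : b.lo < s ∨ t ≤ b.lo) :
    Rs B B η s t False :=
  ⟨fun c k k' => ⟨fun i => (h c k k' (i b hb)).elim, fun i => i.1⟩, fun a k k' => ⟨fun i =>
    (h _ (by omega) (by omega) (i.side hb (by rintro rfl; omega))).elim, fun i => i.1⟩, fun _ _ _ => Iff.rfl⟩

theorem vanR (hb : b ∈ B) (h : Wf b) (h' : b.hi < t) (e : η b = false) : Rs B B η t u False :=
  van hb (fun c k _ => by rw [side_of_gt (by omega), e]; simp) (.inl (h.1.trans_lt h'))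

theorem inV_hi (h : ∀ a ∈ B, a.hi < t) {c : ℤ} (k : t ≤ c) : InV B η c ↔ InV B η t :=
  forall₂_congr fun a ha => by rw [side_of_gt (h a ha), side_of_gt ((h a ha).trans_le k)]

theorem inV_lo (h : ∀ a ∈ B, s < a.lo) {c : ℤ} (k : c ≤ s + 1) : InV B η c ↔ InV B η (s + 1) :=
  forall₂_congr fun a ha => by rw [side_of_le (k.trans (h a ha)) (h a ha)]

theorem inV_sp (h : ∀ a ∈ B, Sp t a) : InV B η (t + 1) ↔ InV B η t :=
  forall₂_congr fun a ha => by
    rcases (h a ha).2 with k | k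
    exacts [by rw [side_of_gt k, side_of_gt (by omega)], by rw [side_of_le k k.le]]

theorem vanL (h : ∀ a ∈ B, s < a.lo) (k : ¬InV B η (s + 1)) : Rs B B η u s False := by
  obtain ⟨b, hb, e⟩ : ∃ b ∈ B, b.side (s + 1) ≠ η b := by simpa [InV] using k
  have := h b hb
  exact van hb (fun c _ k => by rwa [side_of_le (c' := s + 1) (by omega) (by omega)]) (.inr this.le)

theorem vanR' (w : ∀ a ∈ B, Wf a) (h : ∀ a ∈ B, a.hi < t) (k : ¬InV B η t) : Rs B B η t u False := by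
  obtain ⟨b, hb, e⟩ : ∃ b ∈ B, b.side t ≠ η b := by simpa [InV] using k
  rw [side_of_gt (h b hb)] at e
  exact vanR hb (w b hb) (h b hb) (by simpa using e)

theorem Ev_van (h : Rs B B η s t False) : F.Ev n σ B η ch φ μ e s t = 0 := by
  rw [Ev_rs h (fun _ _ => rfl) fun _ _ _ _ => Iff.rfl, if_neg id]

theorem ssum_van (h : Rs B B η s t False) : ssum F.w B η s t φ n = 0 := by rw [h.ssum, if_neg id]

theorem Ev_wn (h : wn s t σ' = wn s t σ) : F.Ev n σ' B η ch φ μ e s t = F.Ev n σ B η ch φ μ e s t := by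
  have : wn s t (σ' \ B) = wn s t (σ \ B) := Finset.ext fun a => by
    have := Finset.ext_iff.1 h a
    simp only [mem_wn, mem_sdiff] at this ⊢; tauto
  rw [Ev, Ev, asum_wn, this, ← asum_wn]

theorem ent_zero {c : ℤ} (w : ∀ a ∈ B, Wf a ∧ c ≤ a.lo) (k : InV B η c) : ent B η s t = 0 :=
  sum_eq_zero fun a ha => by
    have := (mem_filter.1 ha).1
    exact if_neg fun i => side_ne (w a this).1 (w a this).2 ((k a this).trans i.symm)

/-- the inequalities for one piece, with free left sides -/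
def Pq (F : Fm Γ) (z : ℤ) (n : Wt) (σ B : Finset Bs) (ch : Bs → Bool → ℤ) (s t : ℤ) (x y : ℝ)
    (η : Bs → Bool) : Prop :=
  x ≤ F.Ev n σ B η ch al (1 / 4) (13 / 4) s t ∧ (F.HgW n B η s t ∨ ∀ n', Tp F.w n n' s t → F.Loc n' B η s t →
    y ≤ -3 / 2 * ssum F.w B η s (ee z B η t) lq n' + F.Ev n σ B η ch om 1 1 s t)

theorem win_pq (h : F.Win z 0 n σ s t v v') (k : wn s t σ' = wn s t σ) (hB : B ⊆ wn s t σ)
    (hp : ∀ a ∈ B, a.pin) : ∃ ch, ChOK F B s t ch ∧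
      ∀ η, Pq F z n σ' B ch s t (dp B η s t v.1 v'.1) (dp B η s t v.2 v'.2) η := by
  obtain ⟨ch, k1, k2, k3⟩ := h B hB hp
  exact ⟨ch, ⟨k1, k2⟩, fun η => by simpa only [Pq, Ev_wn k, Fm.Pc, sub_zero] using k3 η⟩

theorem Pq.extL (h : Pq F z n σ B ch s t x y η) (h1 : u ≤ s) (h2 : s ≤ t) (hB : ∀ a ∈ B, s < a.lo)
    (k : ¬InV B η (s + 1)) : Pq F z n σ B ch u t x y η := by
  have V := vanL (u := u) hB k
  refine ⟨by rw [Ev_cut h1 h2, Ev_van V, zero_add]; exact h.1, h.2.imp (fun ⟨c, a, b⟩ => ⟨c, h1.trans a, b⟩)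
    fun i n' tp lc => ?_⟩
  have := i n' (tp.mono h1 le_rfl) fun s' t' a => lc s' t' (h1.trans a)
  rw [Ev_cut h1 h2, Ev_van V, zero_add]
  rcases le_total s (ee z B η t) with j | j
  · rwa [ssum_cut h1 j, ssum_van V, zero_add]
  · rwa [ssum_van (V.mono le_rfl j), ← ssum_of_le j]

theorem Pq.extR (h : Pq F z n σ B ch s t x y η) (h1 : s ≤ t) (h2 : t ≤ u) (w : ∀ a ∈ B, Wf a)
    (hB : ∀ a ∈ B, a.hi < t) (k : ¬InV B η t) : Pq F z n σ B ch s u x y η := by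
  have V := vanR' (u := u) w hB k
  refine ⟨by rw [Ev_cut h1 h2, Ev_van V, add_zero]; exact h.1,
    h.2.imp (fun ⟨c, a, b, d⟩ => ⟨c, a, b.trans h2, d⟩) fun i n' tp lc => ?_⟩
  have := i n' (tp.mono le_rfl h2) fun s' t' a b => lc s' t' a (b.trans h2)
  rw [ee, if_neg fun j => k j.2] at this
  rwa [Ev_cut h1 h2, Ev_van V, add_zero, ee, if_neg fun j => k ((inV_hi hB h2).1 j.2), ssum_cut h1 h2,
    ssum_van V, add_zero]

/-- the sum of the charges of a piece -/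
abbrev sc (B : Finset Bs) (η : Bs → Bool) (ch : Bs → Bool → ℤ) : ℤ := ∑ a ∈ B with Adj B η a, ch a (η a)

theorem core (h : Pq F z n σ B ch (F.w.l - 1) (F.w.r + 1) x y η) (lam : Lam B) (hB : B ⊆ σ)
    (hσ : ∀ a ∈ σ ∪ F.ls, F.w.l - 1 ≤ a.lo ∧ a.lo < F.w.r + 1) (p : ℤ) :
    (¬F.Lst B η → p ≤ x → p ≤ y → F.BdM n σ B η (sc B η ch + p)) ∧
    (F.Lst B η → F.Cut z → z ≤ F.w.r → 15 / 4 - P.M + p ≤ x → 9 - P.M + p ≤ y →
      F.BdL P n σ B η (sc B η ch + 3 + p)) := by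
  obtain ⟨i1, i2⟩ := h
  have en := lam.ent_le (η := η) (s := F.w.l - 1) (t := F.w.r + 1)
  have tp : ∀ {n' k}, F.AbC n B η n' k → Tp F.w n n' (F.w.l - 1) (F.w.r + 1) ∧
      F.Loc n' B η (F.w.l - 1) (F.w.r + 1) := fun A =>
    ⟨⟨fun j τ _ _ => A.tok.rod j τ, fun j _ _ => A.tok.eq j, fun j _ _ => A.tok.neg j,
      fun j _ _ => A.par.l j, fun j _ _ => A.par.r j⟩, fun s t _ _ => A.loc s t⟩
  have hg : F.HgW n B η (F.w.l - 1) (F.w.r + 1) → F.Hg n B η := fun ⟨y, _, _, y1, y2, y3, y4⟩ =>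
    ⟨y, y1, y2, y3, fun a k => y4 a (mem_erase.1 k).2⟩
  rw [Ev_top hB hσ, ssum_al, ssum_uu] at i1
  simp only [Ev_top hB hσ, ssum_om, ssum_uu] at i2
  refine ⟨fun g a b => ?_, fun g hz hr a b => ?_⟩
  · simp only [ee, show ¬InV B η (F.w.r + 1) from g, and_false, if_false] at i2
    refine ⟨fun k hk hk' => ?_, i2.imp hg fun i2 n' k A _ => ?_⟩
    · rw [← Int.cast_add]
      exact irr_int hk hk' (by simp only [tot, Int.cast_add]; linarith)
    · have := i2 n' (tp A).1 (tp A).2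
      rw [wt, wg, A.lev g]; simp only [tot]; linarith
  · simp only [ee, show InV B η (F.w.r + 1) from g, and_true, if_pos (show z < F.w.r + 1 by omega)] at i2
    refine ⟨fun k hk => ?_, i2.imp hg fun i2 n' k A => ?_⟩
    · simp only [wt, Fm.ix, wg, dl, tot] at hk ⊢; linarith
    · have := i2 n' (tp A).1 (tp A).2
      have := A.levc z hz
      simp only [wt, wg, tot]; linarith

open Classical in
theorem chg_eq (gL gR : ℝ) : F.chg B η (fun a b => ch a b) gL gR =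
    sc B η ch + (if F.Fst B η then gL else 0) + if F.Lst B η then gR else 0 := by
  simp [chg]

open Classical in
theorem chg_le (lam : Lam B) (hs : ∀ a ∈ B, Sz a (ch a)) (o : ∀ a ∈ B, a.OK F.w) (hη : ∃ a ∈ B, Adj B η a) :
    (sc B η ch : ℝ) + (if F.Fst B η then 3 else 0) + (if F.Lst B η then 3 else 0) ≤ 4 := by
  have := lam.chg_le hs (l := F.w.l) (r := F.w.r + 1) (fun a k => by have := wf_of_ok (o a k); omega) hη
  have : ((_ : ℤ) : ℝ) ≤ (4 : ℤ) := Int.cast_le.2 this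
  simp only [Int.cast_add, Int.cast_ite, Int.cast_ofNat, Int.cast_zero] at this
  unfold Fst Lst
  convert this

theorem ChOK.sum (h : ChOK F B s t ch) (k : wn s t F.ls = F.ls) :
    2 * (F.nd B : ℝ) ≤ ∑ a ∈ B, ((ch a true : ℝ) + ch a false) := by
  have := h.1
  rw [k] at this
  exact_mod_cast this

/-- what is used of a cell -/
structure Cx (P : Pm Γ) (Y : Ref Γ) (F : Fm Γ) (d e : ℤ) (n : Wt) (σ : Finset Bs) : Prop where
  l : F.w.l ≤ Y.a + d
  ah : Y.a < Y.h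
  hb : Y.h + d < Y.b + e
  br : Y.b < Y.w.r
  r : F.w.r = Y.w.r + e
  ok : ∀ a ∈ σ, a.OK F.w
  far : ∀ a ∈ σ, ∀ b ∈ σ, a ≠ b → a.Far b
  side : ∀ a ∈ σ, a.hi < Y.a + d ∨ Y.h + d < a.lo
  sp : ∀ a ∈ σ, Sp (Y.b + e) a
  ls : ∀ l ∈ F.ls, Y.h + d < l.lo ∧ l.lo ≤ l.hi ∧ l.hi < Y.b + e
  tw : ∀ a ∈ σ, Y.b + e < a.lo → a.sh (-e) ∈ Y.A
  cpy : Cpy Y.w F.w Y.n n e Y.b Y.w.r

namespace Cx
variable {Y : Ref Γ} {T : TC} (H : Cx P Y F T.d T.e n σ)
include H

theorem rg (h : a ∈ σ) : F.w.l ≤ a.lo ∧ a.lo ≤ a.hi ∧ a.hi ≤ F.w.r ∧ a.lo < F.w.r + 1 := by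
  have := wf_of_ok (H.ok a h); have := this.1.1; omega

theorem lam (h : B ⊆ σ) : Lam B := Lam.mono ⟨fun a k => (wf_of_ok (H.ok a k)).1, H.far⟩ h

theorem top (h : σ' ⊆ σ) : ∀ a ∈ σ' ∪ F.ls, F.w.l - 1 ≤ a.lo ∧ a.lo < F.w.r + 1 := fun a k => by
  have := H.l; have := H.ah; have := H.br; have := H.r
  rcases mem_union.1 k with k | k
  exacts [by have := H.rg (h k); omega, by have := H.ls a k; omega]

theorem mR : a ∈ sR (Y.a + T.d) σ ↔ a ∈ σ ∧ Y.h + T.d < a.lo := by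
  rw [sR, mem_filter]
  exact and_congr_right fun k => by have := H.rg k; have := H.side a k; have := H.ah; omega

theorem wnR (h : Y.h + T.d ≤ s) : wn s t (sR (Y.a + T.d) σ) = wn s t σ := Finset.ext fun a => by
  simp only [mem_wn, sR, mem_filter]; have := H.ah
  exact ⟨fun k => ⟨k.1.1, k.2⟩, fun k => ⟨⟨k.1, by omega⟩, k.2⟩⟩

theorem topR : ∀ a ∈ sR (Y.a + T.d) σ ∪ F.ls, Y.h + T.d ≤ a.lo ∧ a.lo < F.w.r + 1 := fun a k => by
  have := H.br; have := H.r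
  rcases mem_union.1 k with k | k
  exacts [by have := H.mR.1 k; have := H.rg this.1; omega, by have := H.ls a k; omega]

theorem lsR : wn (Y.h + T.d) (F.w.r + 1) F.ls = F.ls :=
  filter_true_of_mem fun a k => H.topR a (mem_union_right _ k)

theorem fst (hB : B ⊆ sR (Y.a + T.d) σ) : F.Fst B η ↔ InV B η (Y.h + T.d + 1) :=
  inV_lo (fun _ k => (H.mR.1 (hB k)).2) (by have := H.l; have := H.ah; omega)

theorem entR (hB : B ⊆ sR (Y.a + T.d) σ) (f : F.Fst B η) : ent B η s t = 0 :=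
  ent_zero (fun a k => have := H.ok a (H.mR.1 (hB k)).1; ⟨(wf_of_ok this).1, (wf_of_ok this).2.1⟩) f

theorem nl (h : F.Win z 0 n σ (F.w.l - 1) (Y.a + T.d) v v') (hv : 7 / 4 - Y.C - Y.hd al Y.a < v'.1) :
    T.NL Y F n (sL (Y.a + T.d) σ) := fun B hB hp _ => by
  have m : ∀ a ∈ sL (Y.a + T.d) σ, a ∈ σ ∧ a.hi < Y.a + T.d := fun a k => mem_filter.1 k
  have s0 : sL (Y.a + T.d) σ ⊆ σ := filter_subset _ _
  have l := H.l; have := H.ah; have := H.hb; have := H.br; have := H.r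
  have k : wn (F.w.l - 1) (Y.a + T.d) (sL (Y.a + T.d) σ) = wn (F.w.l - 1) (Y.a + T.d) σ :=
    Finset.ext fun a => by
      simp only [mem_wn, sL, mem_filter]
      exact ⟨fun k => ⟨k.1.1, k.2⟩, fun k => ⟨⟨k.1, by have := H.side a k.1; omega⟩, k.2⟩⟩
  have mw : ∀ a ∈ sL (Y.a + T.d) σ, F.w.l - 1 ≤ a.lo ∧ a.lo < Y.a + T.d := fun a k => by
    have := m a k; have := H.rg this.1; omega
  obtain ⟨ch, c, q⟩ := win_pq h k (fun a i => mem_wn.2 ⟨s0 (hB i), mw a (hB i)⟩) hp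
  have lam := H.lam (hB.trans s0)
  have hi : ∀ a ∈ B, a.hi < Y.a + T.d := fun a i => (m a (hB i)).2
  refine ⟨fun a b => ch a b, 3, v'.1 + Y.hd al Y.a + Y.C - 7 / 4, ?_, fun η hη => ?_⟩
  · have : (0 : ℝ) ≤ ∑ a ∈ B, ((ch a true : ℝ) + ch a false) := by
      exact_mod_cast le_trans (by positivity) c.1
    linarith
  have cl := chg_le (F := F) lam c.2 (fun a i => H.ok a (s0 (hB i))) hη
  have ls : F.Lst B η ↔ InV B η (Y.a + T.d) := inV_hi hi (by omega)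
  rw [chg_eq]
  refine ⟨fun g => by simpa [g] using cl, ?_⟩
  by_cases f : F.Fst B η
  · exact .inl f
  have f' : ¬InV B η (F.w.l - 1 + 1) := by rwa [sub_add_cancel]
  have q := q η
  by_cases g : F.Lst B η
  · refine .inr (.inr ⟨g, ?_⟩)
    have q := q.1
    have en := lam.ent_le (η := η) (s := F.w.l - 1) (t := Y.a + T.d)
    have : F.Ev n (sL (Y.a + T.d) σ) B η ch al (1 / 4) (13 / 4) (F.w.l - 1) (Y.a + T.d) =
        Fm.Ev ⟨F.w, ∅, ∅⟩ n (sL (Y.a + T.d) σ) B η ch al (1 / 4) (13 / 4) (F.w.l - 1) (Y.a + T.d) := by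
      simp only [Ev]
      rw [show asum F.ls _ _ _ _ _ = 0 from sum_eq_zero fun a i => by
        have i := mem_filter.1 i; have := H.ls a i.1; omega, show asum ∅ _ _ _ _ _ = 0 by simp [asum]]
    rw [this, Ev_top hB (by simpa using mw)] at q
    simp only [dp, ls.1 g, if_true, if_neg f', nh, filter_empty, card_empty] at q
    simp only [f, g, if_true, if_false, sc]
    push_cast at q ⊢; linarith
  · refine .inr (.inl ⟨g, ?_⟩)
    have := (core (P := P) (q.extR (by omega) (by omega) lam.wf hi (mt ls.2 g)) lam hB (H.top s0) 0).1 g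
      (by simp only [dp, if_neg f', if_neg (mt ls.2 g)]; simp)
      (by simp only [dp, if_neg f', if_neg (mt ls.2 g)]; simp)
    simpa [f, g] using this

theorem nr (hz : F.Cut z) (hr : z ≤ F.w.r) (h : F.Win z 0 n σ (Y.h + T.d) (F.w.r + 1) v (vR P))
    (hv : v.1 < 2 - Y.C - Y.hd al Y.h) : T.NR P Y F n (sR (Y.a + T.d) σ) := fun B hB hp _ => by
  have s0 : sR (Y.a + T.d) σ ⊆ σ := filter_subset _ _
  have l := H.l; have := H.ah; have := H.hb; have := H.br; have := H.r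
  obtain ⟨ch, c, q⟩ := win_pq h (H.wnR le_rfl)
    (fun a i => mem_wn.2 ⟨s0 (hB i), H.topR a (mem_union_left _ (hB i))⟩) hp
  have lam := H.lam (hB.trans s0)
  refine ⟨fun a b => ch a b, 2 - Y.C - Y.hd al Y.h - v.1, 3, by linarith [c.sum H.lsR], fun η hη => ?_⟩
  have cl := chg_le (F := F) lam c.2 (fun a i => H.ok a (s0 (hB i))) hη
  have q := q η
  rw [chg_eq]
  refine ⟨fun f => ?_, fun f => ⟨by simpa [f] using cl, ?_⟩⟩
  · have q := q.1
    rw [Ev_top hB H.topR, H.entR hB f] at q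
    simp only [dp, (H.fst hB).1 f, if_true, vR] at q
    simp only [TC.BRw, TC.mb, TC.rs, f, if_true]
    by_cases g : F.Lst B η
    · simp only [g, show InV B η (F.w.r + 1) from g, if_true] at q ⊢; linarith
    · simp only [g, show ¬InV B η (F.w.r + 1) from g, if_false] at q ⊢; linarith
  have f' := mt (H.fst hB).2 f
  have := core (P := P) (q.extL (by omega) (by omega) (fun a i => (H.mR.1 (hB i)).2) f') lam hB (H.top s0) 0
  by_cases g : F.Lst B η
  · have g' : InV B η (F.w.r + 1) := g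
    refine .inr (.inl ⟨g, ?_⟩)
    simpa [f, g] using this.2 g hz hr (by simp [dp, f', g', vR]) (by simp [dp, f', g', vR])
  · have g' : ¬InV B η (F.w.r + 1) := g
    refine .inl ⟨g, ?_⟩
    simpa [f, g] using this.1 g (by simp [dp, f', g']) (by simp [dp, f', g'])

end Cx

end Crest.Agent.X212.Tm38
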