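import Crest.Agent.X212.Sw87.MoP
import Crest.Agent.X212.Geo28.As5

/-!
# Row 212, GEO engine (helper38): roots, allowed types, properness
-/

set_option autoImplicit false
set_option linter.unusedSectionVars false
noncomputable section
open Set Function

namespace Crest.Agent.X212.Tm38.As
open An Cyf70 Sw Flo2 Geo28 Met55 Pen22 Sw87.Mo

variable (mk : Mk κ0 L0 ν0)

/-- **P-FM** -/
theorem fm (H : Lf) : FmStmt mk := fun {_ _ _ β 𝒯 I} F S ts k2 nc p3 ko ki hol lift fin hl nr => by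
  obtain ⟨C, hC⟩ := H.bd β I F.c _ fin (fun f hf => let ⟨i, hi⟩ := mem_iUnion.1 hf; (hl i).cs f hi)
    (fun i t ht => convexHull_mono (subset_iUnion S i) ((hl i).mem t ht))
    (ts.bd.imp fun _ k i j => k _ (F.ty i j)) (.inl F.mc)
  refine ⟨⟨F, C, fun i => ⟨H.ok _ _ C k2 (fun _ => nc) (hC i) p3 (ko i)
    (ki.imp (· i) fun h => ⟨h.1, h.2.1, nc, h.2.2⟩) (fun a j hj e => hol i a j hj e _ _)
    (fun j hj e => lift i j hj e _ _) fun j => ⟨⟨_, F.ty i j⟩, ts.fin _⟩, fun j => ts.ok _ (F.ty i j),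
    fun e => H.nr _ _ C _ _ (F.cl i) (hl i).fin (hl i).cs (hl i).mem (nr e i).1 fun j a => ?_⟩⟩, rfl⟩
  have o := ts.ok _ (F.ty i j)
  rcases k : ((F.c i).ec j).kd with _ | _ | _
  exacts [.inl (o.qhs k).2.2.2.1, .inr ⟨ts.zc _ (F.ty i j) k, (nr e i).2 j a k⟩, .inl (o.dead k).2.1]

/-- **P-TS** -/
theorem ts : TsStmt mk := fun 𝓔 G S hS => by
  choose K hK using fun A => (𝓔.q A).bd
  obtain ⟨K₀, h0⟩ := (hS.image K).bddAbove
  obtain ⟨K₁, h1⟩ := (𝓔.r G).bd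
  refine ⟨?_, ⟨max K₀ K₁, ?_⟩, ?_, fun g C => ?_⟩
  · rintro _ (⟨A, -, c, rfl⟩ | ⟨s, rfl⟩)
    exacts [(𝓔.q A).ok, (𝓔.r G).ok s]
  · rintro _ (⟨A, h, c, rfl⟩ | ⟨s, rfl⟩)
    exacts [(hK A c).mono ((h0 ⟨A, h, rfl⟩).trans (le_max_left _ _)), (h1 s).mono (le_max_right _ _)]
  · rintro _ (⟨A, -, c, rfl⟩ | ⟨s, rfl⟩) k
    · cases k.symm.trans (𝓔.q A).kd
    · obtain rfl : s = G.c0 := by_contra fun e => nomatch k.symm.trans ((𝓔.r G).dead s e)
      exact (𝓔.r G).zc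
  · refine (((hS.image fun A => (⟨_, (𝓔.q A).ec⟩ : End κ0 L0 ν0)).union
      (((𝓔.r G).fin C).image fun e => ⟨_, e⟩)).preimage (f := fun e : EC ν0 g => ⟨g, e⟩)
      fun _ _ _ _ e => by cases e; rfl).subset ?_
    rintro e ⟨⟨c, ⟨A, h, _, k⟩ | ⟨s, k⟩⟩, p⟩
    · exact .inl ⟨A, h, (congrArg Sigma.fst k).symm⟩
    · cases k
      exact .inr ⟨_, ⟨⟨s, rfl⟩, p⟩, rfl⟩

/-- **P-PRP** -/
theorem prp' (H : Lf) (L : Lvs) : PrpStmt mk := fun {a b} T τ _ _ _ β 𝒯 I F o h2 inj => by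
  classical
  cases isEmpty_or_nonempty I with
  | inl _ => exact ⟨∅, fun _ => toFinite _⟩
  | inr n =>
    obtain ⟨D, hD, fin⟩ := fin_of L a b T univ
    choose e he using fun f : D => tf_of H β h2 (fun i => ((F.c n.some).std i).ok.sζ) (ens0 𝒯 τ) F.C
      ((hD f f.2).mono (subset_univ _)) (o.z (hD f f.2))
    refine ⟨Finset.univ.image e, fun r => ?_⟩
    choose R hR using fun f => he f r
    obtain ⟨R₀, h0⟩ := Finite.exists_le R
    refine ((fin R₀).preimage inj.injOn).subset fun i hi => ?_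
    obtain ⟨y, hy⟩ := Nvg56.exists_cur (F.d i)
    exact ⟨trivial, y, hy, fun f hf => (hR ⟨f, hf⟩ _ _ y 0 (F.cl i) hy (fun j => ((F.ro i).en j).u)
      (hi _ (Finset.mem_image_of_mem _ (Finset.mem_univ _)))).trans (h0 _)⟩

end Crest.Agent.X212.Tm38.As
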