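import Crest.Agent.X212.Tm38.W

/-!
# Row 212, layer G (helper38): gluing of windows with payments, bounds on the tail
-/

set_option autoImplicit false
noncomputable section

namespace Crest.Agent.X212.Tm38

open Crest.Agent.X212.Rod53 Crest.Agent.X212.Wd38 Crest.Agent.X212.Nm96 Finset Fm

variable {Γ : Nm} {F : Fm Γ} {s t u z : ℤ} {B σ : Finset Bs} {η : Bs → Bool} {n n' : Wt}
  {v v' v'' : ℝ × ℝ}

/-- the charges of a window pay the crossed cuts and are small -/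
def ChOK (F : Fm Γ) (B : Finset Bs) (s t : ℤ) (ch : Bs → Bool → ℤ) : Prop :=
  2 * (#{l ∈ wn s t F.ls | ∃ a ∈ B, ¬a.Far l} : ℤ) ≤ ∑ a ∈ B, (ch a true + ch a false) ∧ ∀ a ∈ B, Sz a (ch a)

theorem wn_un (h1 : s ≤ t) (h2 : t ≤ u) (X : Finset Bs) : wn s u X = wn s t X ∪ wn t u X :=
  Finset.ext fun a => by
    simp only [mem_union, mem_wn, ← and_or_left]; exact and_congr_right fun _ => by omega

theorem wn_dj (X : Finset Bs) : Disjoint (wn s t X) (wn t u X) := disjoint_left.2 fun a k k' => by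
  have := mem_wn.1 k; have := mem_wn.1 k'; omega

theorem wn_sub (hB : B ⊆ σ) (x y : ℤ) : wn x y B ⊆ wn x y σ := fun _ k =>
  mem_wn.2 ⟨hB (mem_wn.1 k).1, (mem_wn.1 k).2⟩

theorem far_l (b0 : B ⊆ wn s u B) (b1 : ∀ a ∈ B, Sp t a) {l : Bs} (hl : Sp t l) (y : l.lo < t) :
    (∀ a ∈ B, a.Far l) ↔ ∀ a ∈ wn s t B, a.Far l :=
  ⟨fun g a ha => g a (mem_wn.1 ha).1, fun g a ha => by
    have := b1 a ha; have := mem_wn.1 (b0 ha)
    unfold Sp at *
    by_cases i : a.lo < t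
    exacts [g a (mem_wn.2 ⟨ha, by omega, i⟩), .inr (.inl (by omega))]⟩

theorem far_r (b0 : B ⊆ wn s u B) (b1 : ∀ a ∈ B, Sp t a) {l : Bs} (x : t ≤ l.lo) :
    (∀ a ∈ B, a.Far l) ↔ ∀ a ∈ wn t u B, a.Far l :=
  ⟨fun g a ha => g a (mem_wn.1 ha).1, fun g a ha => by
    have := b1 a ha; have := mem_wn.1 (b0 ha)
    unfold Sp at *
    by_cases i : a.lo < t
    exacts [.inl (by omega), g a (mem_wn.2 ⟨ha, by omega, by omega⟩)]⟩

/-- two windows -/
theorem glue2 (h1 : s ≤ t) (h2 : t ≤ u) (b0 : B ⊆ wn s u B) (b1 : ∀ a ∈ B, Sp t a)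
    (hl : ∀ l ∈ wn s u F.ls, Sp t l) {c1 c2 : Bs → Bool → ℤ} (p : ChOK F (wn s t B) s t c1)
    (q : ChOK F (wn t u B) t u c2) : ∃ ch, ChOK F B s u ch ∧ ∀ η φ μ e,
      F.Ev n σ B η ch φ μ e s t =
        (if InV (wn t u B) η (t + 1) then F.Ev n σ (wn s t B) η c1 φ μ e s t else 0) ∧
      F.Ev n σ B η ch φ μ e t u =
        if InV (wn s t B) η t then F.Ev n σ (wn t u B) η c2 φ μ e t u else 0 := by
  obtain ⟨p1, q1⟩ := p
  obtain ⟨p2, q2⟩ := q
  set ch : Bs → Bool → ℤ := fun a => if a.lo < t then c1 a else c2 a with hch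
  have e1 : ∀ a ∈ wn s t B, ch a = c1 a := fun a k => if_pos (mem_wn.1 k).2.2
  have e2 : ∀ a ∈ wn t u B, ch a = c2 a := fun a k => if_neg (not_lt.2 (mem_wn.1 k).2.1)
  have f1 : ∀ l ∈ F.ls, s ≤ l.lo → l.lo < t → ((∀ a ∈ B, a.Far l) ↔ ∀ a ∈ wn s t B, a.Far l) :=
    fun l k x y => far_l b0 b1 (hl l (mem_wn.2 ⟨k, x, by omega⟩)) y
  have f2 : ∀ l ∈ F.ls, t ≤ l.lo → l.lo < u → ((∀ a ∈ B, a.Far l) ↔ ∀ a ∈ wn t u B, a.Far l) :=
    fun l _ x _ => far_r b0 b1 x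
  have eB : B = wn s t B ∪ wn t u B := by
    rw [← wn_un h1 h2]; exact (filter_subset _ _).antisymm' b0
  refine ⟨ch, ⟨?_, fun a k => ?_⟩, fun η φ μ e =>
    ⟨Ev_rs (rs_left b0 b1) e1 f1, Ev_rs (rs_right b0 b1) e2 f2⟩⟩
  · have g : ∀ x y, (∀ l ∈ F.ls, x ≤ l.lo → l.lo < y → ((∀ a ∈ B, a.Far l) ↔ ∀ a ∈ wn x y B, a.Far l)) →
        {l ∈ wn x y F.ls | ∃ a ∈ B, ¬a.Far l} = {l ∈ wn x y F.ls | ∃ a ∈ wn x y B, ¬a.Far l} :=
      fun x y f => filter_congr fun l k => by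
        have := f l (mem_wn.1 k).1 (mem_wn.1 k).2.1 (mem_wn.1 k).2.2
        simpa using not_congr this
    rw [wn_un h1 h2, filter_union, card_union_of_disjoint (disjoint_filter_filter (wn_dj _)), g s t f1,
      g t u f2]
    conv_rhs => rw [eB, sum_union (wn_dj B)]
    rw [sum_congr rfl fun a k => by rw [e1 a k], sum_congr (s₁ := wn t u B) rfl fun a k => by rw [e2 a k]]
    push_cast; linarith
  · rcases mem_union.1 (eB ▸ k :) with k | k
    exacts [e1 a k ▸ q1 a k, e2 a k ▸ q2 a k]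

theorem iL (b0 : B ⊆ wn s u B) (b1 : ∀ a ∈ B, Sp t a) {c : ℤ} (k : c ≤ t + 1) :
    InV B η c ↔ InV (wn s t B) η c ∧ InV (wn t u B) η (t + 1) := by simpa using inV_left b0 b1 k ∅

theorem iR (b0 : B ⊆ wn s u B) (b1 : ∀ a ∈ B, Sp t a) {c : ℤ} (k : t ≤ c) :
    InV B η c ↔ InV (wn t u B) η c ∧ InV (wn s t B) η t := by simpa using inV_right b0 b1 k ∅

/-- the couplings `G` in the piece -/
def pay (G : Finset ℤ) (B : Finset Bs) (η : Bs → Bool) : ℝ := #{x ∈ G | InV B η x}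

/-- windows with payments; neither `Loc` nor `HgW` -/
def WinP (F : Fm Γ) (G : Finset ℤ) (n : Wt) (σ : Finset Bs) (s t : ℤ) (v v' : ℝ × ℝ) : Prop :=
  ∀ B ⊆ wn s t σ, (∀ a ∈ B, a.pin) → ∃ ch, ChOK F B s t ch ∧ ∀ η,
    dp B η s t v.1 v'.1 + pay G B η ≤ F.Ev n σ B η ch al (1 / 4) (13 / 4) s t ∧
    ∀ n', Tp F.w n n' s t → dp B η s t v.2 v'.2 + pay G B η ≤
      -3 / 2 * ssum F.w B η s t lq n' + F.Ev n σ B η ch om 1 1 s t

theorem winP_of (h : (nf F).Win z 0 n σ s t v v') (hs : F.w.l ≤ s) (hz : t ≤ z) : WinP F ∅ n σ s t v v' :=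
  fun B hB hp => by
  obtain ⟨ch, k1, k2, k3⟩ := h B hB hp
  refine ⟨ch, ⟨k1, k2⟩, fun η => ⟨by simpa [pay, Ev] using (k3 η).1, fun n' tp => ?_⟩⟩
  have := ((k3 η).2.resolve_left fun ⟨y, _, _, y3, _⟩ => by simp at y3) n' tp fun s' t' a _ b _ => by
    rcases b with b | b
    exacts [by simp only at b; omega, by simp [Cut] at b]
  rw [show ee z B η t = t from if_neg (by omega)] at this
  simpa [pay, Ev] using this

theorem WinP.pay1 (h : WinP F ∅ n σ s t v (v' + (1, 1))) : WinP F {t} n σ s t v v' := fun B hB hp => by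
  obtain ⟨ch, k1, k3⟩ := h B hB hp
  have e : ∀ η x x', dp B η s t x x' + pay {t} B η = dp B η s t x (x' + 1) + pay ∅ B η := fun η x x' => by
    simp only [dp, pay, filter_singleton]; split_ifs <;> simp; ring
  exact ⟨ch, k1, fun η => ⟨e .. ▸ (k3 η).1, fun n' tp => e .. ▸ (k3 η).2 n' tp⟩⟩

theorem WinP.trans {G G' : Finset ℤ} (h : WinP F G n σ s t v v') (h' : WinP F G' n σ t u v' v'')
    (h1 : s ≤ t) (h2 : t ≤ u) (hσ : ∀ a ∈ wn s u σ, Sp t a) (hl : ∀ l ∈ wn s u F.ls, Sp t l)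
    (g : ∀ x ∈ G, x ≤ t) (g' : ∀ x ∈ G', t < x) : WinP F (G ∪ G') n σ s u v v'' := fun B hB hp => by
  have b0 : B ⊆ wn s u B := fun a k => mem_wn.2 ⟨k, (mem_wn.1 (hB k)).2⟩
  have b1 : ∀ a ∈ B, Sp t a := fun a k => hσ a (hB k)
  have sub := wn_sub (hB.trans (filter_subset _ _))
  obtain ⟨c1, p1, r1⟩ := h _ (sub s t) fun a k => hp a (mem_wn.1 k).1
  obtain ⟨c2, p2, r2⟩ := h' _ (sub t u) fun a k => hp a (mem_wn.1 k).1
  obtain ⟨ch, p, E⟩ := glue2 (n := n) (σ := σ) h1 h2 b0 b1 hl p1 p2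
  refine ⟨ch, p, fun η => ?_⟩
  have py : pay (G ∪ G') B η = (if InV (wn t u B) η (t + 1) then pay G (wn s t B) η else 0) +
      if InV (wn s t B) η t then pay G' (wn t u B) η else 0 := by
    simp only [pay]
    rw [filter_union, card_union_of_disjoint (disjoint_filter_filter (disjoint_left.2 fun x a b => by
      have := g x a; have := g' x b; omega)), filter_congr fun x k => iL b0 b1 (by have := g x k; omega),
      filter_congr (s := G') fun x k => iR b0 b1 (g' x k).le]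
    split_ifs <;> simp [*]
  have key : ∀ x x' x'' X X' : ℝ, dp (wn s t B) η s t x x' + pay G (wn s t B) η ≤ X →
      dp (wn t u B) η t u x' x'' + pay G' (wn t u B) η ≤ X' → dp B η s u x x'' + pay (G ∪ G') B η ≤
      (if InV (wn t u B) η (t + 1) then X else 0) + if InV (wn s t B) η t then X' else 0 := by
    intro x x' x'' X X' k k'
    simp only [py, dp, iL b0 b1 (show s + 1 ≤ t + 1 by omega), iR b0 b1 h2] at k k' ⊢
    by_cases i : InV (wn t u B) η (t + 1) <;> by_cases j : InV (wn s t B) η t <;>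
      simp only [i, j, if_true, if_false, and_true, and_false] at k k' ⊢ <;> linarith
  refine ⟨?_, fun n' tp => ?_⟩
  · rw [Ev_cut h1 h2, (E ..).1, (E ..).2]
    exact key _ _ _ _ _ (r1 η).1 (r2 η).1
  have := key _ _ _ _ _ ((r1 η).2 n' (tp.mono le_rfl h2)) ((r2 η).2 n' (tp.mono h1 le_rfl))
  rw [ssum_cut h1 h2, (rs_left b0 b1).ssum, (rs_right b0 b1).ssum, Ev_cut h1 h2, (E ..).1, (E ..).2]
  split_ifs at this ⊢ <;> linarith

theorem WinP.mono {G : Finset ℤ} {x : ℝ × ℝ} (h : WinP F G n σ s t v v') (h1 : v ≤ x) :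
    WinP F G n σ s t x v' := fun B hB hp => by
  obtain ⟨ch, k1, k3⟩ := h B hB hp
  have e : ∀ {a b a' : ℝ} η, a ≤ b → dp B η s t b a' ≤ dp B η s t a a' :=
    fun η p => by unfold dp; split_ifs <;> linarith
  exact ⟨ch, k1, fun η => ⟨by linarith [e (a' := v'.1) η h1.1, (k3 η).1],
    fun n' tp => by linarith [e (a' := v'.2) η h1.2, (k3 η).2 n' tp]⟩⟩

theorem sp_of {a : Bs} (o : a.OK F.w) (h : a.Far (.yS t)) : Sp t a :=
  ⟨(wf_of_ok o).1.1, by simpa [Bs.Far, Bs.lo, Bs.hi, Bs.arc] using h⟩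

/-- a chain of windows -/
theorem winP_chain {τ : ℕ → ℤ} {x : ℕ → ℝ × ℝ} {N : ℕ} (lt : ∀ i < N, τ i < τ (i + 1))
    (sp : ∀ i < N, ∀ a ∈ σ ∪ F.ls, Sp (τ (i + 1)) a)
    (h : ∀ i < N, WinP F ∅ n σ (τ i) (τ (i + 1)) (x i) (x (i + 1) + (1, 1))) (hN : τ N ≤ u)
    (h' : WinP F ∅ n σ (τ N) u (x N) v) :
    τ 0 ≤ τ N ∧ WinP F ((range N).image fun i => τ (i + 1)) n σ (τ 0) u (x 0) v ∧
      ∀ i < N, τ 0 < τ (i + 1) := by
  induction N generalizing τ x with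
  | zero => exact ⟨le_rfl, by simpa using h', by simp⟩
  | succ N ih =>
    obtain ⟨k1, k2, k3⟩ := ih (τ := fun i => τ (i + 1)) (x := fun i => x (i + 1))
      (fun i k => lt _ (by omega)) (fun i k => sp _ (by omega)) (fun i k => h _ (by omega)) hN h'
    have l0 := lt 0 (by omega)
    refine ⟨l0.le.trans k1, ?_, fun i k => ?_⟩
    · have := (h 0 (by omega)).pay1.trans k2 l0.le (k1.trans hN)
        (fun a k => sp 0 (by omega) a (mem_union_left _ (mem_wn.1 k).1))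
        (fun a k => sp 0 (by omega) a (mem_union_right _ (mem_wn.1 k).1)) (by simp)
        (by simpa using k3)
      convert this using 1
      ext y; simp only [mem_image, mem_range, Nat.exists_lt_succ_left]; simp [eq_comm]
    · rcases i with _ | i
      exacts [l0, l0.trans (k3 i (by omega))]

/-! ### agreement of lines -/

/-- the same orders outside the slots strictly between `s` and `t` -/
def Out (s t : ℤ) (n n' : Wt) : Prop := ∀ j, j ≤ s ∨ t ≤ j → n'.nl j = n.nl j ∧ n'.nr j = n.nr j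

theorem out_fl (h : Relation.ReflTransGen (Fl F.ls) n n') (ls : ∀ l ∈ F.ls, s < l.lo ∧ l.hi < t) :
    Out s t n n' := by
  induction h with
  | refl => exact fun _ _ => ⟨rfl, rfl⟩
  | tail _ k ih =>
    obtain ⟨l, hl, rfl⟩ := k
    intro j hj
    have := ls l hl
    simp only [fl, if_neg (show ¬(l.lo < j ∧ j < l.hi) by omega)]
    exact ih j hj

theorem out_acts (w : Shp Γ) {ts : List Tw} (h : ∀ x ∈ ts, s < x.x ∧ x.y < t) (n : Wt) :
    Out s t n (acts w ts n) := by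
  induction ts generalizing n with
  | nil => exact fun _ _ => ⟨rfl, rfl⟩
  | cons x ts ih =>
    intro j hj
    have := h x (by simp)
    have k := ih (fun y k => h y (by simp [k])) (x.act w n) j hj
    simp only [Tw.act, if_neg (show ¬(x.x ≤ j ∧ j ≤ x.y) by omega)] at k
    exact k

theorem Out.trans {n'' : Wt} (h : Out s t n n') (h' : Out s t n' n'') : Out s t n n'' := fun j k =>
  ⟨(h' j k).1.trans (h j k).1, (h' j k).2.trans (h j k).2⟩

variable {w w' : Shp Γ} {m : Wt} {d x y : ℤ} {φ : Z2 → Z2 → ℤ → ℤ → ℝ}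

theorem Cpy.out (h : Cpy w w' m n d x y) (o : Out s t n n') (k : y + d ≤ s ∨ t ≤ x + d) :
    Cpy w w' m n' d x y := fun j a b =>
  ⟨(h j a b).1, (o _ (by omega)).1.trans (h j a b).2.1, fun c => (o _ (by omega)).2.trans ((h j a b).2.2 c)⟩

theorem Cpy.vx (h : Cpy w w' m n d x y) {c : ℤ} (a : x < c) (b : c ≤ y) (r : y ≤ w.r) :
    vx w' φ n (c + d) = vx w φ m c := by
  have p := h c a.le b
  have q := h (c - 1) (by omega) (by omega)
  rw [show c - 1 + d = c + d - 1 by ring] at q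
  simp only [Nm96.vx, Shp.lf, Shp.rt, p.1, p.2.1, q.1, q.2.2 (by omega)]

theorem Cpy.vv (h : Cpy w w' m n d x y) {a : Bs} (a1 : x + d ≤ a.lo) (a2 : a.lo < a.hi) (a3 : a.hi ≤ y + d)
    (r : y ≤ w.r) : vv w' φ n a = vv w φ m (a.sh (-d)) := by
  have e : (a.sh (-d)).lo = a.lo - d ∧ (a.sh (-d)).hi = a.hi - d := by
    cases a <;> exact ⟨rfl, rfl⟩
  have p := h (a.lo - d) (by omega) (by omega)
  have q := h (a.hi - d) (by omega) (by omega)
  simp only [sub_add_cancel] at p q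
  simp only [Nm96.vv, e.1, e.2, p.1, p.2.2 (by omega), q.1, q.2.1]

/-- the size of the tail -/
def Ref.tk (Y : Ref Γ) (φ : Z2 → Z2 → ℤ → ℤ → ℝ) : ℝ :=
  ∑ c ∈ Ioc Y.b Y.w.r, |vx Y.w φ Y.n c| + ∑ a ∈ Y.A, |vv Y.w φ Y.n a|

theorem sh_inj (e : ℤ) : Function.Injective (Bs.sh e) := fun a b h => by
  cases a <;> cases b <;> simp_all [Bs.sh]

theorem tail_card {Y : Ref Γ} {e : ℤ} (hA : ∀ a ∈ B, a.sh (-e) ∈ Y.A) : #B ≤ #Y.A :=
  card_le_card_of_injOn (Bs.sh (-e)) hA (sh_inj _).injOn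

theorem tail_le {Y : Ref Γ} {e : ℤ} (h : Cpy Y.w F.w Y.n n e Y.b Y.w.r) (r : F.w.r = Y.w.r + e)
    (o : ∀ a ∈ B, a.OK F.w) (hA : ∀ a ∈ B, Y.b + e ≤ a.lo → a.sh (-e) ∈ Y.A) :
    |ssum F.w B η (Y.b + e) (F.w.r + 1) φ n| ≤ Y.tk φ := by
  refine (abs_add_le _ _).trans (add_le_add ((abs_sum_le_sum_abs _ _).trans ?_)
    ((abs_sum_le_sum_abs _ _).trans ?_))
  · refine (sum_le_sum_of_subset_of_nonneg (t := (Ioc Y.b Y.w.r).map (addRightEmbedding e))
      (fun c k => ?_) fun _ _ _ => abs_nonneg _).trans (le_of_eq ?_)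
    · have := mem_filter.1 k
      have := mem_Ioc.1 this.1
      exact mem_map.2 ⟨c - e, mem_Ioc.2 (by omega), by simp⟩
    · rw [sum_map]
      exact sum_congr rfl fun c k => congrArg _ (h.vx (mem_Ioc.1 k).1 (mem_Ioc.1 k).2 le_rfl)
  · refine le_trans (le_of_eq ?_) (sum_le_sum_of_subset_of_nonneg (s := image (Bs.sh (-e))
      {a ∈ B | a.arc ∧ Y.b + e ≤ a.lo ∧ a.lo < F.w.r + 1 ∧ Adj B η a}) (fun c k => ?_)
      fun _ _ _ => abs_nonneg _)
    · rw [sum_image (sh_inj _).injOn]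
      refine sum_congr rfl fun a k => ?_
      have k := mem_filter.1 k
      have q := wf_of_ok (o a k.1)
      rw [← h.vv k.2.2.1 (q.1.2 k.2.1) (by omega) le_rfl, abs_mul]
      split_ifs <;> simp [Nm96.vv]
    · obtain ⟨a, q, rfl⟩ := mem_image.1 k
      exact hA a (mem_filter.1 q).1 (mem_filter.1 q).2.2.1

end Crest.Agent.X212.Tm38
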