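import Crest.Agent.X212.Tm38.Zh
import Crest.Agent.X212.Br55.Lf
import Crest.Agent.X212.Ord99.Ln
import Crest.Agent.X212.Dr59.NbL
import Crest.Agent.X212.Pj41.Mid
import Crest.Agent.X212.Pi52.Main

/-!
# Row 212, layer G (helper38): TM-LB, characteristic classes between two frozen slices

* `chr_rl` : tests by lines that are trivial off a compact set;  `chr_pull`, `lb_of` : transport;  `lbG`.
-/

set_option autoImplicit false
set_option linter.unusedSectionVars false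
noncomputable section
open Set Function Filter Topology Matrix
open scoped ContDiff Manifold Real
open Crest.Agent.R208.F (Ext)

namespace Crest.Agent.X212.Tm38
open M G75 Wd38 Nm96 Cyl58 Dr59 Br55 Ord99 Pj41
open Line51 hiding dm
open Loc8 (RL)
open Num57 (isq)
open Cyf70 (IC)
open scoped Cap57

variable {κ lam : Type} [Fintype κ] [Fintype lam] [DecidableEq lam]

section Scn
variable {Lm : LM κ lam} {S : Scene Lm} {i : S.L} {c₀ : Finset S.A} {U V K : Set S.X.M} {v f : S.X.M → Ext S.X.E}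

/-- lines that are trivial off a compact set are tests -/
theorem chr_rl (h : S.Chr i c₀ U V v) (hY : ∀ a ∈ c₀, HZ (S.M.bn a).Y.I 2 (univ : Set (S.M.bn a).Y.M) ∧
    Hz56.H1 Circle (univ : Set (S.M.bn a).Y.M)) (hK : IsCompact K) (hV : K ⊆ V) (hf : RL S.X.I K f) :
    ∃ n : ℤ, ip S.X.I S.M.o (Ln.F S.X.I ⟨(S.N i).p, 0⟩ + v) f + ip S.X.I S.M.o f f = 2 * n * (2 * π) ^ 2 := by
  classical
  have cs := (hf.cs hK).mono hV
  obtain ⟨l, _, L, p₀, h1, h2, h3, -, rfl⟩ := hf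
  have o : (⟨L.p, 0⟩ : Ln S.X.E S.X.M l).On S.X.I univ := ⟨h1.sm, h1.prj, h1.tr, Sm.zero, Dg.zero⟩
  obtain ⟨u, hu⟩ := exists_unit h2 h3
  have : ∀ a : c₀, ∃ s, Uni (IC (S.M.bn a).Y.I) (fun _ => (1 : Matrix Unit Unit ℂ))
      (fun q => L.p ((S.M.bn a).j q)) s univ := fun a =>
    have k := on_comp o (.of_contMDiff (S.M.bn a).oe.contMDiff (mapsTo_univ _ univ))
    triv_of_ex isOpen_univ k ((univ_prod_univ ▸ (hY a a.2).1.prod_convex isOpen_univ isOpen_univ convex_univ :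
      HZ (IC (S.M.bn a).Y.I) 2 univ) _ (k.cl_F isOpen_univ)) (univ_prod_univ ▸ (hY a a.2).2.prod_convex convex_univ)
  choose s hs using this
  let N : ML (S.M.res (.subtype (· ∈ c₀))) l := ⟨L.p, o, fun _ => ⟨fun _ => p₀, 0⟩, fun _ => Loc8.on_const h2 h3 _,
    fun _ _ => ⟨p₀, rfl⟩, fun a q => u * (s a q)ᴴ, fun a =>
      ((hs a).symm.trans ⟨fun _ _ => MSm.const u, fun _ _ => hu⟩).mono (subset_univ _)⟩
  refine h _ _ _ N.pad3 _ (fun a k => ⟨⟨a, k⟩, rfl⟩) N.spare_pad3 cs (Ex.mono ?_ (subset_univ _))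
  exact Uni.ex_F (L' := ⟨N.pad3.p, 0⟩) isOpen_univ (h1.iso_cj isOpen_univ (em_iso Sum.inl_injective)).toUni h1 N.pad3.ok

end Scn

section Q
variable {X : Mf 4} {o b v f g : X.M → Ext X.E} {U K : Set X.M} {ι l : Type} [Fintype ι] [DecidableEq ι] [Fintype l]
  {e : ι → X.M → Ext X.E} {G : Matrix ι ι ℝ} {Φ : X.M ≃ₘ^∞⟮X.I, X.I⟯ X.M} (hΦ : Orx52.Pos X.I X.I Φ univ o o)
  (H : Lat X.I o U U e G) (hv : Cl X.I 2 (Φ '' U) v) (hb : Cl X.I 2 univ b) (eb : Ex X.I U (pm X.I X.I Φ v - b))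
include hΦ H hv hb eb

/-- a test in terms of a lattice of the model -/
theorem chr_pull {p : X.M → Matrix l l ℂ} {q : X.M → Matrix lam lam ℂ} {u}
    (hp : (⟨p, 0⟩ : Ln X.E X.M l).On X.I univ) (hq : (⟨q, 0⟩ : Ln X.E X.M lam).On X.I univ)
    (hu : Uni X.I p (fun z => q (Φ z)) u univ) (c : Cs X.I 2 U f) (hg : Cl X.I 2 univ g) (e' : Ex X.I U (f - g)) :
    ip X.I o (Ln.F X.I ⟨q, 0⟩ + v) (psh Φ.toPartialDiffeomorph f) +
      ip X.I o (psh Φ.toPartialDiffeomorph f) (psh Φ.toPartialDiffeomorph f) =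
    isq X.I o e G (Ln.F X.I ⟨p, 0⟩ + b) g + isq X.I o e G g g := by
  have m : Mp X.I X.I univ univ Φ := .of_contMDiff Φ.contMDiff (mapsTo_univ _ _)
  have s := (Orx52.same_symm hΦ).mono (subset_univ U)
  have c1 := (((hq.cl_F isOpen_univ).pm m).mono (subset_univ U)).add
    (hv.pm (.of_contMDiff Φ.contMDiff (mapsTo_image _ U)))
  have t := hg.sm.mono (subset_univ U)
  have x : Ex X.I U (pm X.I X.I Φ (Ln.F X.I ⟨q, 0⟩) + pm X.I X.I Φ v - (Ln.F X.I ⟨p, 0⟩ + b)) :=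
    (eb.add ((hu.ex_F (L := ⟨p, 0⟩) (L' := ⟨_, 0⟩) isOpen_univ hp (on_comp hq m)).mono (subset_univ U))).congr
      fun x _ => by
      simp only [Pi.add_apply, Pi.sub_apply]
      rw [← hq.F_pull isOpen_univ isOpen_univ m trivial, ← (hq.pull m).F_congr (K := ⟨fun z => q (Φ z), 0⟩)
        isOpen_univ (fun _ _ => rfl) (fun x _ => (congrFun (pm_zero _) x).symm) trivial]
      abel
  have ps := c.ip_psh Φ.toPartialDiffeomorph (subset_univ _) H.ori H.ori s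
  rw [ps, ps, c.ip_congr (c' := f) fun y _ => pm_psh Φ.toPartialDiffeomorph trivial f, H.ip_eq (c.on U) c, pm_add,
    ← Num57.isq_coh H c1.sm (((hp.cl_F isOpen_univ).add hb).sm.mono (subset_univ U)) (c.on U).sm t x e',
    ← Num57.isq_coh H (c.on U).sm t (c.on U).sm t e' e']
  exact congrArg (· + _) (H.ip_eq c1 c)

end Q

variable {Γ : Nm} {C : Cx Γ} {w : Shp Γ} {hw : w.OK} {X : TP V4} (R : Rz C hw X) {B : Finset Bs} {η : Bs → Bool}
  {u c s t : ℤ} {b : Bool}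

theorem pc_cut (h : Cu w B u) :
    pc R (insert (.yS u) B) (update η (.yS u) b) = pc R B η ∩ Sid48.sd R (.yS u) b := by
  rw [pc_insert, update_self]
  exact congrArg (· ∩ _) (Set.ext fun z => forall₂_congr fun a k => by rw [h.up k])

/-- a piece that misses a slice lies on one side -/
theorem pc_side (P : Pw w B) (h : Cu w B u) (h1 : w.l ≤ c) (h2 : c ≤ w.r + 1) (i : InV B η c) (n : ¬InV B η (u + 1)) :
    pc R B η ⊆ Sid48.sd R (.yS u) (decide (u < c)) := by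
  simp only [InV, not_forall] at n
  obtain ⟨a, k, n⟩ := n
  have o : (Bs.yS u).OK w := ⟨h.1, h.2.1⟩
  have f : a.Far (.yS u) := (h.2.2.2 a k).imp_right .inl
  have e := side_nest R (P.ok a k).1 o f h1 h2 (i a k ▸ Ne.symm n)
  exact fun z hz => (e.symm ▸ sd_nest R (P.ok a k).1 o f (Bool.eq_not_of_ne (Ne.symm n) ▸ hz a k) :
    z ∈ Sid48.sd R _ ((Bs.yS u).side c))

omit R in
theorem bs_zero' (P : Pw w B) (hs : Cu w B s) (h : ¬∃ c, w.l < c ∧ c ≤ w.r ∧ s < c ∧ c ≤ t ∧ InV B η c) (x y : RW) :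
    bs w B η s t x y = 0 := by
  rw [bs, Finset.sum_eq_zero fun c k => ?_, Finset.sum_eq_zero fun a k => ?_, add_zero] <;>
    simp only [Finset.mem_filter, Finset.mem_Ioc] at k <;> refine (h ?_).elim
  · have := P.bd k.1
    have := hs.2.2.2 a k.1
    have := hs.1
    exact (P.adj_in k.1 k.2.2.2.2).elim (fun i => ⟨_, by omega, by omega, by omega, by omega, i⟩) fun i =>
      ⟨_, by omega, by omega, by omega, by omega, i⟩
  · exact ⟨c, k.1.1, k.1.2, k.2⟩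

omit R in
theorem exists_par {n : Wd38.Wt} (hn : TOK w n) : ∃ n', TOK w n' ∧ Par w n n' := by
  have o := tok_om (w := w)
  refine ⟨⟨fun j => (Ord99.om w).nl j + n.nl j, fun j => (Ord99.om w).nr j + n.nr j, 0, 0⟩,
    ⟨fun j τ u v e => ?_, fun j u v e => ?_, fun j u v e => ?_⟩, fun j _ _ => ?_, fun j _ _ => ?_⟩
  · simp only [o.rod j τ u v e, hn.rod j τ u v e]
  · simp only [o.eq j u v e, hn.eq j u v e]
  · simp only [o.neg j u v e, hn.neg j u v e, neg_add]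
  · simpa only [add_sub_cancel_right, Ord99.om] using even_om (w.s j).l.2
  · simpa only [add_sub_cancel_right, Ord99.om] using even_om (w.s j).r.2

variable {G : Tab C.kd κ} {P : Pm Γ} (L : LP C G P lam)

omit R in
/-- **TM-LB** -/
theorem lbG (hc : Γ.cap.2.2 = 0) : LbG L := by
  intro D h μ i σ c c₀ ρ n η a b x y k _ _ _ _ pin _ Q ea eb cx cy xy H
  set R := C.rz h.h0.w
  set B := c.image fun a => a.1.b
  have W : Pw D.F.w B := ⟨h.ok.w, fun a k => (Q.tp.ok a k).imp_right .inl, Q.tp.far⟩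
  have ux := cu_of h.ok Q.tp.fz cx
  have uy := cu_of h.ok Q.tp.fz cy
  have uy' := ux.cu uy xy.ne'
  have tn : TOK D.F.w n := ⟨Q.W.ok.rod, Q.W.ok.eq, Q.W.ok.neg⟩
  set B' := insert (Bs.yS y) (insert (Bs.yS x) B)
  set η' := update (update η (.yS x) true) (.yS y) false
  have sd : ∀ (a : D.A) x s z, a.1 = Bs.yS x → D.F.Cut x →
      (Q.Φ z ∈ ((L.scn h μ).M.sys.w a).sd s ↔ z ∈ Sid48.sd R (.yS x) s) := fun a x s z e k => by
    have := Q.trc.sd a (.inr (e ▸ ⟨rfl, Finset.mem_union_left _ k.1⟩)) s z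
    rwa [e] at this
  have eV : (L.scn h μ).M.sys.U ρ ∩ ((L.scn h μ).M.sys.w a).sd true ∩ ((L.scn h μ).M.sys.w b).sd false =
      Q.Φ '' pc R B' η' := by
    rw [pc_cut R uy', pc_cut R ux, ← Q.U]
    ext z
    obtain ⟨z, rfl⟩ := Q.Φ.surjective z
    exact (and_congr (and_congr Q.Φ.injective.mem_set_image (sd a x _ z ea cx)) (sd b y _ z eb cy)).trans
      (Q.Φ.injective.mem_set_image (s := pc R B η ∩ _ ∩ _)).symm
  rw [eV]
  have := ux.1; have := uy.2.1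
  by_cases ex : ∃ c, D.F.w.l < c ∧ c ≤ D.F.w.r ∧ x < c ∧ c ≤ y ∧ InV B η c
  swap
  · obtain ⟨n', t1, t2⟩ := exists_par tn
    have k0 := H n' t1 t2
    rw [ssum_lq, bs_zero' W ux ex] at k0
    obtain ⟨c, c1, c2, i⟩ : ∃ c, D.F.w.l ≤ c ∧ c ≤ D.F.w.r + 1 ∧ InV B η c := Q.tp.ne.elim
      (fun e => ⟨_, le_rfl, by omega, fun a k => absurd ((show B = ∅ from e) ▸ k) (Finset.notMem_empty _)⟩) fun ⟨a, k, ad⟩ =>
        have := W.bd k
        (W.adj_in k ad).elim (fun i => ⟨_, by omega, by omega, i⟩) fun i => ⟨_, by omega, by omega, i⟩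
    have e : pc R B' η' = ∅ := by
      rw [pc_cut R uy', pc_cut R ux]
      refine eq_empty_of_forall_notMem fun z hz => ?_
      rcases le_or_gt c x with l | l
      · have := pc_side R W ux c1 c2 i (fun j => ex ⟨_, by omega, by omega, by omega, by omega, j⟩) hz.1.1
        rw [decide_eq_false l.not_gt, ← wl_sd R (show (Bs.yS x).OK _ from ⟨ux.1, ux.2.1⟩)] at this
        exact Wall.not_mem_sd _ this (wl_sd R _ _ ▸ hz.1.2)
      · have l' : y < c := lt_of_not_ge fun l' => ex ⟨c, by omega, by omega, l, l', i⟩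
        have := pc_side R W uy c1 c2 i (fun j => ex ⟨y, by omega, by omega, xy, le_rfl, fun a k => by
          have := uy.2.2.2 a k
          have := W.bd k
          have := j a k
          rcases kind η a with ⟨-, -, H⟩ | ⟨-, -, H⟩ | ⟨-, -, H⟩ | ⟨-, -, H⟩ <;> rw [H] at * <;> omega⟩) hz.1.1
        rw [decide_eq_true l', ← wl_sd R (show (Bs.yS y).OK _ from ⟨uy.1, uy.2.1⟩)] at this
        exact Wall.not_mem_sd _ this (wl_sd R _ _ ▸ hz.2)
    rw [e, image_empty]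
    exact ⟨Empty, _, _, Empty.elim, Empty.elim, .empty (L.scn h μ).M.ori isOpen_empty Subset.rfl hz_empty,
      fun _ _ _ => by simpa using k0⟩
  obtain ⟨c₁, h1, h2, h3, h4, i₁⟩ := ex
  have P1 : Pc D.F.w (insert (.yS x) B) (update η (.yS x) true) := ⟨⟨W.hw, Finset.forall_mem_insert _ _ _ |>.2
    ⟨⟨⟨ux.1, ux.2.1⟩, .inr ⟨x, rfl, ux.2.2.1⟩⟩, W.ok⟩, fun a k a' k' n => by
      rw [Finset.mem_insert] at k k'
      rcases k with rfl | k <;> rcases k' with rfl | k'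
      exacts [(n rfl).elim, (ux.2.2.2 _ k').elim (.inr ∘ .inl) .inl, (ux.2.2.2 _ k).elim .inl (.inr ∘ .inl),
        W.far a k a' k' n]⟩, ⟨c₁, h1, h2, ux.inV.2 ⟨decide_eq_true h3, i₁⟩⟩,
    fun k => ux.1.not_gt (of_decide_eq_true (ux.inV.1 k).1)⟩
  have P2 : Pc D.F.w B' η' := uy'.pc P1 h1 h2 (ux.inV.2 ⟨decide_eq_true h3, i₁⟩) (decide_eq_false h4.not_gt)
  have nl := fun k : InV B' η' (D.F.w.r + 1) =>
    of_decide_eq_false (uy'.inV.1 k).1 (by omega)
  have l0 := ((gp_pc R P2).hl R).lat.some.h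
  obtain ⟨e, d, l⟩ := Num57.lat_diag (l0.mono l0.sub Subset.rfl)
  have s := (Orx52.same_symm Q.pos.neg).mono (subset_univ (pc R B' η'))
  refine ⟨_, _, _, _, d, l.push Q.Φ.toPartialDiffeomorph (subset_univ _) l.ori s, fun v hv ch => ?_⟩
  have cv := hv.pm (.of_contMDiff Q.Φ.contMDiff (mapsTo_image _ _))
  obtain ⟨g, y₀, cg, eg, ty, -, oy⟩ := ex_ord R P2 cv
  have iq := fun {F F' n n'} a b c d => iq_pc (F := F) (F' := F') (n := n) (n' := n') L.hJ (gp_pc R P2) P2.nf nl a b c d l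
  have p2 : (2 * π) ^ 2 ≠ 0 := by positivity
  obtain ⟨n', t1, t2, t3⟩ := P2.exists_int L.hJ tn ty (P2.dual L.hJ ((tr_co.2 tn).add ty) fun p q d T => by
    obtain ⟨W'⟩ := exists_WL (K0 C) R (T.ok h.ok.w hc)
    obtain ⟨K, f, k1, k2, k3, k4⟩ := exists_rl _ P2.toPw W' fun _ => T.dvd
    have c1 := Q.W.ln.cl_F isOpen_univ
    have c2 := W'.ln.cl_F isOpen_univ
    refine (chr_rl ch (fun z hz => ?_) (k1.image Q.Φ.continuous) (image_mono k2)
      (k3.psh Q.Φ.toPartialDiffeomorph k1 (subset_univ _))).imp fun m hm => mul_left_cancel₀ p2 ?_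
    · change HZ (mY C.kd (z.1.b.ty D.F.w)).I 2 (univ : Set (mY C.kd (z.1.b.ty D.F.w)).M) ∧
        Hz56.H1 Circle (univ : Set (mY C.kd (z.1.b.ty D.F.w)).M)
      rw [Bs.ty_sph.2 (pin z hz)]
      exact ⟨hz_sphere (d := 3) (by omega), Pi52.h1_mS⟩
    rw [mul_add, mul_comm _ (2 * (m : ℝ)), ← hm]
    exact ((chr_pull Q.pos.neg l hv cg eg Q.W.ln ((L.scn h μ).N i).ok Q.uni ((k3.cs k1).mono k2) c2 k4).trans
      (congrArg₂ (· + ·) (iq (c1.add cg) c2 ((ord_line Q.W).add oy c1 cg) (ord_line W'))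
        (iq c2 c2 (ord_line W') (ord_line W')))).symm)
  refine (H n' t1 t2).trans_eq ?_
  have t4 := t3 _ _ (.inl rfl) (.inl ⟨rfl, nl⟩)
  rw [ssum_lq, uy'.bs_eq, ux.bs_eq, cond_false, cond_false, cond_true, cond_true, max_eq_right (by omega),
    min_eq_right (by omega)] at t4
  have t5 := (Num57.isq_coh l cv.sm (cg.sm.mono (subset_univ _)) cv.sm (cg.sm.mono (subset_univ _)) eg eg).trans
    (iq cg cg oy oy)
  rw [ssum_lq, t4, ← mul_div_cancel_left₀ (bs _ _ _ _ _ y₀ y₀) p2, ← t5]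
  exact congrArg (- · / 4) ((Num57.isq_diag' (X := (C.X h.h0.w).mf) l _).trans (Finset.sum_congr rfl fun j _ =>
    congrArg (fun r => (r / (2 * π)) ^ 2 / d j)
      ((l.cs j).ip_psh Q.Φ.toPartialDiffeomorph (subset_univ _) l.ori l.ori s v).symm))

end Crest.Agent.X212.Tm38
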