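import Crest.Agent.X212.Tm38.Cr

/-!
# Row 212, layer G (helper38): the side `NS` from windows with payments
-/

set_option autoImplicit false
noncomputable section

namespace Crest.Agent.X212.Tm38

open Crest.Agent.X212.Rod53 Crest.Agent.X212.Wd38 Crest.Agent.X212.Nm96 Finset Fm Br55

variable {Γ : Nm} {P : Pm Γ} {F : Fm Γ} {s t u z : ℤ} {B σ σ' : Finset Bs} {η : Bs → Bool} {n n' : Wt}
  {v v' v'' : ℝ × ℝ} {a b : Bs} {ch : Bs → Bool → ℤ} {x y g g' k : ℝ} {G : Finset ℤ}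

theorem dp_cut (h : ∀ a ∈ B, Sp t a) (x x' x'' : ℝ) : dp B η s u x x'' = dp B η s t x x' + dp B η t u x' x'' := by
  simp only [dp, inV_sp h]; ring

/-- a window with payments and a window -/
theorem glueP (h : WinP F G n σ s t v v') (h' : F.Win z 0 n σ t u v' v'') (h1 : s ≤ t) (h2 : t ≤ u) (hz : t ≤ z)
    (k1 : wn s t σ' = wn s t σ) (k2 : wn t u σ' = wn t u σ) (hB : B ⊆ wn s u σ) (hp : ∀ a ∈ B, a.pin)
    (b1 : ∀ a ∈ B, Sp t a) (hl : ∀ l ∈ wn s u F.ls, Sp t l) (g : ∀ x ∈ G, x ≤ t) :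
    ∃ ch, ChOK F B s u ch ∧ ∀ η,
      Pq F z n σ' B ch s u (dp B η s u v.1 v''.1 + pay G B η) (dp B η s u v.2 v''.2 + pay G B η) η ∧
      ∀ n', Tp F.w n n' s t → dp B η s t v.2 v'.2 + pay G B η ≤
        -3 / 2 * ssum F.w B η s t lq n' + F.Ev n σ' B η ch om 1 1 s t := by
  have b0 : B ⊆ wn s u B := fun a k => mem_wn.2 ⟨k, (mem_wn.1 (hB k)).2⟩
  have sub := wn_sub (hB.trans (filter_subset _ _))
  obtain ⟨c1, p1, r1⟩ := h _ (sub s t) fun a k => hp a (mem_wn.1 k).1
  obtain ⟨c2, p2, r2⟩ := win_pq h' k2 (sub t u) fun a k => hp a (mem_wn.1 k).1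
  obtain ⟨ch, p, E⟩ := glue2 (n := n) (σ := σ') h1 h2 b0 b1 hl p1 p2
  refine ⟨ch, p, fun η => ?_⟩
  have L := rs_left (η := η) b0 b1
  have R := rs_right (η := η) b0 b1
  have dL : ∀ x x', dp B η s t x x' + pay G B η =
      if InV (wn t u B) η (t + 1) then dp (wn s t B) η s t x x' + pay G (wn s t B) η else 0 := fun x x' => by
    simp only [pay, dp, iL b0 b1 (show s + 1 ≤ t + 1 by omega), iL b0 b1 (show t ≤ t + 1 by omega)]
    rw [filter_congr fun x k => iL b0 b1 (by have := g x k; omega)]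
    by_cases i : InV (wn t u B) η (t + 1) <;> simp [i]
  have dR : ∀ x x', dp B η t u x x' = if InV (wn s t B) η t then dp (wn t u B) η t u x x' else 0 :=
    fun x x' => by
      simp only [dp, iR b0 b1 h2, iR b0 b1 (show t ≤ t + 1 by omega)]
      by_cases i : InV (wn s t B) η t <;> simp [i]
  have S : ∀ n', Tp F.w n n' s t → dp B η s t v.2 v'.2 + pay G B η ≤
      -3 / 2 * ssum F.w B η s t lq n' + F.Ev n σ' B η ch om 1 1 s t := fun n' tp => by
    rw [dL, L.ssum, (E ..).1, Ev_wn k1]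
    split_ifs
    exacts [(r1 η).2 n' tp, by simp]
  refine ⟨⟨?_, ?_⟩, S⟩
  · rw [dp_cut b1 _ v'.1, add_right_comm, Ev_cut h1 h2, dL, dR, (E ..).1, (E ..).2, Ev_wn k1]
    refine add_le_add ?_ ?_ <;> split_ifs
    exacts [(r1 η).1, le_rfl, (r2 η).1, le_rfl]
  by_cases j : F.HgW n B η s u
  · exact .inl j
  refine .inr fun n' tp lc => ?_
  have a1 : t ≤ ee z B η u := by unfold ee; split_ifs <;> omega
  have a2 : ee z B η u ≤ u := by unfold ee; split_ifs <;> omega
  have := S n' (tp.mono le_rfl h2)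
  rw [dp_cut b1 _ v'.2, Ev_cut h1 h2, ssum_cut h1 a1, dR, (E ..).2, (R.mono le_rfl a2).ssum]
  split_ifs with i
  · have := ((r2 η).2.resolve_left fun ⟨y, y1, y2, y3, y4, y5, y6⟩ =>
      j ⟨y, by omega, y2, y3, y4, y5, (iR b0 b1 (by omega)).2 ⟨y6, i⟩⟩) n' (tp.mono h1 le_rfl)
      fun s' t' k1 k2 k3 k4 => by
        have := lc s' t' (by omega) k2 k3 (k4.imp_left fun k => ⟨k.1, fun m =>
          k.2 fun a ha => m a (mem_wn.1 ha).1⟩)
        rwa [(R.mono k1 k2).ssum, if_pos i] at this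
    rw [show ee z B η u = ee z (wn t u B) η u by simp only [ee, iR b0 b1 h2, i, and_true]]
    linarith
  · linarith

/-- the adjacent walls from the slot `t` on -/
def tn (B : Finset Bs) (η : Bs → Bool) (t : ℤ) : ℝ := #{a ∈ B | Adj B η a ∧ t ≤ a.lo}

open Classical in
/-- the same, with the right cap -/
def tc (F : Fm Γ) (B : Finset Bs) (η : Bs → Bool) (t : ℤ) : ℝ := tn B η t + if F.Lst B η then 1 else 0

theorem tn_nn : 0 ≤ tn B η t := Nat.cast_nonneg _

theorem tn_le : tn B η t ≤ tc F B η t := by unfold tc; split_ifs <;> simp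

/-- lower charges from the slot `t` on -/
def lw (t : ℤ) (K : ℝ) (c : Bs → Bool → ℝ) (a : Bs) (s : Bool) : ℝ := c a s - if t ≤ a.lo then K else 0

theorem chg_lw (c : Bs → Bool → ℝ) (K gA gR : ℝ) :
    F.chg B η (lw t K c) gA (gR - K) = F.chg B η c gA gR - K * tc F B η t := by
  simp only [chg, lw, tc, tn, sum_sub_distrib, ← sum_filter, filter_filter, sum_const, nsmul_eq_mul]
  split_ifs <;> ring

theorem sum_lw (c : Bs → Bool → ℝ) (K : ℝ) : ∑ a ∈ B, (lw t K c a true + lw t K c a false) =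
    ∑ a ∈ B, (c a true + c a false) - 2 * K * #{a ∈ B | t ≤ a.lo} := by
  simp only [lw, sum_add_distrib, sum_sub_distrib, ← sum_filter, sum_const, nsmul_eq_mul]; ring

theorem adj_min (lam : Lam B) (sp : ∀ a ∈ B, Sp t a) (ha : a ∈ B) (h1 : t < a.lo)
    (h2 : ∀ b ∈ B, t < b.lo → a.lo ≤ b.lo) : Adj B η a ↔ InV (B.erase a) η t :=
  forall₂_congr fun b hb => by
    have hb := mem_erase.1 hb
    have := lo_ne (lam.wf b hb.2) (lam.wf a ha) (lam.far b hb.2 a ha hb.1)
    rcases (sp b hb.2).2 with k | k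
    exacts [by rw [side_of_gt k, side_of_gt (by omega)],
      by rw [side_of_le (c' := t) (by have := h2 b hb.2 k; omega) k.le]]

theorem tc_pos (lam : Lam B) (sp : ∀ a ∈ B, Sp t a) (hr : t ≤ F.w.r + 1) (hη : B = ∅ ∨ ∃ a ∈ B, Adj B η a)
    (h : ∀ b ∈ B, b.hi < t → η b = true) : 1 ≤ tc F B η t := by
  have key : ∀ a ∈ B, Adj B η a → t ≤ a.lo → 1 ≤ tc F B η t := fun a a1 a2 a3 =>
    le_trans (Nat.one_le_cast.2 (card_pos.2 ⟨a, mem_filter.2 ⟨a1, a2, a3⟩⟩)) tn_le
  by_cases e : {a ∈ B | t < a.lo}.Nonempty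
  · obtain ⟨a, a1, a2⟩ := exists_min_image _ Bs.lo e
    have a1 := mem_filter.1 a1
    obtain ⟨c, c1, c2⟩ := hη.resolve_left (ne_empty_of_mem a1.1)
    rcases (sp c c1).2 with k | k
    swap; · exact key c c1 c2 k.le
    refine key a a1.1 ((adj_min lam sp a1.1 a1.2 fun b i j => a2 b (mem_filter.2 ⟨i, j⟩)).2 fun b hb => ?_) a1.2.le
    have hb := (mem_erase.1 hb).2
    have := (sp c c1).1
    rcases (sp b hb).2 with j | j
    exacts [by rw [side_of_gt j, h b hb j],
      by rw [← c2.side hb (by rintro rfl; omega), side_of_le (c' := c.lo + 1) j.le (by omega)]]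
  · have : F.Lst B η := fun b hb => by
      have := (sp b hb).2.resolve_right fun j => e ⟨b, mem_filter.2 ⟨hb, j⟩⟩
      rw [h b hb this, side_of_gt (by omega)]
    rw [tc, if_pos this]; linarith [tn_nn (B := B) (η := η) (t := t)]

theorem nc_eq {T : TC} (hG : T.G = G.image .yS) (sp : ∀ x ∈ G, ∀ a ∈ B, Sp x a) :
    (T.nc B η : ℝ) = pay G B η := by
  rw [TC.nc, pay, hG, filter_image, card_image_of_injective _ fun _ _ => Bs.yS.inj]
  refine congrArg _ (congrArg _ (filter_congr fun x k => ?_))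
  rw [Adj, erase_eq_of_notMem fun i => by simpa [Sp, Bs.lo, Bs.hi] using sp x k _ i]
  exact inV_sp (sp x k)

theorem bw_mono (h : TC.Bw P F n σ B η g) (k : g' ≤ g) : TC.Bw P F n σ B η g' := by
  rcases h with ⟨a, b, c⟩ | ⟨a, b, c⟩ | h
  · exact .inl ⟨a, fun x i j => k.trans (b x i j), c.imp_right fun c n' x i j => k.trans (c n' x i j)⟩
  · exact .inr (.inl ⟨a, fun x i => by linarith [b x i], c.imp_right fun c n' x i => by linarith [c n' x i]⟩)
  · exact .inr (.inr (by linarith))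

theorem mb_le : -|P.M| ≤ TC.mb P F B η := by
  unfold TC.mb; split_ifs
  exacts [neg_abs_le _, neg_nonpos.2 (abs_nonneg _)]

theorem Ref.tk_nn (Y : Ref Γ) (φ : Z2 → Z2 → ℤ → ℤ → ℝ) : 0 ≤ Y.tk φ := by unfold Ref.tk; positivity

/-- the loss on the tail -/
def Ref.K (Y : Ref Γ) (P : Pm Γ) : ℝ := Y.tk om + |Y.v.2| + |P.M| + 7

/-- the charge of `a` -/
def Ref.gA (Y : Ref Γ) : ℝ := min 0 (min (2 - Y.C - Y.hd al Y.h - Y.u.1) (4 - Y.hd om Y.h - |Y.u.2|))

namespace Cx
variable {Y : Ref Γ} {T : TC} (H : Cx P Y F T.d T.e n σ) (hB : B ⊆ sR (Y.a + T.d) σ)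
include H hB

omit H in
theorem _root_.Crest.Agent.X212.Tm38.subR : B ⊆ σ := hB.trans (filter_subset _ _)

theorem wt_eq (f : ¬F.Fst B η) (k : ℝ) :
    F.wt n σ' B η k = 6 * k + T.rs Y F n B η om + Fm.nm σ' B η - 2 * F.nh B η + 1 := by
  have := H.l; have := H.ah; have := H.hb; have := H.br; have := H.r
  have V := vanL (u := F.w.l - 1) (fun a i => (H.mR.1 (hB i)).2) (mt (H.fst hB).2 f)
  have : T.rs Y F n B η om = ssum F.w B η (F.w.l - 1) (F.w.r + 1) om n := by
    rw [ssum_cut (t := Y.h + T.d) (by omega) (by omega), ssum_van V, zero_add, TC.rs]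
  rw [this, ssum_om, ssum_uu]
  simp only [wt, wg, tot]; ring

theorem tail (c : ∀ a ∈ B, ∀ s, ch a s ≤ 4) :
    -Y.tk om - 4 * tn B η (Y.b + T.e) ≤ F.Ev n σ' B η ch om 1 1 (Y.b + T.e) (F.w.r + 1) := by
  have h1 := (abs_le.1 (tail_le (η := η) (φ := om) H.cpy H.r (fun a k => H.ok a (subR hB k)) fun a k j =>
    H.tw a (subR hB k) (by have := H.sp a (subR hB k); unfold Sp at this; omega))).1
  have h2 : asum F.ls B η (Y.b + T.e) (F.w.r + 1) (fun l => if ∀ a ∈ B, a.Far l then -2 * 1 else 0) = 0 :=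
    sum_eq_zero fun a i => by have i := mem_filter.1 i; have := H.ls a i.1; omega
  have h3 : 0 ≤ ent B η (Y.b + T.e) (F.w.r + 1) := by rw [ent_eq]; positivity
  have h4 : asum B B η (Y.b + T.e) (F.w.r + 1) (fun a => ch a (η a)) ≤ 4 * tn B η (Y.b + T.e) := by
    refine (sum_le_card_nsmul _ _ 4 fun a i => (by exact_mod_cast c a (mem_filter.1 i).1 (η a) :
      (ch a (η a) : ℝ) ≤ 4)).trans ?_
    rw [nsmul_eq_mul, mul_comm, tn]
    exact mul_le_mul_of_nonneg_left (Nat.cast_le.2 (card_le_card (monotone_filter_right _ fun a _ i =>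
      ⟨i.2.2, i.1⟩))) (by norm_num)
  rw [Ev_eq, h2]
  linarith [asum_nn (U := σ' \ B) (B := B) (η := η) (s := Y.b + T.e) (t := F.w.r + 1)]

theorem card : (#{a ∈ B | Y.b + T.e ≤ a.lo} : ℝ) ≤ #Y.A :=
  Nat.cast_le.2 (tail_card (e := T.e) fun a i => by
    have i := mem_filter.1 i
    exact H.tw a (subR hB i.1) (by have := H.sp a (subR hB i.1); unfold Sp at this; omega))

/-- either the piece pays the tail or it does not meet it -/
theorem alt (hη : B = ∅ ∨ ∃ a ∈ B, Adj B η a) : 1 ≤ tc F B η (Y.b + T.e) ∨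
    (Rs B B η (Y.b + T.e) (F.w.r + 1) False ∧ ¬InV B η (Y.b + T.e) ∧ ¬F.Lst B η) := by
  have := H.br; have := H.r
  by_cases h : ∀ b ∈ B, b.hi < Y.b + T.e → η b = true
  · exact .inl (tc_pos (H.lam (subR hB)) (fun a i => H.sp a (subR hB i)) (by omega) hη h)
  push Not at h
  obtain ⟨b, b1, b2, b3⟩ := h
  exact .inr ⟨vanR b1 ((H.lam (subR hB)).wf b b1) b2 (by simpa using b3),
    fun i => b3 ((i b b1).symm.trans (side_of_gt b2)), fun i => b3 ((i b b1).symm.trans (side_of_gt (by omega)))⟩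

open Classical in
omit hB in
theorem ns1 {R : ℕ} (hG : T.G = G.image .yS) (g1 : ∀ x ∈ G, x ≤ Y.b + T.e ∧ ∀ a ∈ σ, Sp x a)
    (w : WinP F G n σ (Y.h + T.d) (Y.b + T.e) Y.u Y.v) (hz : F.Cut z) (hr : z ≤ F.w.r) (zb : Y.b + T.e ≤ z)
    (tl : F.Win z 0 n σ (Y.b + T.e) (F.w.r + 1) Y.v (vR P))
    (hR : R + 1 - Y.gA + Y.K P * (1 + 2 * #Y.A) < #G) : T.NS P Y R F n (sR (Y.a + T.d) σ) := fun B hB hp => by
  have l := H.l; have := H.ah; have := H.hb; have := H.br; have := H.r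
  have s0 := subR hB
  obtain ⟨ch, c, q⟩ := glueP w tl (by omega) (by omega) zb (H.wnR le_rfl) (H.wnR (by omega))
    (fun a i => mem_wn.2 ⟨s0 i, H.topR a (mem_union_left _ (hB i))⟩) hp (fun a i => H.sp a (s0 i))
    (fun a i => by have := H.ls a (mem_wn.1 i).1; unfold Sp; omega) fun x i => (g1 x i).1
  have lam := H.lam s0
  have K0 := Y.tk_nn om
  have K1 := abs_nonneg Y.v.2
  have K2 := abs_nonneg P.M
  have K3 : 7 ≤ Y.K P := by unfold Ref.K; linarith
  have a0 : Y.gA ≤ 0 := min_le_left _ _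
  have a1 : Y.gA ≤ 2 - Y.C - Y.hd al Y.h - Y.u.1 := (min_le_right _ _).trans (min_le_left _ _)
  have a2 : Y.gA ≤ 4 - Y.hd om Y.h - |Y.u.2| := (min_le_right _ _).trans (min_le_right _ _)
  refine ⟨lw (Y.b + T.e) (Y.K P) fun a b => ch a b, Y.gA, 3 - Y.K P, 1, ?_, fun η g hη hg => ?_⟩
  · rw [sum_lw, hG, card_image_of_injective _ fun _ _ => Bs.yS.inj]
    nlinarith [c.sum H.lsR, H.card hB]
  have nc := nc_eq (η := η) hG fun x i a j => (g1 x i).2 a (s0 j)
  have t0 := tn_nn (B := B) (η := η) (t := Y.b + T.e)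
  have t1 := tn_le (F := F) (B := B) (η := η) (t := Y.b + T.e)
  have t2 : 0 ≤ Y.K P * tc F B η (Y.b + T.e) := mul_nonneg (by linarith) (by linarith)
  have n0 : (0 : ℝ) ≤ T.nc B η := Nat.cast_nonneg _
  rw [chg_lw, chg_eq, one_mul] at hg
  obtain ⟨q, S⟩ := q η
  rw [← nc] at q S
  have cl : (sc B η ch : ℝ) + (if F.Fst B η then Y.gA else 0) + (if F.Lst B η then 3 else 0) ≤ 4 := by
    rcases hη with rfl | hη
    · simp only [sc, filter_empty, sum_empty]; split_ifs <;> push_cast <;> linarith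
    · have := chg_le (F := F) lam c.2 (fun a i => H.ok a (s0 i)) hη
      split_ifs at this ⊢ <;> linarith
  have key : ∀ n', TOK F.w n' → Par F.w n n' → g - TC.mb P F B η ≤
      -3 / 2 * ssum F.w B η (Y.h + T.d) (Y.b + T.e) lq n' + T.rs Y F n B η om + Fm.nm (sR (Y.a + T.d) σ) B η -
        2 * F.nh B η + ent B η (Y.h + T.d) (F.w.r + 1) + if F.Fst B η then 4 - Y.hd om Y.h else 0 := by
    intro n' tok par
    have S := S n' ⟨fun j τ _ _ => tok.rod j τ, fun j _ _ => tok.eq j, fun j _ _ => tok.neg j,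
      fun j _ _ => par.l j, fun j _ _ => par.r j⟩
    have E := Ev_cut (F := F) (n := n) (σ := sR (Y.a + T.d) σ) (B := B) (η := η) (ch := ch) (φ := om) (μ := 1)
      (e := 1) H.hb.le (show _ ≤ F.w.r + 1 by omega)
    rw [Ev_top hB H.topR] at E
    have u2 := le_abs_self Y.u.2
    simp only [dp, ← H.fst hB] at S
    rw [TC.rs]
    rcases H.alt hB hη with i | ⟨V, i, j⟩
    · have := H.tail hB (η := η) (σ' := sR (Y.a + T.d) σ) (ch := ch) fun a i s => by
        have := c.2 a i; unfold Sz at this; cases s <;> split_ifs at this <;> omega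
      have := mb_le (P := P) (F := F) (B := B) (η := η)
      have := neg_abs_le Y.v.2
      have : 4 * tn B η (Y.b + T.e) + (Y.K P - 4) ≤ Y.K P * tc F B η (Y.b + T.e) := by nlinarith
      have : Y.K P = Y.tk om + |Y.v.2| + |P.M| + 7 := rfl
      split_ifs at S hg ⊢ <;> linarith
    · rw [Ev_van V] at E
      simp only [i, j, if_false, TC.mb] at S hg ⊢
      split_ifs at S hg ⊢ <;> linarith
  refine ⟨by linarith, ?_⟩
  by_cases f : F.Fst B η
  · refine ⟨(g - TC.mb P F B η - T.wr Y F n (sR (Y.a + T.d) σ) B η 0) / 6, fun n' a b => ?_,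
      fun i => (i f).elim, fun _ => ⟨by unfold TC.wr; linarith, .inl ?_⟩⟩
    · have := key n' a b
      rw [H.entR hB f, if_pos f] at this
      unfold TC.wr; linarith
    · have q := q.1
      rw [Ev_top hB H.topR, H.entR hB f] at q
      simp only [dp, (H.fst hB).1 f, if_true, vR] at q
      simp only [TC.BRw, TC.mb, TC.rs, if_pos f] at hg ⊢
      by_cases j : F.Lst B η
      · simp only [j, show InV B η (F.w.r + 1) from j, if_true] at q hg ⊢; linarith
      · simp only [j, show ¬InV B η (F.w.r + 1) from j, if_false] at q hg ⊢; linarith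
  have f' := mt (H.fst hB).2 f
  refine ⟨(g - TC.mb P F B η - F.wt n (sR (Y.a + T.d) σ) B η 0) / 6, fun n' a b => ?_,
    fun _ => ⟨by simp only [H.wt_eq hB f]; linarith, ?_⟩, fun i => (f i).elim⟩
  · have := key n' a b
    rw [if_neg f] at this
    rw [H.wt_eq hB f]; linarith [lam.ent_le (η := η) (s := Y.h + T.d) (t := F.w.r + 1)]
  have := core (P := P) (q.extL (by omega) (by omega) (fun a i => (H.mR.1 (hB i)).2) f') lam hB
    (H.top (filter_subset _ _)) (T.nc B η)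
  by_cases j : F.Lst B η
  · have j' : InV B η (F.w.r + 1) := j
    refine bw_mono (.inr (.inl ⟨j, this.2 j hz hr (by simp [dp, f', j', vR]) (by simp [dp, f', j', vR])⟩)) ?_
    simp only [f, j, if_true, if_false] at hg; rw [Int.cast_natCast]; linarith
  · have j' : ¬InV B η (F.w.r + 1) := j
    refine bw_mono (.inl ⟨j, this.1 j (by simp [dp, f', j']) (by simp [dp, f', j'])⟩) ?_
    simp only [f, j, if_false] at hg; rw [Int.cast_natCast]; linarith

end Cx

end Crest.Agent.X212.Tm38
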