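import Crest.Agent.X212.Qab60.Abs

/-!
# Row 212, RF-Q (helper38): counting the zeros on two edges
-/

set_option autoImplicit false
noncomputable section
open scoped Topology Real
open Set Function Filter

namespace Crest.Agent.X212.Tm38.Pq

theorem card_quot {α β : Type} {r : α → α → Prop} {f : α → β} (h : ∀ a b, r a b ↔ f a = f b) :
    Nonempty (Quot r ≃ range f) :=
  ⟨.ofBijective (Quot.lift (fun a => ⟨f a, a, rfl⟩) fun a b k => Subtype.ext ((h a b).1 k))
    ⟨fun a b => Quot.induction_on₂ a b fun a b k => Quot.sound ((h a b).2 (congrArg Subtype.val k)),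
      fun ⟨_, a, k⟩ => ⟨Quot.mk _ a, Subtype.ext k⟩⟩⟩

theorem cnt {O : Type} (T : Bool → Set (O × ℝ)) [∀ b, Finite (T b)]
    (h : ∀ o, Odd (∑ b, {t | (o, t) ∈ T b}.ncard)) :
    ∑ b, (Nat.card (T b) : ZMod 2) = Nat.card O := by
  have : Finite O := .of_surjective (fun x : Σ b, T b => x.2.1.1) fun o => by
    obtain ⟨b, -, k⟩ := Finset.exists_ne_zero_of_sum_ne_zero (h o).pos.ne'
    obtain ⟨t, k⟩ := nonempty_of_ncard_ne_zero k
    exact ⟨⟨b, (o, t), k⟩, rfl⟩
  have := Fintype.ofFinite O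
  have e : ∀ b, Nat.card (T b) = ∑ o, {t | (o, t) ∈ T b}.ncard := fun b => by
    have : ∀ o, Finite {t // (o, t) ∈ T b} := fun o => .of_injective
      (fun t => (⟨(o, t.1), t.2⟩ : T b)) fun _ _ k => Subtype.ext (congrArg (·.1.2) k)
    exact (Nat.card_congr (Equiv.subtypeProdEquivSigmaSubtype fun o t => (o, t) ∈ T b)).trans
      Nat.card_sigma
  simp only [e, ← Nat.cast_sum]
  rw [Finset.sum_comm, Nat.cast_sum, Finset.sum_congr rfl fun o _ => (h o).natCast_zmod_two]
  simp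

/-- two edges from one point to the values `ε` and `-ε` -/
theorem par2 {g : Bool → ℝ → ℝ} {ε v : ℝ} (hε : ε = 1 ∨ ε = -1) (hv : |v| < 1)
    (h0 : g true 0 = g false 0) (hn : g false 0 ≠ v) (hc : ∀ b, ContinuousOn (g b) (Ico 0 1))
    (hl : ∀ b, Tendsto (g b) (𝓝[<] 1) (𝓝 (if b then -ε else ε)))
    (hs : ∀ b, ∀ t ∈ Ioo (0 : ℝ) 1, g b t = v → DifferentiableAt ℝ (g b) t ∧ deriv (g b) t ≠ 0) :
    Odd (∑ b, {t ∈ Ico (0 : ℝ) 1 | g b t = v}.ncard) := by
  have k := fun b : Bool => (Qab60.parity (g := fun t => g b t - v) (σ := if b then -ε else ε) one_pos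
    ((hc b).sub continuousOn_const) (sub_ne_zero.2 (by cases b; exacts [hn, h0 ▸ hn]))
    ((((hl b).sub_const v).const_mul _).eventually_const_lt (by
      obtain ⟨h1, h2⟩ := abs_lt.1 hv
      rcases hε with rfl | rfl <;> cases b <;> simp <;> linarith))
    fun t ht e => let k := hs b t ht (sub_eq_zero.1 e)
      ⟨k.1.sub_const v, by rw [deriv_sub_const]; exact k.2⟩).2
  have k0 := k false
  have k1 := k true
  simp only [sub_eq_zero, h0, Bool.false_eq_true, ↓reduceIte] at k0 k1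
  rw [Fintype.sum_bool, ← Nat.not_even_iff_odd]
  intro e
  have := mul_pos k1 k0
  rw [mul_mul_mul_comm, ← pow_add, e.neg_one_pow] at this
  nlinarith [mul_self_nonneg (ε * (g false 0 - v))]

/-- the cosine of a function with a simple level -/
theorem cos_simple {h : ℝ → ℝ} {t : ℝ} (hd : deriv h t ≠ 0) (hv : |Real.cos (2 * π * h t)| < 1) :
    DifferentiableAt ℝ (fun t => Real.cos (2 * π * h t)) t ∧
      deriv (fun t => Real.cos (2 * π * h t)) t ≠ 0 := by
  have k := (((differentiableAt_of_deriv_ne_zero hd).hasDerivAt).const_mul (2 * π)).cos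
  refine ⟨k.differentiableAt, k.deriv ▸ mul_ne_zero (neg_ne_zero.2 fun e => ?_)
    (mul_ne_zero Real.two_pi_pos.ne' hd)⟩
  have := Real.sin_sq_add_cos_sq (2 * π * h t)
  rw [e, ← sq_abs (Real.cos _)] at this
  nlinarith [abs_nonneg (Real.cos (2 * π * h t))]

end Crest.Agent.X212.Tm38.Pq
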