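import Crest.Agent.X212.Rf65.Pl
import Crest.Agent.X212.Wrd81.Loc2
import Crest.Agent.X212.Sep15.Nst
import Crest.Agent.X212.Mp86.St

/-!
# Row 212, RF-Q (helper38): equivalence on a part, change of the dead coordinates, the two sides
-/

set_option autoImplicit false
set_option linter.unusedSectionVars false
noncomputable section
open scoped Manifold ContDiff Topology
open MeasureTheory Set Function Filter

namespace Crest.Agent.X212.Tm38.Pq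
open An An.Job M Nd18 Rf65 Eqv71 Wrd81
open Mp86.St (hp_some piece_hp eq_hp hp_mem)

variable {Wi : Type} {X : Mf 4} {A κ lam : Type} [Fintype A] [Fintype κ] [Fintype lam]
  [DecidableEq lam] {M : Mark X A κ} {W : World M} {N : ML M lam} {Λ : Lns W N}
  {A' h : Type} [Fintype A'] [DecidableEq A'] [Fintype h] {r n : ℕ}
  {J : Job Wi Λ A' h r n} {c : M.Cl} {p : Prt A A' h} {σ : Cel A'} {q q' q'' : Wi →₀ ℝ}
  {y y' y'' : J.Obc c} {R : A}

section part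
variable (hJ : J.OK) (hσ : σ ∈ J.𝒦) (hp : J.POK σ c p) (a : SolOn p σ q y)
include hJ hσ hp a

theorem eqp_refl : EqP p y y :=
  ⟨fun _ _ => rfl, _, _, ceq_refl (Λ.B_ok _ _) (hJ.G_ok hσ a.ov) (ad0 a.adm) (isClopen_un hp.pc).2,
    fun _ _ => Cnt93.eqv_refl a.adm.ok _⟩

/-- the same solution at another parameter -/
theorem move {t : A' → ℝ} (ht : t ∈ cl σ) (hi : Sys.inf (J.Θ t).2 = c.1)
    (hV : ∀ i ∈ p.V, y.s i = t i) :
    ∃ z : J.Obc c, z.s = t ∧ SolOn p σ q z ∧ EqP p z y ∧ z.β = y.β := by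
  have o : J.Ov σ c t := ⟨J.cl_dom ht, hi⟩
  have hO := isClopen_un (W := W) hp.pc
  obtain ⟨V, h1, h2⟩ := exists_ad0 (Λ.B_ok _ _) (hJ.G_ok hσ o) (hp.agr hJ hσ a.ov o hV) hO (ad0 a.adm)
  have e := ceq_refl (Λ.B_ok _ _) (hJ.G_ok hσ o) h1 hO.2
  have e' : CEq (J.G c t).F ⟨y.x.m, V, y.x.Φ, y.x.z⟩ y.x _ id _ _ y.x.m.p 1 :=
    ⟨e.m, fun x hx b => by simpa only [id, h2 _ x hx] using e.W x hx b, e.Φ, e.z⟩
  have f := fun i (_ : i ∈ p.H) => Cnt93.eqv_refl (k := J.cut c i) a.adm.ok (y.ψ i)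
  exact ⟨_, rfl, a.re2 hJ hσ hp ht hi hV h1 a.off e' f, ⟨fun i hi => (hV i hi).symm, _, _, e', f⟩, rfl⟩

variable (a' : SolOn p σ q' y') (e : EqP p y y')
include a' e

theorem eqp_lm : ∃ u, LM (J.B c) (J.G c y.s) (J.B c) (J.G c y'.s) (W.un c p.P) id
    (fun x b a => (J.B c).P b a x) (J.B c).l y.x.W y'.x.W u :=
  let ⟨e, _, _, f, _⟩ := e
  ⟨_, (hp.kt2 hJ hσ a.ov a'.ov e).toLG.of_ceq (ad0 a.adm) (ad0 a'.adm) f⟩

theorem eqp_symm : EqP p y' y :=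
  let ⟨e, _, _, f, k⟩ := e
  have g := (hp.kt2 hJ hσ a.ov a'.ov e).toLG
  ⟨fun i hi => (e i hi).symm, _, _, ceq_symm2 g (isClopen_un hp.pc).2 (ad0 a.adm) (ad0 a'.adm) f,
    fun i hi => Cnt93.eqv_symm (ψ := id) (g.of_ceq (ad0 a.adm) (ad0 a'.adm) f)
      (Cnt93.rel_refl g.hB (hJ.cut_sub (hp.nb i hi))) rfl (k i hi)⟩

theorem eqp_trans (a'' : SolOn p σ q'' y'') (e' : EqP p y' y'') : EqP p y y'' := by
  obtain ⟨e, u, ζ, f, k⟩ := e
  obtain ⟨e', u', ζ', f', k'⟩ := e'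
  have g := (hp.kt2 hJ hσ a.ov a'.ov e).toLG
  have := ceq_trans g (hp.kt2 hJ hσ a'.ov a''.ov e').toLG (mapsTo_id _) (ad0 a.adm) (ad0 a'.adm)
    (ad0 a''.adm) f f'
  have h1 : (fun x d a => ∑ b, (J.B c).P d b (id x) * (J.B c).P b a x) = fun x b a => (J.B c).P b a x :=
    funext fun y => funext₂ fun a b => (g.hB.pr y).idem a b
  have h2 : (fun x => (J.B c).l (id x) ∘L (J.B c).l x) = (J.B c).l := funext g.hB.lidem
  rw [h1, h2] at this
  exact ⟨fun i hi => (e i hi).trans (e' i hi), _, _, this, fun i hi => Cnt93.eqv_trans (φ := id) rfl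
    (f'.m.J _ (hJ.cut_sub (hp.nb i hi) ⟨(0, 0), rfl⟩)) a''.adm.ok.Jsq (k i hi) (k' i hi)⟩

theorem eqp_kap : y.kap (W.un c p.P) = y'.kap (W.un c p.P) := by
  obtain ⟨u, l⟩ := eqp_lm hJ hσ hp a a' e
  rw [Obc.kap, Obc.kap, hp.μ_eq hJ hσ a.ov a'.ov e.1]
  exact setIntegral_congr_fun (isClopen_un hp.pc).2.measurableSet fun z hz => (l.kd hz).symm

theorem eqp_lim {x : A} {b : Bool} (hx : x ∈ cylW c) (hb : p.En x b) :
    (J.xs x).D.Eqv (y.β x b) (y'.β x b) := by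
  obtain ⟨e, u, ζ, f, k⟩ := e
  have ha : Act J.m c x (some b) (J.Θ y.s) := ⟨hx.2, hJ.memBr hσ a.ov, hJ.memO hσ a.ov, hx.1⟩
  have ad : ∀ {q} {y : J.Obc c}, SolOn p σ q y → (J.xs x).D.Adm (y.β x b) := fun a =>
    ⟨(a.crit x hx b hb).sol.toAdm, (a.crit x hx b hb).tmp⟩
  have l := (a'.re2 hJ hσ hp a.cell a.inf (fun i hi => (e i hi).symm) (ad0 a.adm) a.off f k).lim x b ha hb
  have : (bif b then atBot else atTop : Filter ℝ).NeBot := by cases b <;> simp <;> infer_instance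
  obtain ⟨g, s⟩ := Sep15.Trf.lim_uniq (ad a) (ad a') (ad0 a.adm)
    (by cases b; exacts [Bki64.isEnd_top, Bki64.isEnd_bot]) (a.lim x b ha hb) l
  exact s.eqv (hJ.xs x).1.yd (ad a) (ad a')

end part

theorem eqp_equiv (hJ : J.OK) (hσ : σ ∈ J.𝒦) (hp : J.POK σ c p) {α : Type} {f : α → J.Obc c}
    (a : ∀ i, SolOn p σ q (f i)) : Equivalence fun i j => EqP p (f i) (f j) :=
  ⟨fun i => eqp_refl hJ hσ hp (a i), fun e => eqp_symm hJ hσ hp (a _) (a _) e,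
    fun e e' => eqp_trans hJ hσ hp (a _) (a _) e (a _) e'⟩

theorem eqp_iso (hP : ∀ π ∈ p.P, M.sys.Piece c.1 π) (hH : ∀ i ∈ p.H, J.nb i ⊆ ⋃ π ∈ p.P, M.sys.U π)
    (e : Iso y y') : EqP p y y' :=
  let ⟨e, u, ζ, f, k⟩ := e
  ⟨fun i _ => congrFun e i, u, ζ, ceq_mono f (subset_univ _), fun i hi => k ⟨i, unc_of hP (hH i hi)⟩⟩

/-! ### the two sides -/

theorem U_hp (b : Bool) : M.sys.U (hp R b) = (M.sys.w R).sd b :=
  Set.ext fun _ => ⟨fun k => k R b (hp_some.2 ⟨rfl, rfl⟩),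
    fun k _ _ e => by obtain ⟨rfl, rfl⟩ := hp_some.1 e; exact k⟩

variable (hc : c.1 = {R})
include hc

theorem un_out : W.un c {hp R true} = (W.pc c (hp R false))ᶜ := by
  rw [un_one]
  refine Subset.antisymm (Cyl58.disjoint_pc _ (hp_mem hc _) (hp_mem hc _) fun e => by
    simpa [hp] using congrFun e R).subset_compl_right fun z hz => ?_
  obtain ⟨π, h1, h2⟩ := Cyl58.exists_pc W.toCaps z
  rcases eq_hp (hc ▸ h1) with rfl | rfl
  exacts [h2, (hz h2).elim]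

theorem unc_side {i : h} (hi : i ∈ J.unc c) (k : IsPreconnected (J.nb i)) :
    J.nb i ⊆ M.sys.U (hp R true) ∨ J.nb i ⊆ M.sys.U (hp R false) := by
  have d : Disjoint (J.nb i) (M.sys.w R).core := by simpa [unc, hc, Sys.cores] using hi
  simp only [U_hp]
  rcases (J.nb i).eq_empty_or_nonempty with e | ⟨x, hx⟩
  · simp [e]
  rcases (M.sys.w R).mem_cases true x with h1 | h1 | h1
  exacts [.inl (Wall.subset_sd _ k d hx h1), (disjoint_left.1 d hx h1).elim,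
    .inr (Wall.subset_sd _ k d hx h1)]

end Crest.Agent.X212.Tm38.Pq
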