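import Crest.Agent.X212.Tm38.Pq0
import Crest.Agent.X212.Tm38.Pq1
import Crest.Agent.X212.Qab60.Lq
import Crest.Agent.X212.Lns95.Sw
import Crest.Agent.X212.Kl48.Job

/-!
# Row 212, RF-Q (helper38): restriction, filling, uniqueness and the count on a job
-/

set_option autoImplicit false
set_option linter.unusedSectionVars false
noncomputable section
open scoped Manifold ContDiff Topology Real
open MeasureTheory Set Function Filter

namespace Crest.Agent.X212.Tm38.Pq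
open An An.Job M Nd18 Rf65 Eqv71 Qab60
open Mp86.St (hp_some hp_mem)
open Tmp64 (admOn_univ)
open Rdc90 (Bs)

variable {Wi : Type} {X : Mf 4} {A κ lam : Type} [Fintype A] [Fintype κ] [Fintype lam]
  [DecidableEq lam] {M : Mark X A κ} {W : World M} {N : ML M lam} {Λ : Lns W N}
  {A' h : Type} [Fintype A'] [DecidableEq A'] [Fintype h] {r n : ℕ}
  {J : Job Wi Λ A' h r n} {c : M.Cl} {σ : Cel A'} {q : Wi →₀ ℝ} {y y' : J.Obc c} {R : A} {V : Set A'}
  {P : HD J c R} {Adm : (Wi →₀ ℝ) → Prop} {e : Bool → A'} {k : ℝ} {m : P.𝒩} {s : A' → ℝ}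

theorem cH_Rh {B : Base X.M κ lam} {G G' : Geo X.I X.M κ lam} {m m' : Md X.M κ lam} {V : m.Cn}
    {V' : m'.Cn} {O U v u} {k : Cut X.M lam} (g : LM B G B G' O id U v V V' u) (R : k.Rel k O id v)
    (η : Circle) (a : k.H B m) :
    Hol14.cH m' B k (csE m'.J η) (Cnt93.Rh k k B B u 1 a) = Cnt93.Rh k k B B u η a := by
  have := Cnt93.coe_Rh g R 1 a
  rw [show csE m'.J (1 : Circle) = 1 from csL_one _] at this
  simp only [Hol14.rH, ContinuousLinearMap.comp_apply, Submodule.subtypeL_apply, this, Hol14.cL_cL]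
  rfl

variable (J R V) in
/-- the outer part with the live coordinates `V` -/
abbrev po : Prt A A' h := ⟨{hp R true}, {hp R true}, V, J.cs {hp R true} univ⟩

theorem ai_of (hσ : σ ∈ J.𝒦) (H : Sol σ q y) {ξ} (a : Ab (J.B c) (J.G c y.s) (oI W c R) y.x ξ)
    (l : y.kap (oI W c R) = k) : AI J c R q y.s y.x k ξ :=
  ⟨⟨σ, hσ, H.cell, H.inf⟩, a, fun z _ => H.sol.C z, H.int.integrableOn, l⟩

theorem cos_lt (hP : P.OK Adm e k) {β} (b : Bs (J.xs R).D β) (d : dz (J.xs R).D β = 1) :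
    |Real.cos (2 * π * P.hl β)| < 1 := by
  have := J.conn_xs R
  obtain ⟨y⟩ : Nonempty (J.xs R).Y.M := inferInstance
  have z : ¬(P.hl β = 0 ∨ P.hl β = 1 / 2) := fun z =>
    absurd (d.symm.trans (Clr59.dz_cen b.ok b.adm y (hP.clr.cen b z y))) (by decide)
  have i := fun {a} ha => Clr59.cos_inj (hP.clr.mem β) (b := a) ha
  exact abs_lt.2 ⟨(Real.neg_one_le_cos _).lt_of_ne fun e => z (.inr (i ⟨by norm_num, le_rfl⟩ (by
    rw [← e, show 2 * π * (1 / 2) = π by ring, Real.cos_pi]))),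
    (Real.cos_le_one _).lt_of_ne fun e => z (.inl (i ⟨le_rfl, by norm_num⟩ (by simp [e])))⟩

theorem edge (hP : P.OK Adm e k) (hq : Adm q) (o : Ovc J c σ s) {b : Bool} (f : σ (e b) = none) :
    ContinuousOn (fun t => P.H m q (update s (e b) t)) (Ico 0 1) := by
  obtain ⟨U, Φ, -, h1, h2⟩ := hP.sm m q.support (fun t => update s (e b) (t ^ 2))
    ((contDiff_update ∞ s (e b)).comp (contDiff_id.pow 2)) fun t ht =>
      ⟨σ, hP.line σ s b o f _ ⟨sq_nonneg t, (sq_lt_one_iff_abs_lt_one t).2 (abs_lt.2 ht)⟩⟩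
  obtain ⟨h3, h4⟩ := h2 q hq subset_rfl
  have i : ∀ t ∈ Ico (0 : ℝ) 1, √t ∈ Ioo (-1 : ℝ) 1 := fun t ht =>
    ⟨neg_one_lt_zero.trans_le t.sqrt_nonneg, (Real.sqrt_lt' one_pos).2 (by simpa using ht.2)⟩
  exact (h1.continuousOn.comp (f := fun t : ℝ => (fun w : q.support => q w, √t)) (by fun_prop)
    fun t ht => mk_mem_prod h3 (i t ht)).congr fun t ht => by
      rw [comp_apply, h4 _ (i t ht), Real.sq_sqrt ht.1]

variable (J c R) in
/-- faces with one broken wall -/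
structure Cx : Prop where
  ok : J.OK
  c1 : c.1 = {R}
  np : ¬M.pin R
  nb : ∀ i, IsPreconnected (J.nb i)
  bs : ∀ β, (J.xs R).N.Crit (J.xs R).D β → Bs (J.xs R).D β

namespace Cx
variable (C : Cx J c R)
include C

theorem cw : R ∈ cylW c := ⟨C.c1.ge rfl, C.np⟩

theorem pc (b : Bool) : ∀ ρ ∈ ({hp R b} : Set (Reg A)), M.sys.Piece c.1 ρ :=
  fun _ k => k ▸ hp_mem C.c1 b

theorem out (H : Sol σ q y) (t : y.Tight) (nf : ¬y.TF (hp R false)) : SolOn (po J R V) σ q y :=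
  ⟨H.cell, H.inf, H.sol.toAdm, fun _ hx => Obc.zero nf (by_contra fun k => hx ((un_out C.c1).ge k)),
    fun x _ => H.sol.D x, fun x _ => H.sol.C x, H.sol.S,
    fun l hl => H.cut l (H.H_eq t.1 ▸ unc_of (C.pc true) hl.2),
    fun a b ha _ => H.lim a b ha, fun a ha b _ => H.crit a ha b, H.int.integrableOn⟩

theorem kap (H : Sol σ q y) (t : y.Tight) :
    y.kap (oI W c R) + y.kap (W.un c {hp R true}) = J.k := by
  rw [← H.lev, t.1, Finset.sum_eq_zero fun a _ => indicator_apply_eq_zero.2 fun ha =>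
    (Kl48.brk0 (H.brk a ha) (t.2 a ha)).2, un_out C.c1, Nat.cast_zero, add_zero, add_zero]
  exact integral_add_compl (Cyl58.isOpen_pc W.toCaps (hp_mem C.c1 false)).measurableSet H.int

variable (hP : P.OK Adm e k) (hq : Adm q) (hσ : σ ∈ J.𝒦)
include hP hq hσ

theorem cos_eq (H : Sol σ q y) (t : y.Tight) {ξ} (a : AI J c R q y.s y.x k ξ) (l : P.Cl y.s y.x ξ m) :
    Real.cos (2 * π * P.hl (y.β R true)) = Real.cos (2 * π * P.H m q y.s) :=
  (Kl48.brk0 (H.brk R C.cw) (t.2 R C.cw)).1 ▸ (hP.lim q _ _ ξ m hq a l (H.act C.ok hσ C.cw false) _ _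
    (C.bs _ (H.crit R C.cw false))).1 (H.lim R false _)

/-- **uniqueness of the filling** -/
theorem iso (H : Sol σ q y) (H' : Sol σ q y') (t : y.Tight) (t' : y'.Tight) (es : y.s = y'.s) {ξ ξ'}
    (a : AI J c R q y.s y.x k ξ) (a' : AI J c R q y'.s y'.x k ξ') (l : P.Cl y.s y.x ξ m)
    (l' : P.Cl y'.s y'.x ξ' m) (L : ∀ l, Inn J R l → Line J c q y'.s y'.x l)
    (f : EqP (po J R V) y y') : Iso y y' := by
  classical
  obtain ⟨_, x, _, ψ, β, ζ, _, j, _⟩ := y'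
  obtain rfl : y.s = _ := es
  obtain ⟨-, u', ζ', f, g⟩ := f
  obtain ⟨u, pu, -⟩ := hP.uq q y.s y.x ξ x ξ' m hq a a' l l'
  have b := ad0 a.ab.adm
  have b' := ad0 a'.ab.adm
  have G := (C.ok.kt hσ H.ov isClopen_univ).toLG
  have E := Lns95.ceq_glue G.hB hP.cl b b' a.ab.z a'.ab.z pu (un_out (W := W) C.c1 ▸ f)
  refine ⟨rfl, _, _, E, fun ⟨i, hi⟩ => ?_⟩
  rcases unc_side C.c1 hi (C.nb i) with o | o
  · have o' : J.nb i ⊆ ⋃ ρ ∈ ({hp R true} : Set (Reg A)), M.sys.U ρ := by rwa [biUnion_singleton]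
    exact (g i ⟨trivial, o'⟩).imp fun _ k => (piecewise_eq_of_notMem _ u u'
      ((un_out C.c1).le (C.ok.cut_sub o' ⟨(0, 0), rfl⟩))).symm ▸ k
  have lm := G.of_ceq b b' E
  have rl := Cnt93.rel_refl (k := J.cut c i) G.hB (subset_univ _)
  have ok := C.ok.ct σ hσ _ H.ov.1 c H.inf i hi
  obtain ⟨η, z⟩ := L i o _ _ ((PcRel0.sol (C.ok.σc_nat hσ H.ov isClopen_univ hi (subset_univ _) q) G ok ok
    rl (cr0_univ b b' E) ((Cnt93.eqv_iff lm rl).2 ⟨1, rfl⟩)).2 (H.cut i (H.H_eq t.1 ▸ hi)))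
    (H'.cut i (H'.H_eq t'.1 ▸ hi))
  exact (Cnt93.eqv_iff lm rl).2 ⟨η, z.trans (cH_Rh lm rl η _)⟩

/-- **filling** -/
theorem fill (hK : KexL J c) (hp' : J.POK σ c (po J R V)) (a : SolOn (po J R V) σ q y)
    (lev : y.kap (W.un c {hp R true}) = J.k - k)
    (ec : Real.cos (2 * π * P.hl (y.β R true)) = Real.cos (2 * π * P.H P.g q y.s)) :
    ∃ z : J.Obc c, Sol σ q z ∧ z.Tight ∧ z.s = y.s ∧ EqP (po J R V) z y := by
  have hO := un_out (W := W) C.c1
  have ad := fun {x : Cg' W c lam r} (a : x.Adm (J.B c) (J.G c y.s)) =>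
    (admOn_univ.2 a).mono (subset_univ (oI W c R)ᶜ)
  obtain ⟨x, ξ, u, a', cl, E, hD⟩ := hP.ex q y.s y.x hq ⟨σ, hσ, a.cell, a.inf⟩ (ad a.adm)
  have G := (C.ok.kt hσ a.ov (isClopen_un hp'.pc)).toLG
  have b := ad0 a.adm
  have b' := ad0 a'.ab.adm
  have f := ceq_symm_id G.hB G.hG hP.cl.compl.isOpen b b' (E.cEq G.hB (ad a.adm) (ad a'.ab.adm))
  rw [← hO] at f
  have kψ : ∀ l, ∃ ψ : (J.cut c l).H (J.B c) x.m, (l ∈ (po J R V).H →
      (J.cut c l).Eqv (J.cut c l) (J.B c) (J.B c) (fun z => trn (u z)) ψ (y.ψ l)) ∧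
      (l ∉ (po J R V).H → l ∈ J.unc c → Row J c q y.s x l ψ) := fun l => by
    by_cases hl : l ∈ (po J R V).H
    · have rl := Cnt93.rel_refl G.hB (C.ok.cut_sub (c := c) hl.2)
      have lm := G.of_ceq b b' (hO ▸ E.cEq G.hB (ad a.adm) (ad a'.ab.adm))
      exact ⟨_, fun _ => Cnt93.eqv_symm (ψ := id) lm rl rfl ((Cnt93.eqv_iff lm rl).2 ⟨1, rfl⟩),
        fun k => (k hl).elim⟩
    by_cases hu : l ∈ J.unc c
    swap
    · exact ⟨0, fun k => (hl k).elim, fun _ k => (hu k).elim⟩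
    have i : Inn J R l := (unc_side C.c1 hu (C.nb l)).resolve_left fun k =>
      hl ⟨trivial, by rwa [biUnion_singleton]⟩
    exact (hK C.ok σ _ ⟨hσ, a.cell, a.inf⟩ _ x ξ hP.cl a'.ab l hu ((C.ok.cut_sub (by
      rwa [biUnion_singleton])).trans (un_one W.toCaps c _).le) ((hP.flx q _ x ξ hq a').2.2 (.inl cl) l i) q).imp
      fun _ k => ⟨fun k => (hl k).elim, fun _ _ => k⟩
  choose ψ h1 h2 using kψ
  have S := a.re C.ok hσ hp' b' (fun z hz => a'.ab.z z (by_contra fun k => hz (hO.ge k))) f h1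
  have en : (po J R V).En R true := ⟨_, rfl, hp_some.2 ⟨rfl, rfl⟩⟩
  have cr := a.crit R C.cw true en
  have i : IntegrableOn (x.m.kd (J.B c) (J.G c y.s).F x.W) (oI W c R)ᶜ (J.G c y.s).F.μ := hO ▸ S.int
  have i' := integrableOn_univ.1 (union_compl_self (oI W c R) ▸ a'.int.union i)
  refine ⟨⟨y.s, x, J.unc c, ψ, fun a _ => y.β a true, fun a _ => y.ζ a true * 1⁻¹, 0, 0, 0⟩,
    ⟨a.cell, a.inf, ⟨a'.ab.adm, fun z => (em _).elim (hD z) fun k => S.D z (hO.ge k),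
      fun z => (em _).elim (a'.C z) fun k => S.C z (hO.ge k), S.S⟩, subset_rfl,
      fun l hl => (em _).elim (S.cut l) (h2 l · hl), by simp, fun d b ha => ?_, fun d ha b => ?_,
      fun _ _ => .nil _ _, i', ?_⟩, ⟨rfl, fun _ _ => rfl⟩, rfl, fun _ _ => rfl, _, _, f, h1⟩
  · obtain rfl : R = d := (C.c1.le ha.2.2.2).symm
    cases b
    exacts [(hP.lim q _ x ξ _ hq a' cl ha _ _ (C.bs _ cr)).2 ec, S.lim R true ha en]
  · obtain rfl : R = d := (C.c1.le ha.1).symm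
    exact cr
  · have k1 := (eqp_kap C.ok hσ hp' S a ⟨fun _ _ => rfl, _, _, f, h1⟩).trans lev
    have k2 := integral_add_compl hP.cl.isOpen.measurableSet i'
    rw [a'.lev, ← hO] at k2
    simp only [Pi.zero_def, indicator_zero, Finset.sum_const_zero, Nat.cast_zero, add_zero]
    exact k2.symm.trans ((congrArg (k + ·) k1).trans (add_sub_cancel _ _))

end Cx
end Crest.Agent.X212.Tm38.Pq
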