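import Crest.Agent.X212.Tm38.Qt
import Crest.Agent.X212.Clc51.Main
import Crest.Agent.X212.Ksc68.Main
import Crest.Agent.X212.Kg34.Main
import Crest.Agent.X212.Sw21.KxA
import Crest.Agent.X212.Wl34.On

/-! Row 212, RF-Q (helper38): `Rf65.QStmt` for `TA = Nr41.TA`. -/

set_option autoImplicit false

namespace Crest.Agent.X212.Tm38.Qt

/-- **RF-Q** -/
theorem qStmt {κ lam : Type} [Fintype κ] [Fintype lam] [DecidableEq lam] (Lm : G75.LM κ lam)
    (tk : Nr41.HTak Lm) : Rf65.QStmt Lm (Nr41.TA Lm) :=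
  q_of Lm (hiK Lm tk) (Pq.parStmt Lm fun D => Wl34.wl D) fun J c =>
    ⟨Clc51.clc J c, Ksc68.ksc J c, Sw21.kex J c, Kg34.kgen J c,
      fun _ _ _ _ _ H => Pat85.outL (Wl34.cclOn H.ok H.pj H.mem) H⟩

end Crest.Agent.X212.Tm38.Qt
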