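import Crest.Agent.X212.Tm38.W

/-!
# Row 212, layer G (helper38): the numbers of a terminal chain in charge form (pure data)

The broken walls are `B` and the frozen slice `a`; `η` names a piece of `insert a B`.
-/

set_option autoImplicit false
noncomputable section

namespace Crest.Agent.X212.Tm38

open Crest.Agent.X212.Rod53 Crest.Agent.X212.Wd38 Crest.Agent.X212.Nm96 Finset

variable {Γ : Nm}

namespace TD
variable (P : Pm Γ) (Y : Ref Γ) (N R : ℕ) (F : Fm Γ) (T : TD) (n : Wt) (σ B : Finset Bs)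

/-- the frozen `Y₀` -/
abbrev a : Bs := .yS (Y.a + T.d)

/-- the coupling slices -/
def G : Finset Bs := (range N).image fun i => .yS (T.t (i + 1))

/-- the couplings in the piece -/
def nc (η : Bs → Bool) : ℕ := #{x ∈ T.G N | Adj (insert (T.a Y) B) η x}

open Classical in
/-- the reserve of the right cap -/
def cM (η : Bs → Bool) : ℝ := if F.Lst B η then P.M else 0

/-- left pieces that are not first -/
def BL (η : Bs → Bool) (g : ℝ) : Prop :=
  (¬Adj (insert (T.a Y) B) η (T.a Y) → F.BdM n σ B η g) ∧ (Adj (insert (T.a Y) B) η (T.a Y) →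
    g ≤ ssum F.w B η (F.w.l - 1) (Y.a + T.d) al n + Y.hd al Y.a + Fm.nm σ (insert (T.a Y) B) η / 4 + Y.C + 3 / 2)

/-- right pieces -/
def BR (η : Bs → Bool) (g : ℝ) : Prop :=
  (¬Adj (insert (T.a Y) B) η (T.a Y) → ¬F.Lst B η ∧ F.BdM n σ B η g ∨ F.Lst B η ∧ F.BdL P n σ B η g) ∧
    (Adj (insert (T.a Y) B) η (T.a Y) → g - cM P F B η ≤ ssum F.w B η (Y.h + T.d) (F.w.r + 1) al n - Y.hd al Y.h +
      Fm.nm σ (insert (T.a Y) B) η / 4 - F.nh (insert (T.a Y) B) η / 2 + 2 - Y.C)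

/-- right pieces that are fixed by the circle -/
def BS (η : Bs → Bool) (g : ℝ) : Prop := T.BR P Y F n σ B η g ∧ ∀ n', TOK F.w n' → Par F.w n n' →
  g - cM P F B η ≤ -3 / 2 * ssum F.w B η (Y.h + T.d) (Y.b + T.e) lq n' +
    ssum F.w B η (Y.h + T.d) (F.w.r + 1) om n + Fm.nm σ (insert (T.a Y) B) η - 2 * F.nh (insert (T.a Y) B) η +
      if Adj (insert (T.a Y) B) η (T.a Y) then 4 - Y.hd om Y.h else 1

/-- **the numbers in charge form** -/
structure Raw : Prop where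
  nl : ∃ (ch : Bs → Bool → ℝ) (gL : ℝ),
    3 < gL + ch (T.a Y) false + ∑ x ∈ B with x.hi < Y.a + T.d, (ch x true + ch x false) ∧
    ∀ η, η (T.a Y) = false → (∃ x ∈ insert (T.a Y) B, Adj (insert (T.a Y) B) η x) →
      F.chg (insert (T.a Y) B) η ch gL 0 ≤ 4 ∧
      (F.Fst (insert (T.a Y) B) η ∨ T.BL Y F n σ B η (F.chg (insert (T.a Y) B) η ch gL 0))
  nr : ∃ (ch : Bs → Bool → ℝ) (gR : ℝ),
    3 < gR + ch (T.a Y) true + ∑ x ∈ B with Y.a + T.d < x.lo, (ch x true + ch x false) - 2 * F.nd B ∧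
    ∀ η, η (T.a Y) = true → (∃ x ∈ insert (T.a Y) B, Adj (insert (T.a Y) B) η x) →
      F.chg (insert (T.a Y) B) η ch 0 gR ≤ 4 ∧ T.BR P Y F n σ B η (F.chg (insert (T.a Y) B) η ch 0 gR)
  ns : ∃ (ch : Bs → Bool → ℝ) (gR : ℝ),
    R + 4 < gR + ch (T.a Y) true + ∑ x ∈ B with Y.a + T.d < x.lo, (ch x true + ch x false) + 2 * N - 2 * F.nd B ∧
    ∀ η, η (T.a Y) = true → (∃ x ∈ insert (T.a Y) B, Adj (insert (T.a Y) B) η x) →
      F.chg (insert (T.a Y) B) η ch 0 gR ≤ 4 ∧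
      T.BS P Y F n σ B η (F.chg (insert (T.a Y) B) η ch 0 gR + 2 * T.nc Y N B η)

end TD

/-- TM-WIN: windows give charges -/
def WinStmt (P : Pm Γ) : Prop := ∀ Y : Ref Γ, Y.OK P → ∃ K : ℕ, ∀ R F d c (T : TD), T.OK P Y (R + K) F c →
  F.Cl P d c → ∀ p ∈ c.support, ∀ B ⊆ p.2.image Wl.b, (∀ x ∈ B, x.pin) →
    T.Raw P Y (R + K) R F p.1 (p.2.image Wl.b) B

end Crest.Agent.X212.Tm38
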