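import Crest.Agent.X212.Trq48.Ob
import Crest.Agent.X212.Mp86.Uq

/-!
# Row 212, RFQ-TRQ (helper38): from the scene to the standing hypotheses `Trq48.Cq`
-/

set_option autoImplicit false
set_option linter.unusedSectionVars false
noncomputable section
open Set Function Filter

namespace Crest.Agent.X212.Tm38.Tq
open An M Nd18 Rf65 Qab60 G75 Ins26 Trq48 Mp86.Uq

variable {κ lam : Type} [Fintype κ] [Fintype lam] [DecidableEq lam] {Lm : LM κ lam}

section
variable {S : Scene Lm} {D : S.Dat} {i : S.L} {Wi : Type} {r n : ℕ}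
  {J : Job Wi (D.Λ i) (S.A ⊕ Unit) S.ls r n} {c : S.M.Cl} {R : S.A} {e : Bool → S.A}
  {z j : ℕ} {n₀ : ℤ} {T δ : ℝ} {Adm : (Wi →₀ ℝ) → Prop} {σ : Cel (S.A ⊕ Unit)} {P : HD J c R}

theorem cq (G : JR J R {e false, e true} 1 z j n₀ T) (c1 : c.1 = {R})
    (O : P.OK Adm (fun b => .inl (e b)) (z / 4)) (out : OutL J c δ (shX S {R}) σ Adm n₀)
    (H : H1R J c δ σ Adm R {e false, e true} 1 z n₀) (ne : ∃ s, Ovc J c σ s) :
    Cq P δ (z / 4) (shX S {R}) σ Adm n₀ fun b => .inl (e b) := by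
  have he : ∀ b, e b ∈ ({e false, e true} : Finset _) := fun b => by cases b <;> simp
  obtain ⟨s, o⟩ := ne
  obtain ⟨τ, u, σ', rfl, h1, h2, -, h3, -⟩ := G.gx.cell σ o.1
  have m : ∀ {a}, cel τ u (.inl a) = none → a ∈ τ := fun {a} k => by_contra fun n => by
    simp [cel, n] at k
  have mR : R ∈ τ := by_contra fun n => by
    simpa [s_R G c1 o, b01] using o.2.1.1 (.inl R) false (if_neg n)
  have hR := hd_of G c1 (a := R) (.inr (.inr (Finset.mem_singleton_self R)))
  refine ⟨H.toH1, O, c1, G.ri.rw.choose_spec.choose_spec.np, fun a => G.gx.nil a (by simp), ⟨s, o⟩,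
    fun b b' k k' => congrArg _ ((free G c1 o (he b') k').1 _ (he b) k),
    fun b => (em (e b ∈ τ)).imp (fun k => if_pos k) fun k => if_neg k,
    fun s b o => s_lt G c1 o (he b), ?_, fun q y a s f => out H.toH1 q y R a s f,
    fun q y a s f ok => ?_⟩
  · rintro (a | _) t
    · by_cases aR : a = R
      · exact .inr (.inr (aR ▸ hR))
      have hd := hd_of G c1 (h3 (m t))
      rcases G.ri.out σ' h2 (h1 mR) a (h1 (m t)) with x | x | x
      · exact (aR x).elim
      · refine .inr (.inl ?_)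
        rcases Finset.mem_insert.1 x with x | x
        exacts [⟨false, congrArg _ x⟩, ⟨true, congrArg _ (Finset.mem_singleton.1 x)⟩]
      · refine .inl ⟨t, fun x e k => aR ((Option.some.inj (hd.symm.trans e)).trans (c1.le k)),
          .inr ⟨_, rfl, a, ⟨if_neg aR, U_hp.ge.trans' x, fun a' k => ?_⟩, hd⟩⟩
        obtain rfl : a' = R := by_contra fun n => k (if_neg n)
        exact (G.gx.sc.cell i σ' h2).1 (.inl (h1 (m t))) (.inl (h1 mR)) aR
    · exact nomatch (G.o _ o.1).symm.trans t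
  · obtain ⟨-, k1, k2⟩ := H.qr q y R a s f.1 f.2.1 ok
    refine ⟨k1, fun ⟨b, k⟩ => ?_⟩
    rw [show ({a ∈ ({e false, e true} : Finset _) | cel τ u (.inl a) = none} : Finset _) = {e b} from
      Finset.eq_singleton_iff_unique_mem.2 ⟨Finset.mem_filter.2 ⟨he b, k⟩, fun a ha =>
        (free G c1 o (he b) k).1 a (Finset.mem_filter.1 ha).1 (Finset.mem_filter.1 ha).2⟩,
      Finset.card_singleton] at k2
    omega

end

variable (Lm) in
/-- **LEAF TRQ** from the job level -/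
theorem trq (h : ∀ {S : Scene Lm} {D : S.Dat} {i Wi r n} (J : Job Wi (D.Λ i) (S.A ⊕ Unit) S.ls r n)
    (c : S.M.Cl) (R : S.A) (P : HD J c R) δ k sh σ Adm n₀ e, Cq P δ k sh σ Adm n₀ e → Sep J →
      ClcL J c → KscL J c → KgenL J c → TrL J c δ sh σ Adm n₀ (P.Tr e σ)) : TrqStmt Lm :=
  fun _ _ _ _ _ _ J c R _ _ _ _ _ _ G c1 _ hc hk hg P _ _ σ O out H =>
    (em (∃ s, Ovc J c σ s)).elim (fun ne => h J c R P _ _ _ _ _ _ _ (cq G c1 O out H ne) G.sep hc hk hg)
      fun ne _ lw _ => ⟨_, lw, fun _ _ _ _ s _ => (ne ⟨_, H.mem, s.cell, s.inf⟩).elim⟩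

end Crest.Agent.X212.Tm38.Tq
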