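import Crest.Agent.X212.Trq48.Ob
import Crest.Agent.X212.Mp86.UqA
import Crest.Agent.X212.Tm38.TqA

/-!
# Row 212, RFQ-TRQ (helper38), stage B: the inner cuts
-/

set_option autoImplicit false
set_option linter.unusedSectionVars false
noncomputable section
open scoped Manifold ContDiff Topology Real
open Set Function Filter

namespace Crest.Agent.X212.Tm38.Tq
open An M Nd18 Rf65 Qab60 Mp86.St Eqv71 Trq48
open An.Job (Sol SolOn StrOn Str Obc)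

variable {Wi : Type} {X : Mf 4} {A κ lam : Type} [Fintype A] [Fintype κ] [Fintype lam]
  [DecidableEq lam] {M : Mark X A κ} {W : World M} {N : ML M lam} {Λ : Lns W N}
  {A' h : Type} [Fintype A'] [DecidableEq A'] [Fintype h] {r n : ℕ}
  {J : Job Wi Λ A' h r n} {c : M.Cl} {R : A} {P : HD J c R} {δ k : ℝ} {sh : Set A'} {σ : Cel A'}
  {Adm G : (Wi →₀ ℝ) → Prop} {n₀ : ℤ} {e : Bool → A'} {q q' q₀ : Wi →₀ ℝ} {y y' y₀ : J.Obc c}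
  {s : A' → ℝ} {m : P.𝒩} {l : h} {α : Type} {𝒰 : Ultrafilter α}

variable (J c R) in
/-- `Ceq` as a setoid -/
def eS : Setoid (J.Obc c) where
  r y y' := y = y' ∨ y.Ok ∧ y'.Ok ∧ Ceq R y y'
  iseqv := ⟨fun _ => .inl rfl, fun e => e.imp Eq.symm fun e => ⟨e.2.1, e.1, e.2.2.symm e.1 e.2.1⟩,
    fun e e' => by
      rcases e with rfl | e
      · exact e'
      rcases e' with rfl | e'
      exacts [.inr e, .inr ⟨e.1, e'.2.1, e.2.2.trans e'.2.2 e.1 e'.1 e'.2.1⟩]⟩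

theorem eS.ceq (g : eS J c R y y') (a : y.Ok) : Ceq R y y' := g.elim (· ▸ .refl a) (·.2.2)

theorem row_cg {x ψ} (g : J.σc c q s l = J.σc c q' s l) (a : Row J c q s x l ψ) : Row J c q' s x l ψ :=
  (congrArg (fun t => (J.cut c l).Sol (J.B c) (J.G c s).F t x ψ) g).mp a

theorem ceq_row (g : Ceq R y y') (hJ : J.OK) (o : Ovc J c σ y.s) (a : y.Ok) (a' : y'.Ok)
    (hl : l ∈ J.unc c) {ψ} (b : Row J c q y.s y.x l ψ) : ∃ ψ', Row J c q y'.s y'.x l ψ' := by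
  obtain ⟨s, x, _, ψ, β, ζ, _, j, m⟩ := y'
  obtain ⟨rfl, u, ξ, g, -⟩ := g
  obtain ⟨T, -, -, t, -⟩ := ex_mv hJ o hl a.1 a'.1 g
  exact ⟨_, (row_iff hJ o hl a.1 a'.1 g (t _)).2 b⟩

theorem tr_of (w : WO P k sh σ q y P.g) (t : Tv P σ e P.g q y.s)
    (L : ∀ l, Inn J R l → Line J c q y.s y.x l) : P.Tr e σ q y :=
  let ⟨b, f, p, d⟩ := t; let ⟨ξ, a, cl⟩ := w.ai; ⟨b, ξ, f, p, a.ab, cl, d, L⟩

variable (H : Cq P δ k sh σ Adm n₀ e)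
include H

/-- the same limit up to the inner cuts -/
theorem rep (a : Adm q) (hy : Sol σ q y) (f : FA J c σ n₀ y R) (hy' : Sol σ q y')
    (f' : FA J c σ n₀ y' R) (g : Ceq R y' y) {z : α → J.Obc c} {l : Filter α}
    (ev : ∀ᶠ i in l, ∃ q', Sol σ q' (z i)) (t : Str l z y') : ∃ ψ, Sol σ q { y with ψ := ψ } ∧
      Str l z { y with ψ := ψ } ∧ StrOn (pO J c sh σ R) l z y := by
  classical
  have b := ad0 hy.sol.toAdm
  have b' := ad0 hy'.sol.toAdm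
  have u := fun l => (H.yH a hy f).2.ge (mem_univ l)
  have k := fun l => hy'.cut l ((H.yH a hy' f').1.ge trivial)
  obtain ⟨_, x, _, ψ, β, ζ, _, j, m⟩ := y'
  obtain ⟨rfl : _ = y.s, v, η, E, g⟩ := g
  choose T _ _ h3 _ using fun l => ex_mv H.ok (ovc H.mem hy) (u l) b' b E
  obtain ⟨ψ', h1, h2⟩ : ∃ ψ' : ∀ l, (J.cut c l).H (J.B c) y.x.m, (∀ l, ¬Inn J R l → ψ' l = y.ψ l) ∧
      ∀ l, (J.cut c l).Eqv (J.cut c l) (J.B c) (J.B c) v (ψ l) (ψ' l) :=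
    ⟨fun l => if Inn J R l then T l (ψ l) else y.ψ l, fun _ k => if_neg k, fun l => by
      beta_reduce
      split_ifs with i
      exacts [h3 l _, g ⟨l, i⟩]⟩
  have s : Sol σ q { y with ψ := ψ' } := ⟨hy.cell, hy.inf, hy.sol, hy.sub,
    fun l _ => (row_iff H.ok (ovc H.mem hy) (u l) b' b E (h2 l)).2 (k l), hy.drop, hy.lim, hy.crit,
    hy.brk, hy.int, hy.lev⟩
  have t' := ((H.iso H.ok σ H.mem q _ hy').2 _ s f'.1.2.2.2.1 f.1.2.2.2.1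
    ⟨rfl, v, η, E, fun i => h2 i⟩).2.2.2 α l z ev t
  have o := H.son a s f t'
  obtain ⟨w, θ, o1, o2⟩ := o.lim
  exact ⟨ψ', s, t', o.s, ⟨w, θ, o1, fun i hi => h1 i (H.not_inn hi) ▸ o2 i hi⟩, o.tail⟩

/-- the class of nearby face objects -/
theorem cls (hc : ClcL J c) (h₀ : Sol σ q₀ y₀) {ξ₀} (A₀ : Ab (J.B c) (J.G c y₀.s) (oI W c R) y₀.x ξ₀)
    (c₀ : P.Cl y₀.s y₀.x ξ₀ m) {q : α → Wi →₀ ℝ} {y : α → J.Obc c}
    (d : ∀ᶠ i in (𝒰 : Filter α), Adm (q i) ∧ (Sol σ (q i) (y i) ∧ FA J c σ n₀ (y i) R) ∧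
      (y i).kap (oI W c R) = k) (t : Str 𝒰 y y₀) :
    ∀ᶠ i in (𝒰 : Filter α), WO P k sh σ (q i) (y i) m := by
  obtain ⟨m', hm⟩ := Ultrafilter.eventually_exists_iff.1
    (d.mono fun i a => H.ex_wo a.1 a.2.1.1 a.2.1.2 a.2.2)
  obtain ⟨ξ, A₁, c₁⟩ := hc H.ok σ H.mem _ _ P.ε (P.v m') H.hd.cl H.hd.cs α 𝒰 q y q₀ y₀
    ((d.and hm).mono fun _ ⟨a, w⟩ => ⟨a.2.1.1, w.ai.imp fun _ b => ⟨b.1.ab, b.2⟩⟩) h₀ t
  filter_upwards [d, hm] with i a ⟨_, ⟨ξ', b, u⟩, _⟩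
  rcases Mp86.Uq.fm_pm (Λ.B_ok _ _) (H.ok.G_ok H.mem h₀.ov) H.hd.sc.1 A₀ A₁ with z | z
  · exact H.wo a.1 a.2.1.1 a.2.1.2 a.2.2 b.ab fun j => (u j).trans ((c₁ j).symm.trans (by
      rw [xf, z]; exact c₀ j))
  · exact H.wo a.1 a.2.1.1 a.2.1.2 a.2.2 (Lns95.ab_neg b.ab) fun j => by
      rw [xf, Abel74.fm_neg, neg_mul, Int54.integ_neg, u j, ← c₁ j, xf, z, neg_mul,
        Int54.integ_neg, neg_neg]
      exact c₀ j

/-- the terms of the inner cuts are not seen by `WO` -/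
theorem wo_cg (a' : Adm q') (hy : Sol σ q y) (f : FA J c σ n₀ y R)
    (w : WO P k sh σ q y m) (t : J.τ c q' y.s = J.τ c q y.s)
    (u : ∀ l, ¬Inn J R l → J.σc c q y.s l = J.σc c q' y.s l) : WO P k sh σ q' y m :=
  let ⟨ξ, b, cl⟩ := w.ai
  have b' : AI J c R q' y.s y.x k ξ := ⟨b.pm, b.ab, t ▸ b.C, b.int, b.lev⟩
  ⟨⟨w.so.cell, w.so.inf, w.so.adm, w.so.off, t ▸ w.so.D, t ▸ w.so.C, t ▸ w.so.S,
      fun l hl => row_cg (u l (H.not_inn hl)) (w.so.cut l hl), w.so.lim, w.so.crit, w.so.int⟩,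
    ⟨ξ, b', cl⟩, bk hy R ⟨H.cw, f.1.2.2.2.1.2 R H.cw⟩ ▸
      (H.hd.lim q' _ _ ξ m a' b' cl (hy.act H.ok H.mem H.cw false) _ _
        (H.bs (hy.crit R H.cw false))).1 (hy.lim R false _)⟩

/-- **stage B** -/
theorem cutB (sep : Sep J) (hc : ClcL J c) (hk : KscL J c) (hg : KgenL J c) (op : St.IsOp Adm)
    (le : ∀ q, G q → Adm q) (o : St.IsOp G)
    (g : ∀ q, G q → G1 J c δ sh σ n₀ q ∧ Cg J c σ Adm q)
    (tv : ∀ q, G q → ∀ y m, Sol σ q y → FA J c σ n₀ y R → WO P k sh σ q y m → Tv P σ e m q y.s) :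
    Low.Ax ⟨G, fun q => G q ∧ ∀ y, Sol σ q y ∧ FA J c σ n₀ y R → P.Tr e σ q y⟩ := by
  classical
  have g1 : ∀ {q y}, G q → Sol σ q y → Fc J c σ n₀ y R ∧ (¬y.TF (hp R false) →
      Ok δ y (pO J c sh σ R) ∧ RegO J c δ sh σ q y R) := fun {q y} a b => by
    obtain ⟨x, t⟩ := (g q a).1 y b fun t =>
      singleton_ne_empty R (H.c1.symm.trans (congrArg Subtype.val t.1))
    rwa [singleton_injective (H.c1.symm.trans t.1.2.1)]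
  have lv : ∀ {q y}, G q → Sol σ q y ∧ FA J c σ n₀ y R → Adm q ∧ (Sol σ q y ∧ FA J c σ n₀ y R) ∧
      y.kap (oI W c R) = k := fun a b =>
    ⟨le _ a, b, (H.lev _ _ (le _ a) b.1 b.2 ((g1 a b.1).2 b.2.2.1).1).1⟩
  have nr : ∀ {q₀ y₀ m α} {𝒰 : Ultrafilter α} {q} {y y' : α → J.Obc c}, G q₀ →
      Sol σ q₀ y₀ ∧ FA J c σ n₀ y₀ R → WO P k sh σ q₀ y₀ m → St.Cv (𝒰 : Filter α) q q₀ →
      (∀ᶠ i in (𝒰 : Filter α), WO P k sh σ (q i) (y i) m ∧ WO P k sh σ (q i) (y' i) m) →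
      StrOn (pO J c sh σ R) 𝒰 y y₀ → StrOn (pO J c sh σ R) 𝒰 y' y₀ →
      ∀ᶠ i in (𝒰 : Filter α), Ceq R (y i) (y' i) := fun a b w =>
    have t := (g1 a b.1).2 b.2.2.1
    H.near op (le _ a) b.1 b.2 t.2 t.1 (H.of_tv (le _ a) (ovc H.mem b.1) (H.sin_ne w
      ((H.num _ _ R (le _ a) b.1 b.2.1).2.2 b.2.2.1 t.1).1) (tv _ a _ _ b.1 b.2 w))
  have ok : ∀ {q} {y : J.Obc c}, Sol σ q y → y.Ok := fun b => b.ok H.ok H.mem
  refine Cn.low (e := eS J c R) (L := fun _ 𝒰 y y₀ => Str 𝒰 y y₀) ⟨o, fun q₀ a α 𝒰 q y b d => ?_,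
    fun q₀ a α 𝒰 q y y₀ b d s t ⟨_, _, _, _, A₀, c₀, _, L⟩ => ?_,
    fun q₀ a α 𝒰 q y y' y₀ y₁ b d s s' E t t' => ?_,
    fun q y _ _ a => (H.iso H.ok σ H.mem q y a.1).1 _ _, fun q y a s => ?_⟩
  · obtain ⟨y₀, h1, h2⟩ := (g q₀ a).2 α 𝒰 q y b (d.mono fun _ k => ⟨le _ k.1, k.2.1⟩)
    exact ⟨y₀, ⟨h1, (g1 a h1).1, fun t => let ⟨_, k⟩ := (d.and (h2.tf t)).exists; k.1.2.2.2.1 k.2,
      H.lin α 𝒰 y y₀ _ (hp_mem H.c1 _) (ok h1) (d.mono fun _ k => ⟨ok k.2.1, k.2.2.2.2⟩) h2⟩, h2⟩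
  · filter_upwards [d, cls H hc s.1 A₀ c₀ (d.mono fun _ k => lv k.1 k.2) t,
      (eventually_all (ι := {l // Inn J R l})).2 fun u => (hk H.ok σ H.mem α 𝒰 q y q₀ y₀ b
        (d.mono fun _ k => k.2.1) s.1 t u (H.inn_unc u.2)).1 (L u u.2)] with i d w L
    exact tr_of w (tv _ d.1 _ _ d.2.1 d.2.2 w) fun l hl => L ⟨l, hl⟩
  · obtain ⟨m, w⟩ := H.ex_wo (le _ a) s.1 s.2 (lv a s).2.2
    obtain ⟨ξ, A₀, c₀⟩ := w.ai
    obtain ⟨ψ, h1, h2, h3⟩ := rep H (le _ a) s.1 s.2 s'.1 s'.2 (eS.ceq E (ok s'.1))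
      (d.mono fun _ k => ⟨_, k.2.2.1⟩) t'
    exact ((nr a s w b ((cls H hc s.1 A₀.ab c₀ (d.mono fun _ k => lv k.1 k.2.1) t).and
      (cls H hc h1 A₀.ab c₀ (d.mono fun _ k => lv k.1 k.2.2) h2)) (H.son (le _ a) s.1 s.2 t) h3).and
      d).mono fun _ k => .inr ⟨ok k.2.2.1.1, ok k.2.2.2.1, k.1⟩
  obtain ⟨m, w⟩ := H.ex_wo (le _ a) s.1 s.2 (lv a s).2.2
  obtain ⟨ξ, A₀, c₀⟩ := w.ai
  choose qq cv sp l1 l2 using fun l : {l // Inn J R l} => hg H.ok sep σ y.s (ovc H.mem s.1) _ y.x ξ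
    H.hd.cl A₀.ab l (H.inn_unc l.2) (H.inn_sub l.2) _
    (H.rch.C _ s.1.cell s.1.inf _ (hp_mem H.c1 false) l l.2) q
  have ne : ∀ i w, (q + ∑ l, (qq l i - q)) w ≠ q w → ∃ l, qq l i w ≠ q w := fun i w k => by
    by_contra! n
    simp [n] at k
  have σi : ∀ i (l : {l // Inn J R l}), J.σc c (q + ∑ l, (qq l i - q)) y.s l = J.σc c (qq l i) y.s l :=
    fun i l => σc_cg fun w k => by_contra fun n => k (by
      rw [Finsupp.add_apply, Finsupp.finsetSum_apply, Finset.sum_eq_single l (fun l' _ u =>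
        (Finsupp.sub_apply ..).trans (sub_eq_zero.2 (by_contra fun v =>
          n ((sp l' i w v).2 l (Subtype.coe_ne_coe.2 u.symm))))) (by simp)]
      simp)
  refine ⟨_, cv_sum cv, fun 𝒰 z y₁ u d s' E t => ?_⟩
  obtain ⟨ψ, h1, h2, h3⟩ := rep H (le _ a) s.1 s.2 s'.1 s'.2 (eS.ceq E (ok s'.1))
    (d.mono fun _ k => ⟨_, k.2.1⟩) t
  have d' := d.mono fun _ k => lv k.1 k.2
  have n := nr (y' := fun _ => y) a s w (cv_le (cv_sum cv) u) ((cls H hc h1 A₀.ab c₀ d' h2).and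
    (d.mono fun i k => wo_cg H (le _ k.1) s.1 s.2 w
      (τ_cg H.nil fun w k => let ⟨l, v⟩ := ne i w k; (sp l i w v).1) fun l hl => (σc_cg fun w k =>
        let ⟨l', v⟩ := ne i w k; (sp l' i w v).2 l fun e => hl (e ▸ l'.2)).symm)) h3
    (H.son (le _ a) s.1 s.2 ((H.iso H.ok σ H.mem q y s.1).1 _ _))
  have fl := H.hd.flx q _ _ ξ (le _ a) A₀
  have f2 : ∀ l, Inn J R l → |Hol14.flux _ (J.cut c l) (xf J c y.s y.x ξ)| = 2 * π := fun l hl =>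
    (fl.1 l hl).resolve_right fun z0 => by
      obtain ⟨i, b, d, v⟩ := (n.and (d'.and ((l2 ⟨l, hl⟩ z0).filter_mono u))).exists
      obtain ⟨ψ, r⟩ := ceq_row b H.ok (ovc H.mem d.2.1.1) (ok d.2.1.1) (ok s.1) (H.inn_unc hl)
        (d.2.1.1.cut l ((H.yH d.1 d.2.1.1 d.2.1.2).1.ge trivial))
      exact v ψ (row_cg (σi i ⟨l, hl⟩) r)
  obtain ⟨ξ', A', c'⟩ : ∃ ξ', Ab (J.B c) (J.G c y.s) (oI W c R) y.x ξ' ∧ P.Cl y.s y.x ξ' P.g :=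
    (fl.2.1 f2).elim (fun k => ⟨ξ, A₀.ab, k⟩) fun k => ⟨_, Lns95.ab_neg A₀.ab, k⟩
  filter_upwards [d, n, cls H hc h1 A' c' d' h2,
    eventually_all.2 fun l => (l1 l (f2 l l.2)).filter_mono u] with i d b w L
  exact tr_of w (tv _ d.1 _ _ d.2.1 d.2.2 w) fun l hl => b.line H.ok (ovc H.mem d.2.1) (ok d.2.1)
    (ok s.1) (H.inn_unc hl) fun ψ ψ' r r' =>
      L ⟨l, hl⟩ ψ ψ' (row_cg (σi i ⟨l, hl⟩) r) (row_cg (σi i ⟨l, hl⟩) r')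

end Crest.Agent.X212.Tm38.Tq
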