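import Crest.Agent.X212.Tm38.TqB
import Crest.Agent.X212.Tm38.Tq

/-!
# Row 212, RFQ-TRQ (helper38): stage A on the job, `Qab60.TrqStmt`
-/

set_option autoImplicit false
set_option linter.unusedSectionVars false
noncomputable section
open scoped Manifold ContDiff Topology Real
open Set Function Filter

namespace Crest.Agent.X212.Tm38.Tq
open An M Nd18 Rf65 Qab60 Mp86.St Eqv71 Trq48
open An.Job (Sol SolOn StrOn Str Obc)

section job
variable {Wi : Type} {X : Mf 4} {A κ lam : Type} [Fintype A] [Fintype κ] [Fintype lam]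
  [DecidableEq lam] {M : Mark X A κ} {W : World M} {N : ML M lam} {Λ : Lns W N}
  {A' h : Type} [Fintype A'] [DecidableEq A'] [Fintype h] {r n : ℕ}
  {J : Job Wi Λ A' h r n} {c : M.Cl} {R : A} {P : HD J c R} {δ k : ℝ} {sh : Set A'} {σ : Cel A'}
  {Adm G : (Wi →₀ ℝ) → Prop} {n₀ : ℤ} {e : Bool → A'} {q q' : Wi →₀ ℝ} {y : J.Obc c}
  (H : Cq P δ k sh σ Adm n₀ e)
include H

theorem mono (le : ∀ q, G q → Adm q) : Cq P δ k sh σ G n₀ e :=
  have O := H.hd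
  { H with
    fin := H.fin.subset fun _ ⟨q, y, a, b⟩ => ⟨q, y, le q a, b⟩
    rch := ⟨H.rch.S, H.rch.C, fun ρ k => (H.rch.T ρ k).imp_right fun t q y a => t q y (le q a)⟩
    kill := fun q y a => H.kill q y (le q a)
    num := fun q y x a => H.num q y x (le q a)
    hd := { O with
      cls := fun q s x ξ a => O.cls q s x ξ (le q a)
      lim := fun q s x ξ m a => O.lim q s x ξ m (le q a)
      uq := fun q s x ξ x' ξ' m a => O.uq q s x ξ x' ξ' m (le q a)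
      ex := fun q s x a => O.ex q s x (le q a)
      flx := fun q s x ξ a => O.flx q s x ξ (le q a)
      sm := fun m S θ a b => let ⟨U, Φ, h1, h2, h3⟩ := O.sm m S θ a b
        ⟨U, Φ, h1, h2, fun q a => h3 q (le q a)⟩
      loc := fun m q σ s s' a => O.loc m q σ s s' (le q a)
      crn := O.crn.imp fun _ k => ⟨k.1, fun q σ s b a => k.2 q σ s b (le q a)⟩
      mov := fun q s x ξ m a b => O.mov q s x ξ m (le q a) fun w => (b w).mono fun _ => le _
      taf := fun q σ s x ξ m b a => O.taf q σ s x ξ m b (le q a) }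
    out := fun q y a => H.out q y (le q a)
    lev := fun q y a => H.lev q y (le q a) }

/-- the inner words are not seen outside -/
theorem so_cg (a : SolOn (pO J c sh σ R) σ q y) (u : ∀ w, q' w ≠ q w →
    (J.tw w).Van (M.sys.U (hp R true)) ∧ ∀ l, J.cc l w = 0) : SolOn (pO J c sh σ R) σ q' y := by
  have z : ∀ a w, (J.xs a).ty w = 0 := fun a w => congrFun (H.nil a).2 w
  have v := fun w m => Wrd81.van_tm (Job.isClopen_un (W := W) H.pok.pc) (H.ok.tame H.mem a.ov)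
    (ad0 a.adm) a.off (Job.van_tp (J := J) H.pok.pc (τ := J.tw w)
      ((biUnion_singleton _ _).symm ▸ (u w m).1))
  refine ⟨a.cell, a.inf, a.adm, a.off, fun x hx => .trans ?_ (a.D x hx), fun x hx => .trans ?_ (a.C x hx),
    fun i => .trans ?_ (a.S i), fun l hl => row_cg (σc_cg fun w m => by
      rw [(u w m.symm).2 l]; rfl) (a.cut l hl), a.lim, a.crit, a.int⟩
  all_goals simp only [Cfg.eD, Cfg.eC, Job.τ, Pt.add, fsum]
  · rw [sum_cg (q := q') (q' := q) ?_ ?_]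
    exacts [by simp, fun w m b => by
      simp [Job.τw, Pt.add, Pt.smul, Pt.dsum, fsum, An.tmP, z, ((v w m).1 x hx).1]]
  · rw [sum_cg (q := q') (q' := q) ?_ ?_]
    exacts [by simp, fun w m b => by
      simp [Job.τw, Pt.add, Pt.smul, Pt.dsum, fsum, An.tmP, z, ((v w m).1 x hx).2]]
  · rw [sum_cg (q := q') (q' := q) ?_ ?_]
    exacts [by simp, fun w m b => by
      simp [Job.τw, Pt.add, Pt.smul, Pt.dsum, fsum, An.tmP, z, (v w m).2]]

/-- **LEAF TR** at the wall `R` -/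
theorem trL (sep : Sep J) (hc : ClcL J c) (hk : KscL J c) (hg : KgenL J c) :
    TrL J c δ sh σ Adm n₀ (P.Tr e σ) := fun G lw g => by
  have H := mono H lw.le
  have g1 : ∀ {q y}, G q → Sol σ q y → Fc J c σ n₀ y R ∧ (¬y.TF (hp R false) →
      Ok δ y (pO J c sh σ R) ∧ RegO J c δ sh σ q y R) := fun {q y} a b => by
    obtain ⟨x, t⟩ := (g q a).1 y b fun t =>
      singleton_ne_empty R (H.c1.symm.trans (congrArg Subtype.val t.1))
    rwa [singleton_injective (H.c1.symm.trans t.1.2.1)]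
  have sn : ∀ {q y m}, G q → Sol σ q y → FA J c σ n₀ y R → WO P k sh σ q y m →
      Real.sin (2 * π * P.H m q y.s) ≠ 0 := fun a b f w =>
    H.sin_ne w ((H.num _ _ R a b f.1).2.2 f.2.1 ((g1 a b).2 f.2.1).1).1
  have ok : ∀ {q} {y : J.Obc c}, Sol σ q y → y.Ok := fun b => b.ok H.ok H.mem
  have l1 := Hy.low (G := G) (I := fun w => (J.tw w).Van (M.sys.U (hp R true)) ∧ ∀ l, J.cc l w = 0)
    (K := Kq P σ e) (Sl := fun q m t => ∃ y, (Sol σ q y ∧ FA J c σ n₀ y R) ∧ WO P k sh σ q y m ∧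
      tt e y.s = t) ⟨lw.op, H.smo, fun _ _ _ _ ⟨_, s, _, t⟩ => t ▸ H.tt_mem (ovc H.mem s.1), ?_, ?_⟩
  · have l2 := cutB H sep hc hk hg lw.op l1.le l1.op
      (fun q a => ⟨(g q a.1).1, fun α 𝒰 u y b d => (g q a.1).2 α 𝒰 u y b
        (d.mono fun _ k => ⟨lw.le _ k.1, k.2⟩)⟩) fun q a y m s f w =>
      have t := a.2 m _ ⟨y, ⟨s, f⟩, w, rfl⟩
      H.tv_of a.1 (ovc H.mem s) t.1 t.2
    refine ⟨_, (lw.trans l1).trans l2, fun q a y x s f => ?_⟩
    obtain rfl : R = x := singleton_injective (H.c1.symm.trans f.1.2.1)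
    have t := a.2 y ⟨s, f⟩
    exact ⟨(H.lev q y a.1.1 s f ((g1 a.1.1 s).2 f.2.1).1).2 (t.imp fun _ k => k.choose_spec.1), t⟩
  · rintro q m _ a ⟨y, s, w, rfl⟩
    obtain ⟨ξ, b, cl⟩ := w.ai
    have o := fun v => lw.op q a _ _ _ (cv_single q v)
    obtain ⟨v, h1, h2, h3⟩ := H.hd.mov q _ _ ξ m a o b cl
    refine ⟨v, ⟨h1, h2⟩, ?_⟩
    rw [Trq48.dw.eq_1, EventuallyEq.deriv_eq (f := fun u => Real.cos (2 * π * P.H m (q + .single v u) y.s))
      ((o v).mono fun u k => by simp only [Kq, H.H_pth k (ovc H.mem s.1)]),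
      ((differentiableAt_of_deriv_ne_zero h3).hasDerivAt.const_mul _).cos.deriv]
    simpa [h3] using sn a s.1 s.2 w
  · intro q₀ a α 𝒰 q m t cv d
    obtain ⟨_, -, y₁, -⟩ := d.exists
    have : Nonempty (J.Obc c) := ⟨y₁⟩
    obtain ⟨y, hy⟩ := (d.mono fun _ => And.right).choice
    obtain ⟨m₀, hm⟩ := (Ultrafilter.eventually_exists_iff (f := 𝒰) (P := fun m₀ i => m i = m₀)).1
      (.of_forall fun _ => ⟨_, rfl⟩)
    obtain ⟨y₀, h1, h2⟩ := (g q₀ a).2 α 𝒰 q y cv ((d.and hy).mono fun _ k => ⟨lw.le _ k.1.1, k.2.1.1⟩)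
    have f : FA J c σ n₀ y₀ R := ⟨(g1 a h1).1,
      fun t => let ⟨_, k⟩ := (hy.and (h2.tf t)).exists; k.1.1.2.2.1 k.2,
      H.lin α 𝒰 y y₀ _ (hp_mem H.c1 _) (ok h1) (hy.mono fun _ k => ⟨ok k.1.1, k.1.2.2.2⟩) h2⟩
    have r := (g1 a h1).2 f.2.1
    obtain ⟨ξ, A₁, c₁⟩ := hc H.ok σ H.mem _ _ P.ε (P.v m₀) H.hd.cl H.hd.cs α 𝒰 q y q₀ y₀
      ((hy.and hm).mono fun _ k => ⟨k.1.1.1, k.1.2.1.ai.imp fun _ b => ⟨b.1.ab, k.2 ▸ b.2⟩⟩) h1 h2
    have w := H.wo a h1 f (H.lev _ _ a h1 f r.1).1 A₁ c₁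
    refine ⟨m₀, _, ⟨y₀, ⟨h1, f⟩, w, rfl⟩, hm,
      ((tt_cont.tendsto _).comp h2.s).congr' (hy.mono fun _ k => k.2.2), fun u => ?_⟩
    filter_upwards [d, hy, hm, H.out q₀ y₀ a h1 f r.2 r.1 α 𝒰 q y (fun _ => y₀) cv
      (hy.mono fun i k => ⟨k.2.1.so, so_cg H w.so (u i)⟩) (H.son a h1 f h2)
      (H.son a h1 f ((H.iso H.ok σ H.mem q₀ y₀ h1).1 _ _))] with i b s j o
    rw [← s.2.2, H.Kq_tt a w, H.Kq_tt b.1 (j ▸ s.2.1), (H.hd.clr.eqv
      (H.bs (s.2.1.so.crit R H.cw true en_out)) (H.bs (w.so.crit R H.cw true en_out))).1 o.2]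

end job

/-- **LEAF TRQ** -/
theorem trqStmt {κ lam : Type} [Fintype κ] [Fintype lam] [DecidableEq lam] (Lm : G75.LM κ lam) :
    TrqStmt Lm := trq Lm fun _ _ _ _ _ _ _ _ _ _ _ => trL

end Crest.Agent.X212.Tm38.Tq
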