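import Crest.Agent.X212.Tm38.Defs
import Crest.Agent.X212.Lft9.Main
import Crest.Agent.X212.Sm25.Dsc
import Crest.Agent.X212.Dr59.NbR

/-!
# Row 212, layer G (helper38): lines with exact curvature and trivial holonomy are trivial

* `triv_of_ex`;  `h1_fil` : integral homology spheres have no abelian cocycles;  `zhs`.
-/

set_option autoImplicit false
set_option linter.unusedSectionVars false
noncomputable section
open Set Function Filter Topology Matrix
open scoped ContDiff Manifold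

namespace Crest.Agent.X212.Tm38
open Crest.Agent.R208 Dr59 Pj41 Weil93 Hz56 Lev33
open Crest.Agent.R208.F hiding pb
open Line51 hiding dm

section Triv

variable {E : Type} [NormedAddCommGroup E] [NormedSpace ℝ E] [FiniteDimensional ℝ E]
  {H : Type} [TopologicalSpace H] {I : ModelWithCorners ℝ E H} [I.Boundaryless]
  {M : Type} [TopologicalSpace M] [ChartedSpace H M] [IsManifold I ∞ M]
  {n : Type} [Fintype n] [DecidableEq n] {U : Set M} {L : Ln E M n}

theorem fr_smul {s t : M → Matrix n Unit ℂ} {α : M → Ext E} (hU : IsOpen U) (h : L.Fr I s α U) (g : Circle)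
    (e : ∀ y ∈ U, t y = (g : ℂ) • s y) : L.Fr I t α U :=
  ((h.mul_sc (g := fun _ => g) fun _ _ => contMDiffAt_const).of_eq (K := triv α) (fun _ _ => rfl)
    (fun x _ => by
      show α x = α x + ang I (fun _ => g) x
      rw [ang_const, Pi.zero_apply, add_zero]) (fun _ _ => rfl) fun _ _ => rfl).congr hU fun y hy => by
    rw [e y hy, Lab56.mul_sc]

/-- **TRIV** -/
theorem triv_of_ex (hU : IsOpen U) (h : L.On I U) (e : Ex I U (L.F I)) (h1 : H1 Circle U) :
    ∃ s, Uni I (fun _ => (1 : Matrix Unit Unit ℂ)) L.p s U := by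
  obtain ⟨β, b1, b2, b3⟩ := e.deg (k := 1) (h.cl_F hU).dg
  obtain ⟨t, ht⟩ := h1.exists_glob (F := Matrix n Unit ℂ) (fun g s => (g : ℂ) • s)
    (fun g g' s => by rw [Circle.coe_mul, mul_smul])
    (Gd := fun x s => ∃ V, IsOpen V ∧ x ∈ V ∧ L.Fr I s β V)
    (fun x hx => by
      obtain ⟨V, s, α, v1, v2, v3, v4, v5, v6, v7⟩ := h.exists_pot hU hx
      obtain ⟨W, w1, w2, w3⟩ := exists_nice (I := I) x V (v1.mem_nhds v2)
      have k : Cl I 1 W (β - α) :=
        ⟨(b1.mono (w3.trans v3)).sub (v5.mono w3), (b2.mono (w3.trans v3)).sub (v6.mono w3), fun y hy => by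
          rw [dM_sub ne0 (b1 y (v3 (w3 hy))) (v5 y (w3 hy)), b3 y (v3 (w3 hy)), v7 (w3 hy), sub_self]⟩
      obtain ⟨f, hf⟩ := exists_df w2.op (w2.hz 0 _ k) k.dg
      exact ⟨_, mem_nhdsWithin_of_mem_nhds (mem_of_superset w1 fun y hy =>
        ⟨W, w2.op, hy, Sm25.fr_exp (v4.mono w3) hf⟩)⟩)
    (fun x _ s s' ⟨V, v1, v2, v3⟩ ⟨V', u1, u2, u3⟩ => by
      obtain ⟨W, w1, w2, w3⟩ := exists_nice (I := I) x _ ((v1.inter u1).mem_nhds ⟨v2, u2⟩)
      obtain ⟨c, c1, c2⟩ := Sm25.exists_tr (f := fun _ => 0) w2 (v3.mono (w3.trans inter_subset_left))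
        (u3.mono (w3.trans inter_subset_right)) fun y _ =>
          ⟨contMDiffAt_const, by rw [df_eq_zero EventuallyEq.rfl, sub_self]⟩
      exact ⟨⟨c, mem_sphere_zero_iff_norm.2 c1⟩, mem_nhdsWithin_of_mem_nhds (mem_of_superset w1 fun y hy => by
        simpa using c2 y hy)⟩)
    (fun x _ s g g' ⟨V, _, v2, v3⟩ k => by
      have k1 := congrArg (fun m => ((s x)ᴴ * m) () ()) k
      simp only [Matrix.mul_smul, (v3.iso x v2).src, triv] at k1
      exact Subtype.ext (by simpa using k1))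
    (fun x hx s s' g ⟨V, v1, v2, v3⟩ k => by
      rw [hU.nhdsWithin_eq hx] at k
      obtain ⟨W, w1, w2, w3⟩ := eventually_nhds_iff.1 k
      exact ⟨V ∩ W, v1.inter w2, ⟨v2, w3⟩,
        fr_smul (v1.inter w2) (v3.mono inter_subset_left) g fun y hy => w1 y hy.2⟩)
  exact ⟨t, fun x hx => let ⟨_, _, v2, v3⟩ := ht x hx; v3.sm x v2,
    fun x hx => let ⟨_, _, v2, v3⟩ := ht x hx; v3.iso x v2⟩

end Triv

section Fil
open Rod53 hiding Uni X

variable {EN HN : Type} [NormedAddCommGroup EN] [NormedSpace ℝ EN] [FiniteDimensional ℝ EN]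
  [TopologicalSpace HN] {IN : ModelWithCorners ℝ EN HN} [IN.Boundaryless]
  {N : Type} [TopologicalSpace N] [ChartedSpace HN N] [IsManifold IN ∞ N] [T2Space N]
  {EY HY : Type} [NormedAddCommGroup EY] [NormedSpace ℝ EY] [TopologicalSpace HY]
  {IY : ModelWithCorners ℝ EY HY} {Y : Type} [TopologicalSpace Y] [ChartedSpace HY Y]
  {T : Tb IN N} {a b : Z2} {G : Type} [CommGroup G]

/-- fillings of slope `± 1` carry no abelian cocycle -/
theorem h1_fl (F : Rod53.Fl T a b IY Y) (ha : |a.2| = 1) (hN : H1 G (univ : Set N)) {θ : N → Circle}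
    (hθ : Ang T θ (0, 1)) : H1 G (univ : Set Y) := fun c hc => by
  have cθ : ContinuousOn θ T.Ex := fun q hq => (hθ.sm q hq).continuousAt.continuousWithinAt
  have oe := Glue52.ld_isOpenEmbedding T.ld T.inj
  have oE := F.oeE.isOpenEmbedding
  have oT := F.oeT.isOpenEmbedding
  have dc : ∀ x : Circle, Glue52.dir x = x := fun x => by simpa using Glue52.dir_mul one_pos x
  let e : N → Y := extend Subtype.val F.ie fun _ => F.it (1, 0)
  have he : ∀ p : F.W, e p = F.ie p := fun p => Subtype.val_injective.extend_apply _ _ p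
  have ce : ContinuousOn e T.Ex := by
    rw [show T.Ex = (F.W : Set N) from Set.ext fun p => (F.hW p).symm, continuousOn_iff_continuous_domRestrict]
    exact oE.continuous.congr fun p => (he p).symm
  have h0 := hc.comp ce (mapsTo_univ _ _)
  obtain ⟨m, hm⟩ := exists_hol (h0.comp (f := fun x : Circle => T.τ (1, x))
    (oe.continuous.comp (by fun_prop)).continuousOn fun x _ => T.τ_mem.2 x.coe_ne_zero)
  have h2 := tr_tube oe hN (Lft9.coc_mul h0 ((coc_cir m⁻¹).comp cθ (mapsTo_univ _ _)))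
    ((mul_inv_cancel m ▸ Lft9.hol_mul hm (isHol_cir m⁻¹)).congr fun x y => by
      simp [pb, hθ.eq (1, (x : ℂ)) x.coe_ne_zero, hθ.eq (1, (y : ℂ)) y.coe_ne_zero, chT, dc]).tr
  have q : ∀ x : Circle, e (T.τ (crv a 1 x)) = F.it (1, x) ∧ θ (T.τ (crv a 1 x)) = x ^ a.2 := fun x =>
    ⟨(he ⟨_, (F.hW _).2 (T.τ_mem.2 (crv_ne a one_pos x))⟩).trans ((F.eq _ _).2 ⟨x.coe_ne_zero,
      congrArg T.τ (by simpa using gl_left a b one_pos x)⟩), by rw [hθ.eq _ (crv_ne a one_pos x)]; simpa [chT, crv] using dc (x ^ a.2)⟩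
  have h3 : Tr univ (pb (fun x : Circle => F.it (1, x)) c) :=
    (h1_convex convex_univ _ (hc.comp (f := fun z : ℂ => F.it (1, z))
      (oT.continuous.comp (by fun_prop)).continuousOn (mapsTo_univ _ univ))).comp
        continuous_subtype_val.continuousOn (mapsTo_univ _ _)
  have h4 : Tr univ (pb (fun x : Circle => x ^ a.2) (cir m⁻¹)) :=
    Lft9.tr_div ((h2.comp (T := univ) (f := fun x => T.τ (crv a 1 x)) (oe.continuous.comp
      (continuous_crv a 1)).continuousOn fun x _ => T.τ_mem.2 (crv_ne a one_pos x)).congr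
        (geq_of_eq fun x _ y _ => by simp only [pb, Pi.mul_apply, (q _).1, (q _).2, mul_comm])) h3
  have h5 : Tr univ (cir m⁻¹) :=
    (h4.comp (f := fun x : Circle => x ^ a.2) (continuous_zpow _).continuousOn (mapsTo_univ _ _)).congr
      (geq_of_eq fun x _ y _ => by
        simp only [pb, ← _root_.zpow_mul, ← abs_mul_abs_self a.2, ha, mul_one, zpow_one])
  have h6 : Tr (range F.ie) c := (tr_range_iff oE.isEmbedding).2
    (((Lft9.tr_div h2 (h5.comp cθ (mapsTo_univ _ _))).comp continuous_subtype_val.continuousOn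
      fun p _ => (F.hW _).1 p.2).congr (geq_of_eq fun x _ y _ => by simp only [pb, he]))
  have m : ∀ w, F.it w ∈ range F.ie ↔ w.2 ≠ 0 := fun w =>
    ⟨fun ⟨p, k⟩ => ((F.eq p w).1 k).1, fun k => ⟨⟨_, (F.hW _).2 (T.τ_mem.2 (gl_ne.2 k))⟩, (F.eq _ w).2 ⟨k, rfl⟩⟩⟩
  have s : F.it ⁻¹' range F.ie = univ ×ˢ {0}ᶜ := Set.ext fun w => (m w).trans (by simp)
  have ex : ∀ y, y ∉ range F.ie → ∃ u, F.it (u, 0) = y := fun y hy => by
    obtain ⟨⟨u, z⟩, rfl⟩ := (F.surj y).resolve_left hy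
    obtain rfl : z = 0 := not_not.1 (mt (m (u, z)).2 hy)
    exact ⟨u, rfl⟩
  refine h6.ext_nsep isOpen_univ oE.isOpen_range (fun y _ => ?_) hc fun y _ hy => ?_
  · by_cases hy : y ∈ range F.ie
    · exact subset_closure hy
    · obtain ⟨u, rfl⟩ := ex y hy
      exact map_mem_closure oT.continuous ((dense_univ.prod (dense_compl_singleton (0 : ℂ))) (u, 0))
        fun w hw => (m w).2 hw.2
  · obtain ⟨u, rfl⟩ := ex y hy
    exact NSep.emb oT (s ▸ (nsep_univ u).prod nsep_c)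

end Fil

open Wd38

variable {Γ : Nm} (C : Cx Γ)

theorem h1_fil {τ : Γ.ι × Rod53.Z2} (h : Pr τ.2) (h1 : |τ.2.2| = 1) {G : Type} [CommGroup G] :
    H1 G (univ : Set (mF C.kd τ).M) :=
  h1_fl (C.F τ rfl) (by rwa [sa_fd h]) h1_S3 (ang_KD _)

/-- **TM-ZHS** -/
theorem zhs : ZhsStmt C := fun τ h h1 _ _ _ p hp =>
  let ⟨s, hs⟩ := triv_of_ex isOpen_univ hp (hz_fil C h (by rintro e; simp [e] at h1) 1 one_lt_two _
    (hp.cl_F isOpen_univ)) (h1_fil C h h1)
  ⟨s, hs⟩

end Crest.Agent.X212.Tm38
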